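import Vale.Agent.P237.Cal.Mid.Budget

/-!
# P237: the leaf for `n ≥ 128` from its pointwise half and the closed integrals
-/

open MeasureTheory Set Real

namespace Vale.Agent.P237.Cal.MidN

/-- The closed integrals of the loss terms. -/
def MidInt (m : ℕ) : Prop :=
  ∀ q Y Q ε kap : ℝ, 1 < q → 1 ≤ Y → Y ^ (m + 1) ≤ 2 * ((m : ℝ) + 2) → Q = q / Y ^ (m + 1) →
    Q ≤ rr (m + 1) ^ (m + 1) → ε = 4 * q ^ (2 / ((m : ℝ) + 2)) / Y ^ 2 → 7 / 2 ≤ ε → ε ≤ 203 / 50 →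
    kap = (1 - (Y ^ (m + 1))⁻¹) / 2 →
      (Continuous (gTM m ε kap) ∧ IntegrableOn (gTM m ε kap) (Ioi 0) ∧ ((m : ℝ) + 2) * ((∫ T in Ioi (0 : ℝ), gTM m ε kap T) / semiMom m 1) ≤ 23 / 20 * uOf m Y ^ 2) ∧
      (Continuous (upTM m (q * semiMom m 1) Y (LargeN.c0 m ε) (LargeN.c1 m ε)) ∧ IntegrableOn (upTM m (q * semiMom m 1) Y (LargeN.c0 m ε) (LargeN.c1 m ε)) (Ioi 0) ∧ ((m : ℝ) + 2) * ((∫ T in Ioi (0 : ℝ), upTM m (q * semiMom m 1) Y (LargeN.c0 m ε) (LargeN.c1 m ε) T) / semiMom m 1) ≤ 11 / 50 * ((q - 1) / Y ^ (m + 1)) + 27 / 25 * ((q - 1) / Y ^ (m + 1)) ^ 2) ∧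
      (Continuous (ngTM m Y (LargeN.c0 m ε) (LargeN.c1 m ε)) ∧ IntegrableOn (ngTM m Y (LargeN.c0 m ε) (LargeN.c1 m ε)) (Ioi 0) ∧ ((m : ℝ) + 2) * ((∫ T in Ioi (0 : ℝ), ngTM m Y (LargeN.c0 m ε) (LargeN.c1 m ε) T) / semiMom m 1) ≤ (1 - 9 / 20 * uOf m Y) ^ 2 * (yOf m Y * (369 / 100 * uOf m Y - 78 / 100 * (3 * uOf m Y - 22 / 10 * yOf m Y * (1 - uOf m Y)) + 802 / 10000 * (15 * uOf m Y - (12 * yOf m Y + 399 / 100 * yOf m Y ^ 2) * (1 - uOf m Y))))) ∧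
      (Continuous (lowTM m ε kap) ∧ IntegrableOn (lowTM m ε kap) (Ioi 0) ∧ ((m : ℝ) + 2) * ((∫ T in Ioi (0 : ℝ), lowTM m ε kap T) / semiMom m 1) ≤ 1 / 20 * uOf m Y ^ 2) ∧
      (Continuous (etaM m Y) ∧ IntegrableOn (etaM m Y) (Ioi 0) ∧ ((m : ℝ) + 2) * ((∫ T in Ioi (0 : ℝ), etaM m Y T) / semiMom m 1) ≤ 1 / 100 * uOf m Y * yOf m Y)

/-- **The leaf** from the pointwise half and the integrals. -/
theorem leaf_of_parts {m : ℕ} (hm : 126 ≤ m) (hpw : MidPw m) (hint : MidInt m) : Leaf m := by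
  intro q Y Q ε kap hq hY hYk hQ hQr hH hcap hε he1 he2 hkap
  obtain ⟨a, b, c, d, e⟩ := hint q Y Q ε kap hq hY hYk hQ hQr hε he1 he2 hkap
  obtain ⟨hc, hi, hl⟩ := mid_budget hm hq hY hYk hQ hQr hε he1 he2 hkap a b c d e
  exact ⟨midLB m q Y ε kap, hc, hi,
    hpw q Y Q ε kap hq hY hYk hQ hQr hH hcap hε he1 he2 hkap, hl⟩

/-- **`ProfileCal` for `n ≥ 128`** from the pointwise half and the integrals. -/
theorem profileCal_of_parts {m : ℕ} (hm : 126 ≤ m) (hpw : MidPw m) (hint : MidInt m) :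
    ProfileCal m :=
  profileCal_of_leaf (by omega) (leaf_of_parts hm hpw hint)

end Vale.Agent.P237.Cal.MidN
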