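import Vale.Agent.P237.Cal.LargeCal
import Vale.Agent.P237.Cal.Mid.Leaf

/-!
# P237: the pointwise half for `n ≥ 128` from its three sides

Each side may state its bound with a witness `L` below the exact part; `pw_of_L` turns that into
`LargeN.Pw`.
-/

open Real

namespace Vale.Agent.P237.Cal.MidN

variable {m : ℕ} {V Y T σ h X ε kap : ℝ}

/-- A witness below the exact part gives the pointwise inequality. -/
lemma pw_of_L {LB : ℝ → ℝ} (hT : 0 < T)
    (hmain : ∃ L, L ≤ valQ ε T σ h +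
      (2 * (shP m (LargeN.c0 m ε) (LargeN.c1 m ε) T / pre m T) * (σ - T) +
        (gG m ε kap T + 2 * shS m (LargeN.c0 m ε) (LargeN.c1 m ε) T * (X - X0 m T) / pre m T)) *
        (h - 1) ∧
      LB T ≤ pre m T * L + (σ - T) * ellFlat m ε kap (rr (m + 1)) T +
        (σ - T) ^ 2 * (shP' m (LargeN.c0 m ε) (LargeN.c1 m ε) T +
          2 * muX m T * shS m (LargeN.c0 m ε) (LargeN.c1 m ε) T)) :
    LargeN.Pw m ε kap LB T σ h X := by
  set c₀ := LargeN.c0 m ε with hc₀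
  set c₁ := LargeN.c1 m ε with hc₁
  have hpre : 0 < pre m T := by unfold pre; positivity
  obtain ⟨L, hL, hle⟩ := hmain
  have h1 := mul_le_mul_of_nonneg_left hL hpre.le
  rw [← gFlat_div_pre hT.ne'] at h1
  have e : pre m T * (valQ ε T σ h + (2 * (shP m c₀ c₁ T / pre m T) * (σ - T) +
      (gFlat m ε kap T / pre m T + 2 * shS m c₀ c₁ T * (X - X0 m T) / pre m T)) * (h - 1)) =
      pre m T * valQ ε T σ h + (gFlat m ε kap T + 2 * shP m c₀ c₁ T * (σ - T) +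
        2 * shS m c₀ c₁ T * (X - X0 m T)) * (h - 1) := by
    field_simp
    ring
  rw [e] at h1
  have hS := shS'_add (m := m) (c₀ := c₀) (c₁ := c₁) T
  simp only [LargeN.Pw, Pw3, ← hc₀, ← hc₁, mul_zero, zero_mul, add_zero, hS,
    show ((m : ℝ) + 1) * T ^ 2 / √(1 + T ^ 2) ^ (m + 4) = pre m T from rfl]
  simp only [ellFlat] at hle ⊢
  linarith

/-- The slack of the linear part is nonnegative. -/
lemma slack_nonneg (hm : 98 ≤ m) (hε : 0 ≤ ε) (hk0 : 0 ≤ kap) (hk : kap ≤ 1 / 2) (hY : 1 ≤ Y)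
    (hT : 0 < T) :
    0 ≤ ellFlat m ε kap (rr (m + 1)) T + nuFlat m ε kap T ∧
      0 ≤ (ellFlat m ε kap (rr (m + 1)) T + nuFlat m ε kap T) * -loD Y T := by
  have h := ellFlat_ge (m := m) (ε := ε) hm (by linarith) hk0 hk hT.le
  have h1 : 0 ≤ ellFlat m ε kap (rr (m + 1)) T + nuFlat m ε kap T := by rw [nuFlat]; linarith
  exact ⟨h1, mul_nonneg h1 (neg_nonneg.2 (loD_nonpos hY hT.le))⟩

/-- One side of the pointwise half, on the set `S` of `(T, σ)`. -/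
def SidePw (m : ℕ) (S : ℝ → ℝ → Prop) : Prop :=
  ∀ q Y Q ε kap : ℝ, 1 < q → 1 ≤ Y → Y ^ (m + 1) ≤ 2 * ((m : ℝ) + 2) → Q = q / Y ^ (m + 1) →
    Q ≤ rr (m + 1) ^ (m + 1) → hullTan m Y ≤ q * semiMom m 1 → q * semiMom m 1 ≤ capB m →
    ε = 4 * q ^ (2 / ((m : ℝ) + 2)) / Y ^ 2 → 7 / 2 ≤ ε → ε ≤ 203 / 50 →
    kap = (1 - (Y ^ (m + 1))⁻¹) / 2 →
    ∀ T σ h X, S T σ → RegC Y T σ h → XBox m (q * semiMom m 1) Y T σ X →
      Exc m (q * semiMom m 1) Y T σ → LargeN.Pw m ε kap (midLB m q Y ε kap) T σ h X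

/-- The pointwise half from `σ ≤ T`, `σ ≥ T` with `T ≤ 47/100`, and the tail. -/
theorem midPw_of_sides (hneg : SidePw m fun T σ => σ ≤ T)
    (hpos : SidePw m fun T σ => T ≤ σ ∧ T ≤ 47 / 100)
    (htail : SidePw m fun T σ => T ≤ σ ∧ 47 / 100 ≤ T) : MidPw m := by
  intro q Y Q ε kap h1 h2 h3 h4 h5 h6 h7 h8 h9 h10 h11 T σ h X hR hB hE
  rcases le_total σ T with hσ | hσ
  · exact hneg q Y Q ε kap h1 h2 h3 h4 h5 h6 h7 h8 h9 h10 h11 T σ h X hσ hR hB hE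
  rcases le_total T (47 / 100) with hT | hT
  · exact hpos q Y Q ε kap h1 h2 h3 h4 h5 h6 h7 h8 h9 h10 h11 T σ h X ⟨hσ, hT⟩ hR hB hE
  · exact htail q Y Q ε kap h1 h2 h3 h4 h5 h6 h7 h8 h9 h10 h11 T σ h X ⟨hσ, hT⟩ hR hB hE

/-- **`ProfileCal` for every `n ≥ 128`**, from the sides and the integrals below `384`. -/
theorem profileCal_from_128 (hside : ∀ m, 126 ≤ m → m ≤ 381 → MidPw m)
    (hint : ∀ m, 126 ≤ m → m ≤ 381 → MidInt m) {m : ℕ} (hm : 126 ≤ m) : ProfileCal m := by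
  rcases le_or_gt m 381 with h | h
  · exact profileCal_of_parts hm (hside m hm h) (hint m hm h)
  · exact profileCal_large (by omega)

end Vale.Agent.P237.Cal.MidN
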