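import Vale.Agent.P237.Cal.Mid.Ints
import Vale.Agent.P237.Cal.Mid.PwAll

/-!
# P237: `ProfileCal` for every `n ≥ 128` from the pointwise half below `384`
-/

namespace Vale.Agent.P237.Cal.MidN

/-- The integrals are known; the pointwise half is left. -/
theorem profileCal_128_of_pw (hside : ∀ m, 126 ≤ m → m ≤ 381 → MidPw m) {m : ℕ} (hm : 126 ≤ m) :
    ProfileCal m :=
  profileCal_from_128 hside (fun _ h _ => midInt h) hm

end Vale.Agent.P237.Cal.MidN
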