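import Vale.Agent.P237.Cal.CapRange
import Vale.Agent.P237.Cal.Mass

/-!
# P237: a sharper cap for the middle range

`20 log (capB m) ≤ log n - 11/10` for `n ≥ 5`, hence `log q ≤ (11/20) log n - 27/100` for `n ≥ 128`.
-/

open MeasureTheory Set Real Filter Topology
open Vale.Agent.P237.Uniform (S S_pos S_succ_succ S_mul hh step_eq S_sq_tendsto)

namespace Vale.Agent.P237.Cal

variable {m : ℕ}

/-- `S_k² (2k + 1 + 1/(4k + 5/2)) ≤ 4π` for `k ≥ 5`. -/
lemma S_sq_le52 {k : ℕ} (hk : 5 ≤ k) : S k ^ 2 * hh (5 / 2) k ≤ 4 * π := by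
  have hmono : Monotone fun j : ℕ => S (k + 2 * j) ^ 2 * hh (5 / 2) ((k + 2 * j : ℕ) : ℝ) := by
    refine monotone_nat_of_le_succ fun j => ?_
    set i := k + 2 * j with hi'
    have h := step_eq (5 / 2) i
    have hi : (5 : ℝ) ≤ (i : ℝ) := by
      have : 5 ≤ i := by omega
      exact_mod_cast this
    have : 0 ≤ (((i : ℝ) + 1) / ((i : ℝ) + 2)) ^ 2 * hh (5 / 2) ((i : ℝ) + 2) - hh (5 / 2) i := by
      have key : hh (5 / 2) (i : ℝ) ≤
          (((i : ℝ) + 1) / ((i : ℝ) + 2)) ^ 2 * hh (5 / 2) ((i : ℝ) + 2) := by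
        unfold hh
        obtain ⟨t, ht, e⟩ : ∃ t, 0 ≤ t ∧ (i : ℝ) = 5 + t := ⟨(i : ℝ) - 5, by linarith, by ring⟩
        rw [e, div_pow, div_mul_eq_mul_div, le_div_iff₀ (by positivity)]
        field_simp
        nlinarith [ht, mul_nonneg ht ht, mul_nonneg (mul_nonneg ht ht) ht]
      linarith
    have h2 := mul_nonneg (sq_nonneg (S i)) this
    rw [show k + 2 * (j + 1) = i + 2 by omega]
    push_cast
    linarith
  have hlim := (S_sq_tendsto (a := 5 / 2) (by norm_num)).comp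
    (tendsto_atTop_mono (f := id) (fun j : ℕ => show j ≤ k + 2 * j by omega) tendsto_id)
  simpa using hmono.ge_of_tendsto hlim 0

/-- `log (1 - x) ≤ -x - x²/2 - x³/3` for `0 ≤ x ≤ 1/5`. -/
lemma log_one_sub_le3 {x : ℝ} (h0 : 0 ≤ x) (h1 : x ≤ 1 / 5) :
    log (1 - x) ≤ -x - x ^ 2 / 2 - x ^ 3 / 3 := by
  have h := abs_log_sub_add_sum_range_le (x := x) (by rw [abs_of_nonneg h0]; linarith) 4
  rw [abs_of_nonneg h0] at h
  have h2 : x ^ (4 + 1) / (1 - x) ≤ x ^ 4 / 4 := by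
    rw [div_le_iff₀ (by linarith)]
    nlinarith [pow_nonneg h0 4, mul_le_mul_of_nonneg_left h1 (pow_nonneg h0 4)]
  have h3 := (abs_le.1 h).2
  simp only [Finset.sum_range_succ, Finset.sum_range_zero] at h3
  norm_num at h3 h2 ⊢
  linarith

/-- The rational inequality behind the sharper step. -/
lemma cap_poly52 {n : ℝ} (hn : 5 ≤ n) :
    10 * (2 * n + 1) * ((n ^ 2 - 1) * (6 * (8 * n + 3) * ((2 * n + 1) * (8 * n + 5) + 2) ^ 3 -
        3 * (8 * n + 3) ^ 2 * ((2 * n + 1) * (8 * n + 5) + 2) ^ 2 +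
        2 * (8 * n + 3) ^ 3 * ((2 * n + 1) * (8 * n + 5) + 2) + 12 * (8 * n + 3) ^ 4) +
      (n ^ 2 - n) * (-6 * (8 * n + 7) * ((2 * n + 1) * (8 * n + 5) + 2) ^ 3 -
        3 * (8 * n + 7) ^ 2 * ((2 * n + 1) * (8 * n + 5) + 2) ^ 2 -
        2 * (8 * n + 7) ^ 3 * ((2 * n + 1) * (8 * n + 5) + 2))) ≤
      6 * ((2 * n + 1) * (8 * n + 5) + 2) ^ 4 := by
  obtain ⟨t, ht, rfl⟩ : ∃ t, 0 ≤ t ∧ n = 5 + t := ⟨n - 5, by linarith, by ring⟩
  nlinarith [pow_nonneg ht 2, pow_nonneg ht 3, pow_nonneg ht 4, pow_nonneg ht 5, pow_nonneg ht 6,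
    pow_nonneg ht 7, pow_nonneg ht 8]

/-- One step of the sharper bound. -/
lemma capB_step52 (hm : 3 ≤ m) :
    20 * log (capB (m + 1)) ≤ 20 * log (capB m) + (log ((m : ℝ) + 3) - log ((m : ℝ) + 2)) := by
  have hp := pi_pos
  have hs := S_pos (m + 2)
  set n : ℝ := (m : ℝ) + 2 with hn
  have hm' : (3 : ℝ) ≤ (m : ℝ) := by exact_mod_cast hm
  have hn5 : 5 ≤ n := by linarith
  set P : ℝ := (2 * n + 1) * (8 * n + 5) + 2 with hP
  have hP0 : 0 < P := by rw [hP]; positivity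
  have h := S_sq_le52 (k := m + 2) (by omega)
  simp only [hh] at h
  push_cast at h
  rw [← hn] at h
  have hu : S (m + 2) ^ 2 / (2 * π) ≤ 2 * (8 * n + 5) / P := by
    rw [div_le_div_iff₀ (by positivity) hP0]
    have : 2 * n + 1 + 1 / (4 * n + 5 / 2) = P / (8 * n + 5) := by rw [hP]; field_simp; ring
    rw [this, ← mul_div_assoc, div_le_iff₀ (by positivity)] at h
    linarith
  obtain ⟨x, hx⟩ : ∃ x, x = (8 * n + 3) / P := ⟨_, rfl⟩
  obtain ⟨y, hy⟩ : ∃ y, y = (8 * n + 7) / P := ⟨_, rfl⟩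
  have hx0 : 0 ≤ x := by rw [hx]; positivity
  have hy0 : 0 ≤ y := by rw [hy]; positivity
  have hy1 : y ≤ 1 / 5 := by rw [hy, div_le_iff₀ hP0, hP]; nlinarith
  have hxy : x ≤ y := by rw [hx, hy]; gcongr; linarith
  have a1 : log (S (m + 2) ^ 2 * ((m : ℝ) + 3) / (2 * π)) ≤ log (1 + x) := by
    refine log_le_log (by positivity) ?_
    rw [mul_div_right_comm, show (m : ℝ) + 3 = n + 1 by rw [hn]; ring]
    refine (mul_le_mul_of_nonneg_right hu (by linarith)).trans (le_of_eq ?_)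
    rw [hx, hP]; field_simp; ring
  have a2 : log (S (m + 2) ^ 2 * ((m : ℝ) + 2) / (2 * π)) ≤ log (1 - y) := by
    refine log_le_log (by positivity) ?_
    rw [mul_div_right_comm, ← hn]
    refine (mul_le_mul_of_nonneg_right hu (by linarith)).trans (le_of_eq ?_)
    rw [hy, hP]; field_simp; ring
  have b1 := (log_bounds hx0 ((hxy.trans hy1).trans (by norm_num))).1
  have b2 := log_one_sub_le3 hy0 hy1
  have c1 : 0 ≤ n ^ 2 - 1 := by nlinarith
  have c2 : 0 ≤ n ^ 2 - n := by nlinarith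
  have d : 20 * ((n ^ 2 - 1) * (x - x ^ 2 / 2 + x ^ 3 / 3 + 2 * x ^ 4) +
      (n ^ 2 - n) * (-y - y ^ 2 / 2 - y ^ 3 / 3)) ≤ 2 / (2 * n + 1) := by
    rw [le_div_iff₀ (by linarith)]
    refine le_of_mul_le_mul_right ?_ (by positivity : 0 < 3 * P ^ 4)
    refine le_trans (le_of_eq ?_) ((cap_poly52 hn5).trans (le_of_eq ?_))
    · rw [hx, hy, ← hP]; field_simp; ring
    · rw [hP]; ring
  have l : 2 / (2 * n + 1) ≤ log ((m : ℝ) + 3) - log n := by
    rw [show (m : ℝ) + 3 = n + 1 by rw [hn]; ring, ← log_div (by linarith) (by linarith),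
      show (n + 1) / n = 1 + 1 / n by field_simp]
    refine le_trans (le_of_eq ?_) (le_log_one_add_of_nonneg (by positivity : (0 : ℝ) ≤ 1 / n))
    field_simp; ring
  rw [log_capB_succ, show ((m : ℝ) + 1) * ((m : ℝ) + 3) = n ^ 2 - 1 by rw [hn]; ring,
    show ((m : ℝ) + 1) * ((m : ℝ) + 2) = n ^ 2 - n by rw [hn]; ring]
  have := mul_le_mul_of_nonneg_left (a1.trans b1) c1
  have := mul_le_mul_of_nonneg_left (a2.trans b2) c2
  linarith

/-- The sharper cap bound. -/
theorem capB_le_mid (hm : 3 ≤ m) : 20 * log (capB m) ≤ log ((m : ℝ) + 2) - 11 / 10 := by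
  induction m, hm using Nat.le_induction with
  | base =>
    have h := log_le_log (pow_pos (capB_pos 3) 4) capB_three
    rw [log_pow, show (11 : ℝ) / 50 * 5 = 11 / 10 by norm_num] at h
    push_cast at h ⊢
    have h2 : log (11 / 10 : ℝ) ≤ 1 / 10 := by
      rw [log_le_iff_le_exp (by norm_num)]
      have h3 := sum_le_exp_of_nonneg (x := (1 : ℝ) / 10) (by norm_num) 3
      simp only [Finset.sum_range_succ, Finset.sum_range_zero, Nat.factorial,
        Nat.succ_eq_add_one] at h3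
      norm_num at h3
      linarith
    have h4 : (8 : ℝ) / 5 ≤ log 5 := by
      rw [le_log_iff_exp_le (by norm_num)]
      have h5 := exp_bound' (x := (2 : ℝ) / 5) (by norm_num) (by norm_num) (n := 5) (by norm_num)
      simp only [Finset.sum_range_succ, Finset.sum_range_zero, Nat.factorial,
        Nat.succ_eq_add_one] at h5
      norm_num at h5
      calc exp (8 / 5) = exp (2 / 5) ^ 4 := by rw [← exp_nat_mul]; norm_num
        _ ≤ (14919 / 10000) ^ 4 := pow_le_pow_left₀ (exp_pos _).le (by linarith) 4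
        _ ≤ 5 := by norm_num
    norm_num
    linarith
  | succ j hj ih =>
    have h := capB_step52 hj
    push_cast
    rw [show (j : ℝ) + 1 + 2 = (j : ℝ) + 3 by ring]
    linarith

/-- **`log q` under the cap** for `n ≥ 128`. -/
theorem log_q_le_mid {q : ℝ} (hm : 126 ≤ m) (hq : 0 < q) (hcap : q * semiMom m 1 ≤ capB m) :
    log q ≤ 11 / 20 * log ((m : ℝ) + 2) - 27 / 100 := by
  have hm' : (126 : ℝ) ≤ (m : ℝ) := by exact_mod_cast hm
  set n := (m : ℝ) + 2 with hn
  have hn0 : 0 < n := by linarith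
  have hb := (semiMom_sq_bounds m).1
  rw [← hn] at hb
  have hV0 : 1564 / 1000 ≤ n * semiMom m 1 ^ 2 := by
    refine le_trans ?_ (mul_le_mul_of_nonneg_left hb hn0.le)
    rw [← mul_div_assoc, le_div_iff₀ (by positivity)]
    have h1 : 1 / (4 * n) ≤ 1 / 512 := by
      rw [div_le_iff₀ (by positivity)]; linarith
    nlinarith [pi_gt_d4]
  have hV : 0 < semiMom m 1 := by
    rcases eq_or_lt_of_le (show (0 : ℝ) ≤ semiMom m 1 from
      intervalIntegral.integral_nonneg zero_le_one fun x _ => by positivity) with e | e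
    · rw [← e] at hV0; linarith
    · exact e
  have h1 := log_le_log (by positivity) hcap
  rw [log_mul hq.ne' hV.ne'] at h1
  have h2 := log_le_log (by norm_num) hV0
  rw [log_mul hn0.ne' (pow_ne_zero 2 hV.ne'), log_pow] at h2
  push_cast at h2
  have h3 : (44 : ℝ) / 100 ≤ log (1564 / 1000) := by
    rw [le_log_iff_exp_le (by norm_num)]
    have h5 := exp_bound' (x := (44 : ℝ) / 100) (by norm_num) (by norm_num) (n := 6) (by norm_num)
    simp only [Finset.sum_range_succ, Finset.sum_range_zero, Nat.factorial,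
      Nat.succ_eq_add_one] at h5
    norm_num at h5
    linarith
  have h4 := capB_le_mid (m := m) (by omega)
  linarith

end Vale.Agent.P237.Cal
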