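import Vale.Agent.P237.Cal.Mid.PosDataA1
import Vale.Agent.P237.Cal.Mid.PosDataA2
import Vale.Agent.P237.Cal.Mid.PosDataA3
import Vale.Agent.P237.Cal.Mid.PosDataA4
import Vale.Agent.P237.Cal.Mid.PosDataA5
import Vale.Agent.P237.Cal.Mid.PosDataA6
import Vale.Agent.P237.Cal.Mid.PosDataA7

/-!
# P237: the cover of case A of `σ ≥ T`, `128 ≤ n ≤ 383`
-/

namespace Vale.Agent.P237.Cal.PosN

/-- The constants of case A. -/
def caseA : MidCase := ⟨(2061/1250), 0, (601/200), (11/20), (-27/100), (7997/2000), (10079/2500)⟩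

/-- The cover of case A. -/
def treeA : MidTree :=
  (.splitT (23501/100000) (.splitT (11751/100000) (.splitT (47/800) midA0 (.splitU (55301/100000) (.splitT (8813/100000) midA1 midA2) midA3)) (.splitU (55301/100000) (.splitT (17627/100000) (.splitU (27651/100000) midA4 midA5) (.splitU (27651/100000) midA6 midA7)) (.splitT (17627/100000) midA8 (.splitU (82951/100000) (.splitT (4113/20000) (.splitU (69127/100000) (.splitT (19097/100000) midA9 midA10) midA11) (.splitU (69127/100000) (.splitT (22033/100000) (.splitU (12443/20000) midA12 midA13) (.splitU (12443/20000) midA14 (.splitT (22767/100000) midA15 midA16))) (.splitT (22033/100000) (.splitU (76039/100000) midA17 midA18) (.splitU (76039/100000) (.splitT (22767/100000) midA19 midA20) midA21)))) midA22)))) (.splitU (55301/100000) midA23 (.splitT (35251/100000) (.splitU (82951/100000) (.splitT (29377/100000) (.splitU (69127/100000) midA24 (.splitT (26439/100000) (.splitU (76039/100000) (.splitT (24971/100000) (.splitT (24237/100000) (.splitU (72583/100000) midA25 midA26)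 midA27) midA28) (.splitT (24971/100000) midA29 midA30)) midA31)) midA32) (.splitT (29377/100000) (.splitU (3871/4000) (.splitT (26439/100000) (.splitU (89863/100000) midA33 midA34) midA35) midA36) midA37)) midA38)))

lemma treeA_ok : treeA.ok caseA ⟨0, (47/100), 0, (553/500)⟩ = true :=
  (splitT_ok (splitT_ok (splitT_ok midA0_ok (splitU_ok (splitT_ok midA1_ok midA2_ok) midA3_ok)) (splitU_ok (splitT_ok (splitU_ok midA4_ok midA5_ok) (splitU_ok midA6_ok midA7_ok)) (splitT_ok midA8_ok (splitU_ok (splitT_ok (splitU_ok (splitT_ok midA9_ok midA10_ok) midA11_ok) (splitU_ok (splitT_ok (splitU_ok midA12_ok midA13_ok) (splitU_ok midA14_ok (splitT_ok midA15_ok midA16_ok))) (splitT_ok (splitU_ok midA17_ok midA18_ok) (splitU_ok (splitT_ok midA19_ok midA20_ok) midA21_ok)))) midA22_ok)))) (splitU_ok midA23_ok (splitT_ok (splitU_ok (splitT_ok (splitU_ok midA24_ok (splitT_ok (splitU_ok (splitT_ok (splitT_ok (splitU_ok midA25_ok midA26_ok) midA27_ok) midA28_ok) (splitT_ok midA29_ok midA30_ok)) midA31_ok)) midA32_ok) (splitT_ok (splitU_ok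 (splitT_ok (splitU_ok midA33_ok midA34_ok) midA35_ok) midA36_ok) midA37_ok)) midA38_ok)))

end Vale.Agent.P237.Cal.PosN
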