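import Vale.Agent.P237.Cal.Mid.PosDataB1
import Vale.Agent.P237.Cal.Mid.PosDataB2
import Vale.Agent.P237.Cal.Mid.PosDataB3

/-!
# P237: the cover of case B of `σ ≥ T`, `128 ≤ n ≤ 383`
-/

namespace Vale.Agent.P237.Cal.PosN

/-- The constants of case B. -/
def caseB : MidCase := ⟨1, 0, (16/5), 1, (1733/2500), (19/5), 4⟩

/-- The cover of case B. -/
def treeB : MidTree :=
  (.splitT (23501/100000) (.splitT (11751/100000) (.splitT (47/800) midB0 (.splitU (55301/100000) (.splitT (8813/100000) midB1 (.splitU (27651/100000) (.splitT (10283/100000) midB2 midB3) midB4)) midB5)) (.splitU (55301/100000) (.splitT (17627/100000) (.splitU (27651/100000) (.splitT (14689/100000) (.splitU (553/4000) midB6 (.splitT (13219/100000) midB7 midB8)) midB9) midB10) (.splitU (27651/100000) (.splitT (4113/20000) midB11 (.splitU (553/4000) midB12 (.splitT (22033/100000) midB13 midB14))) midB15)) midB16)) (.splitU (55301/100000) (.splitT (35251/100000) (.splitU (27651/100000) midB17 midB18) midB19) midB20))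

lemma treeB_ok : treeB.ok caseB ⟨0, (47/100), 0, (553/500)⟩ = true :=
  (splitT_ok (splitT_ok (splitT_ok midB0_ok (splitU_ok (splitT_ok midB1_ok (splitU_ok (splitT_ok midB2_ok midB3_ok) midB4_ok)) midB5_ok)) (splitU_ok (splitT_ok (splitU_ok (splitT_ok (splitU_ok midB6_ok (splitT_ok midB7_ok midB8_ok)) midB9_ok) midB10_ok) (splitU_ok (splitT_ok midB11_ok (splitU_ok midB12_ok (splitT_ok midB13_ok midB14_ok))) midB15_ok)) midB16_ok)) (splitU_ok (splitT_ok (splitU_ok midB17_ok midB18_ok) midB19_ok) midB20_ok))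

end Vale.Agent.P237.Cal.PosN
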