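import Vale.Agent.P237.Cal.Mid.PosDataC1
import Vale.Agent.P237.Cal.Mid.PosDataC2
import Vale.Agent.P237.Cal.Mid.PosDataC3
import Vale.Agent.P237.Cal.Mid.PosDataC4

/-!
# P237: the cover of case C of `σ ≥ T`, `128 ≤ n ≤ 383`
-/

namespace Vale.Agent.P237.Cal.PosN

/-- The constants of case C. -/
def caseC : MidCase := ⟨(823/1000), (16/5), (6647/1000), 1, (1733/2500), (18/5), 4⟩

/-- The cover of case C. -/
def treeC : MidTree :=
  (.splitT (23501/100000) (.splitT (11751/100000) (.splitT (47/800) midC0 (.splitU (55301/100000) (.splitT (8813/100000) midC1 midC2) midC3)) (.splitU (55301/100000) (.splitT (17627/100000) (.splitU (27651/100000) midC4 midC5) midC6) midC7)) (.splitU (55301/100000) (.splitT (35251/100000) (.splitU (27651/100000) midC8 (.splitT (29377/100000) (.splitU (41477/100000) (.splitT (26439/100000) midC9 (.splitU (6913/20000) (.splitT (27909/100000) (.splitU (31109/100000) (.splitT (27173/100000) midC10 midC11) midC12) midC13) midC14)) midC15) (.splitU (41477/100000) (.splitT (6463/20000) (.splitU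 (6913/20000) midC16 midC17) midC18) midC19))) midC20) midC21))

lemma treeC_ok : treeC.ok caseC ⟨0, (47/100), 0, (553/500)⟩ = true :=
  (splitT_ok (splitT_ok (splitT_ok midC0_ok (splitU_ok (splitT_ok midC1_ok midC2_ok) midC3_ok)) (splitU_ok (splitT_ok (splitU_ok midC4_ok midC5_ok) midC6_ok) midC7_ok)) (splitU_ok (splitT_ok (splitU_ok midC8_ok (splitT_ok (splitU_ok (splitT_ok midC9_ok (splitU_ok (splitT_ok (splitU_ok (splitT_ok midC10_ok midC11_ok) midC12_ok) midC13_ok) midC14_ok)) midC15_ok) (splitU_ok (splitT_ok (splitU_ok midC16_ok midC17_ok) midC18_ok) midC19_ok))) midC20_ok) midC21_ok))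

end Vale.Agent.P237.Cal.PosN
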