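import Vale.Agent.P237.Cal.Mid.PosModeG
import Vale.Agent.P237.Cal.Mid.PosDataA
import Vale.Agent.P237.Cal.Mid.PosDataB
import Vale.Agent.P237.Cal.Mid.PosDataC
import Vale.Agent.P237.Cal.Mid.CapSharp
import Vale.Agent.P237.Cal.TanEps

/-!
# P237: the side `σ ≥ T`, `T ≤ 47/100`, from the covers of the three cases
-/

open Real

namespace Vale.Agent.P237.Cal.PosN

variable {c : MidCase} {B : MidCell} {m : ℕ} {q Y ε kap T σ h X : ℝ}

/-- All upper ends of the rows are positive. -/
def MidTree.vpos : MidTree → Bool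
  | .leaf rows => rows.all fun w => decide (0 < w.vhi)
  | .top => true
  | .low => true
  | .splitT _ l r => l.vpos && r.vpos
  | .splitU _ l r => l.vpos && r.vpos

/-- The soundness of mode `2`. -/
def RowESound : Prop :=
  ∀ (c : MidCase) (B : MidCell) (w : MidRow) (vl : ℚ) (m : ℕ) (q Y ε kap T σ h X : ℝ),
    w.okE c B vl = true → (0 : ℝ) ≤ c.e0 → (0 : ℝ) < vl → MidPt c m q Y ε kap T σ h X →
    RowPt B vl w.vhi m T σ → PosGoal m q Y ε kap T σ h X

lemma rows_sound (hE : RowESound) (he0 : (0 : ℝ) ≤ c.e0) (P : MidPt c m q Y ε kap T σ h X)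
    (hT0 : (B.T0 : ℝ) ≤ T) (hT1 : T ≤ (B.T1 : ℝ)) (hu0 : (B.u0 : ℝ) ≤ σ)
    (hu1 : σ ≤ (B.u1 : ℝ)) : ∀ (rows : List MidRow) (lo : ℚ), rowsOK c B rows lo = true →
      (rows.all fun w => decide (0 < w.vhi)) = true → 0 < lo →
      (lo : ℝ) ≤ √((m : ℝ) + 2) → PosGoal m q Y ε kap T σ h X := by
  intro rows
  induction rows with
  | nil =>
    intro lo hok _ _ hlo
    simp only [rowsOK, decide_eq_true_eq] at hok
    have h1 : ((19571 / 1000 : ℚ) : ℝ) ≤ (lo : ℝ) := Rat.cast_le.2 hok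
    push_cast at h1
    have h2 := pow_le_pow_left₀ (by norm_num) (h1.trans hlo) 2
    rw [sq_sqrt (by positivity)] at h2
    have : (m : ℝ) ≤ 381 := by exact_mod_cast P.hm2
    norm_num at h2
    linarith
  | cons w rest ih =>
    intro lo hok hpos hlo0 hlo
    simp only [rowsOK, Bool.and_eq_true] at hok
    simp only [List.all_cons, Bool.and_eq_true, decide_eq_true_eq] at hpos
    rcases le_total √((m : ℝ) + 2) (w.vhi : ℝ) with h1 | h1
    · have R : RowPt B lo w.vhi m T σ := ⟨hT0, hT1, hu0, hu1, hlo, h1⟩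
      have hvl : (0 : ℝ) < (lo : ℝ) := by exact_mod_cast hlo0
      have hw := hok.1
      simp only [MidRow.ok] at hw
      split at hw
      · exact (row_X hw hvl P R).elim
      · exact row_G hw he0 hvl P R
      · exact hE c B w lo m q Y ε kap T σ h X hw he0 hvl P R
    · exact ih w.vhi hok.2 hpos.2 hpos.1 h1

theorem tree_sound (hE : RowESound) (he0 : (0 : ℝ) ≤ c.e0) (P : MidPt c m q Y ε kap T σ h X) :
    ∀ (t : MidTree) (B : MidCell), t.ok c B = true → t.vpos = true → (B.T0 : ℝ) ≤ T →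
      T ≤ (B.T1 : ℝ) → (B.u0 : ℝ) ≤ σ → σ ≤ (B.u1 : ℝ) → PosGoal m q Y ε kap T σ h X := by
  intro t
  induction t with
  | leaf rows =>
    intro B hok hpos hT0 hT1 hu0 hu1
    simp only [MidTree.ok] at hok
    simp only [MidTree.vpos] at hpos
    refine rows_sound hE he0 P hT0 hT1 hu0 hu1 rows _ hok hpos (by norm_num) ?_
    have : (126 : ℝ) ≤ (m : ℝ) := by exact_mod_cast P.hm
    refine le_sqrt_of_sq_le ?_
    push_cast
    norm_num
    linarith
  | top =>
    intro B hok _ _ hT1 hu0 _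
    simp only [MidTree.ok, Bool.and_eq_true, decide_eq_true_eq] at hok
    have h0 : (0 : ℝ) ≤ (B.u0 : ℝ) := by exact_mod_cast hok.1
    have h1 : ((1 + B.T1 ^ 2 : ℚ) : ℝ) < ((B.u0 ^ 2 : ℚ) : ℝ) := Rat.cast_lt.2 hok.2
    push_cast at h1
    have h2 := pow_le_pow_left₀ h0 (hu0.trans P.hR.σ_le) 2
    rw [sq_sqrt (by positivity)] at h2
    linarith [pow_le_pow_left₀ P.hR.T_pos.le hT1 2]
  | low =>
    intro B hok _ hT0 _ _ hu1
    simp only [MidTree.ok, decide_eq_true_eq] at hok
    have h1 : (B.u1 : ℝ) < (B.T0 : ℝ) := Rat.cast_lt.2 hok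
    linarith [P.hσ]
  | splitT x l r ihl ihr =>
    intro B hok hpos hT0 hT1 hu0 hu1
    simp only [MidTree.ok, Bool.and_eq_true] at hok
    simp only [MidTree.vpos, Bool.and_eq_true] at hpos
    rcases le_total T (x : ℝ) with h1 | h1
    · exact ihl _ hok.1 hpos.1 hT0 h1 hu0 hu1
    · exact ihr _ hok.2 hpos.2 h1 hT1 hu0 hu1
  | splitU x l r ihl ihr =>
    intro B hok hpos hT0 hT1 hu0 hu1
    simp only [MidTree.ok, Bool.and_eq_true] at hok
    simp only [MidTree.vpos, Bool.and_eq_true] at hpos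
    rcases le_total σ (x : ℝ) with h1 | h1
    · exact ihl _ hok.1 hpos.1 hT0 hT1 hu0 h1
    · exact ihr _ hok.2 hpos.2 hT0 hT1 h1 hu1

lemma treeA_vpos : treeA.vpos = true := by decide +kernel

lemma treeB_vpos : treeB.vpos = true := by decide +kernel

lemma treeC_vpos : treeC.vpos = true := by decide +kernel

/-- `log n ≤ log 384 ≤ 5.9508`. -/
lemma log_n_le_mid (hm2 : m ≤ 381) : log ((m : ℝ) + 2) ≤ 59508 / 10000 := by
  have hn : (m : ℝ) + 2 ≤ 384 := by
    have : (m : ℝ) ≤ 381 := by exact_mod_cast hm2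
    linarith
  refine (log_le_log (by positivity) hn).trans ?_
  rw [show (384 : ℝ) = 2 ^ 8 * (3 / 2) by norm_num, log_mul (by norm_num) (by norm_num), log_pow]
  push_cast
  have h : log (3 / 2 : ℝ) ≤ 4056 / 10000 := by
    rw [log_le_iff_le_exp (by norm_num)]
    refine le_trans ?_ (sum_le_exp_of_nonneg (x := (4056 : ℝ) / 10000) (by norm_num) 6)
    norm_num [Finset.sum_range_succ, Nat.factorial]
  linarith [log_two_lt_d9]

/-- The three cases. -/
lemma case_split (hm : 126 ≤ m) (hm2 : m ≤ 381) {Q : ℝ} (hq : 1 < q) (hY : 1 ≤ Y)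
    (hYk : Y ^ (m + 1) ≤ 2 * ((m : ℝ) + 2)) (hQ : Q = q / Y ^ (m + 1))
    (hQr : Q ≤ rr (m + 1) ^ (m + 1)) (hcap : q * semiMom m 1 ≤ capB m)
    (hε : ε = 4 * q ^ (2 / ((m : ℝ) + 2)) / Y ^ 2) :
    ∃ c : MidCase, (c = caseA ∨ c = caseB ∨ c = caseC) ∧ q / Y ^ (m + 1) ≤ (c.Qb : ℝ) ∧
      (c.yl : ℝ) ≤ yk m Y ∧ yk m Y ≤ (c.yh : ℝ) ∧
      yk m Y ≤ (c.al : ℝ) * log ((m : ℝ) + 2) + c.be ∧ (c.e0 : ℝ) ≤ ε ∧ ε ≤ (c.e1 : ℝ) := by
  have hm' : (126 : ℝ) ≤ (m : ℝ) := by exact_mod_cast hm
  have hq0 : 0 < q := by linarith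
  have hY0 : 0 < Y := one_pos.trans_le hY
  have hp : 0 < Y ^ (m + 1) := pow_pos hY0 _
  have hQ0 : 0 < Q := by rw [hQ]; positivity
  have eQ : q = Q * Y ^ (m + 1) := by rw [hQ, div_mul_cancel₀ _ hp.ne']
  have elog : log q = log Q + yk m Y := by
    rw [eQ, log_mul hQ0.ne' hp.ne', log_pow, yk]; push_cast; ring
  rw [eps_log hq0 hY hε, eps_arg hQ0 hY eQ, ← hQ]
  have hy0 : 0 ≤ yk m Y := mul_nonneg (by positivity) (log_nonneg hY)
  have hlY0 := log_nonneg hY
  have hn := log_n_le_mid hm2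
  have hlq := log_q_le_mid hm hq0 hcap
  have hlq0 := log_pos hq
  set n := (m : ℝ) + 2 with hnd
  have hn0 : 128 ≤ n := by rw [hnd]; linarith
  have hlY : 127 * log Y ≤ yk m Y := mul_le_mul_of_nonneg_right (by linarith) hlY0
  have hyn : yk m Y ≤ 1733 / 2500 + log n := by
    have h1 := log_le_log hp hYk
    rw [log_pow, log_mul two_ne_zero (by linarith)] at h1
    have e : yk m Y = ((m + 1 : ℕ) : ℝ) * log Y := by rw [yk]; push_cast; ring
    linarith [log_two_lt_d9]
  set w := log Q - log Y with hw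
  have h2n : 2 / n ≤ 2 / 128 := div_le_div_of_nonneg_left zero_le_two (by norm_num) hn0
  have hdiv : (0 : ℝ) ≤ 2 / n := div_nonneg zero_le_two (by linarith)
  have hdown : ∀ d : ℝ, 0 ≤ d → -d ≤ w → -(2 / 128 * d) ≤ 2 / n * w := fun d hd h => by
    have h1 := mul_le_mul_of_nonneg_left h hdiv
    have h2 := mul_le_mul_of_nonneg_right h2n hd
    linarith
  have hup : w ≤ 0 → 4 * exp (2 / n * w) ≤ 4 := fun h => by
    have := exp_le_one_iff.2 (mul_nonpos_of_nonneg_of_nonpos hdiv h)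
    linarith
  rcases le_or_gt Q 1 with hQ1 | hQ1
  · have hlQ : log Q ≤ 0 := log_nonpos hQ0.le hQ1
    have hwn : w ≤ 0 := by rw [hw]; linarith
    rcases le_total (yk m Y) (16 / 5) with hy | hy
    · refine ⟨caseB, .inr (.inl rfl), ?_, ?_, ?_, ?_, ?_, ?_⟩
      all_goals simp only [caseB]; push_cast
      · exact hQ1
      · exact hy0
      · exact hy
      · linarith
      · have h1 := hdown (16 / 5 + 16 / 5 / 127) (by norm_num) (by rw [hw]; linarith)
        have h2 : (19 : ℝ) / 20 ≤ exp (-(2 / 128 * (16 / 5 + 16 / 5 / 127))) := by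
          rw [exp_neg, ← one_div, le_div_iff₀ (exp_pos _)]
          have h := exp_bound' (x := 2 / 128 * ((16 : ℝ) / 5 + 16 / 5 / 127)) (by norm_num)
            (by norm_num) (n := 3) (by norm_num)
          simp only [Finset.sum_range_succ, Finset.sum_range_zero, Nat.factorial] at h
          norm_num at h ⊢
          linarith
        linarith [exp_le_exp.2 h1]
      · exact hup hwn
    · refine ⟨caseC, .inr (.inr rfl), ?_, ?_, ?_, ?_, ?_, ?_⟩
      all_goals simp only [caseC]; push_cast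
      · rw [← exp_log hQ0]
        refine (exp_le_exp.2 (show log Q ≤ -(197 / 1000) by linarith)).trans ?_
        rw [exp_neg, ← one_div, div_le_iff₀ (exp_pos _)]
        have h := sum_le_exp_of_nonneg (x := (197 : ℝ) / 1000) (by norm_num) 4
        simp only [Finset.sum_range_succ, Finset.sum_range_zero, Nat.factorial] at h
        norm_num at h ⊢
        linarith
      · exact hy
      · linarith
      · linarith
      · have h1 := hdown (6647 / 1000 + 6647 / 1000 / 127) (by norm_num) (by rw [hw]; linarith)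
        have h2 : (9 : ℝ) / 10 ≤ exp (-(2 / 128 * (6647 / 1000 + 6647 / 1000 / 127))) := by
          rw [exp_neg, ← one_div, le_div_iff₀ (exp_pos _)]
          have h := exp_bound' (x := 2 / 128 * ((6647 : ℝ) / 1000 + 6647 / 1000 / 127)) (by norm_num)
            (by norm_num) (n := 4) (by norm_num)
          simp only [Finset.sum_range_succ, Finset.sum_range_zero, Nat.factorial] at h
          norm_num at h ⊢
          linarith
        linarith [exp_le_exp.2 h1]
      · exact hup hwn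
  · have hlQ : 0 < log Q := log_pos hQ1
    have hy : yk m Y ≤ 601 / 200 := by linarith
    have hQb : Q ≤ 16488 / 10000 := hQr.trans (rr_pow_le_sharp m)
    refine ⟨caseA, .inl rfl, ?_, ?_, ?_, ?_, ?_, ?_⟩
    all_goals simp only [caseA]; push_cast
    · linarith
    · exact hy0
    · exact hy
    · linarith
    · have h1 := hdown (601 / 200 / 127) (by norm_num) (by rw [hw]; linarith)
      have h2 := add_one_le_exp (-(2 / 128 * ((601 : ℝ) / 200 / 127)))
      linarith [exp_le_exp.2 h1]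
    · have hl : log Q ≤ 5001 / 10000 := by
        rw [log_le_iff_le_exp hQ0]
        refine hQb.trans ?_
        refine le_trans ?_ (sum_le_exp_of_nonneg (x := (5001 : ℝ) / 10000) (by norm_num) 8)
        norm_num [Finset.sum_range_succ, Nat.factorial]
      have h1 : 2 / n * w ≤ 2 / 128 * (5001 / 10000) := by
        have h3 := mul_le_mul_of_nonneg_left (show w ≤ 5001 / 10000 by rw [hw]; linarith) hdiv
        linarith
      have h2 : exp (2 / 128 * ((5001 : ℝ) / 10000)) ≤ 1 / (1 - 2 / 128 * (5001 / 10000)) :=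
        exp_bound_div_one_sub_of_interval (by norm_num) (by norm_num)
      norm_num at h2
      linarith [exp_le_exp.2 h1]

/-- **The side `σ ≥ T`, `T ≤ 47/100`**, from the soundness of mode `2`. -/
theorem posSide_of (hE : RowESound) (hm : 126 ≤ m) (hm2 : m ≤ 381) :
    MidN.SidePw m fun T σ => T ≤ σ ∧ T ≤ 47 / 100 := by
  intro q Y Q ε kap hq hY hYk hQ hQr _ hcap hε he1 he2 hkap T σ h X hS hR hB hExc
  obtain ⟨hσ, hT⟩ := hS
  obtain ⟨c, hc, c1, c2, c3, c4, c5, c6⟩ := case_split hm hm2 hq hY hYk hQ hQr hcap hε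
  have P : MidPt c m q Y ε kap T σ h X :=
    ⟨hm, hm2, hY, hq.le, hYk, c1, c2, c3, c4, c5, c6, he1, he2, hkap, hR, hB, hExc, hσ, hT⟩
  have hu : σ ≤ 553 / 500 := by
    refine hR.σ_le.trans ?_
    rw [sqrt_le_iff]
    exact ⟨by norm_num, by nlinarith [pow_le_pow_left₀ hR.T_pos.le hT 2]⟩
  have goal : PosGoal m q Y ε kap T σ h X := by
    rcases hc with rfl | rfl | rfl
    · refine tree_sound hE (by simp only [caseA]; norm_num) P _ _ treeA_ok treeA_vpos ?_ ?_ ?_ ?_
      all_goals push_cast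
      all_goals linarith [hR.T_pos, hR.σ_pos]
    · refine tree_sound hE (by simp only [caseB]; norm_num) P _ _ treeB_ok treeB_vpos ?_ ?_ ?_ ?_
      all_goals push_cast
      all_goals linarith [hR.T_pos, hR.σ_pos]
    · refine tree_sound hE (by simp only [caseC]; norm_num) P _ _ treeC_ok treeC_vpos ?_ ?_ ?_ ?_
      all_goals push_cast
      all_goals linarith [hR.T_pos, hR.σ_pos]
  exact MidN.pw_of_L hR.T_pos goal

end Vale.Agent.P237.Cal.PosN
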