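import Vale.Agent.P237.Cal.Mid.PosModeG

/-!
# P237: soundness of mode `2` on `σ ≥ T`, `128 ≤ n ≤ 383`

The field is shifted by the state; the rest `G'` of the constant part is paid by `cPM`.
-/

open Real

namespace Vale.Agent.P237.Cal.PosN

variable {c : MidCase} {B : MidCell} {w : MidRow} {vl : ℚ} {m : ℕ} {q Y ε kap T σ h X : ℝ}

/-- The share of `η` in mode `2`, against `w' = rem η`. -/
lemma op_bound {b eb T0 η rem t : ℝ} (ht : 0 ≤ t) (hη : 0 ≤ η) (hb : η ≤ eb) (hr : 0 < rem)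
    (htT : t ≤ 2 + 1 / T0 ^ 2) :
    (b * η * t) ^ 2 ≤ eb * b ^ 2 * (2 + 1 / T0 ^ 2) ^ 2 / rem * (rem * η) := by
  have h1 := mul_le_mul hb (pow_le_pow_left₀ ht htT 2) (sq_nonneg _) (hη.trans hb)
  have h2 := mul_le_mul_of_nonneg_left h1 (mul_nonneg (sq_nonneg b) hη)
  have e : eb * b ^ 2 * (2 + 1 / T0 ^ 2) ^ 2 / rem * (rem * η) =
      b ^ 2 * η * (eb * (2 + 1 / T0 ^ 2) ^ 2) := by field_simp
  rw [e]
  linarith

/-- The vertices of a line of mode `2`. -/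
lemma lineE_sound {C M x d P P' : ℚ} {Q : ℝ} (h1 : 0 ≤ midF C 0 M 0 x 0 d P 0)
    (h2 : 0 ≤ midF C 0 M 0 x 0 d P' 0) (hP : (P : ℝ) ≤ Q) (hP' : Q ≤ (P' : ℝ)) :
    ((x : ℝ) - 2 * Q) ^ 2 ≤ (C : ℝ) * ((M : ℝ) - 2 * Q * d) := by
  have a1 : ((0 : ℚ) : ℝ) ≤ ((midF C 0 M 0 x 0 d P 0 : ℚ) : ℝ) := Rat.cast_le.2 h1
  have a2 : ((0 : ℚ) : ℝ) ≤ ((midF C 0 M 0 x 0 d P' 0 : ℚ) : ℝ) := Rat.cast_le.2 h2
  simp only [midF] at a1 a2
  push_cast at a1 a2
  have := midF_slack (C0 := (C : ℝ)) (c := 0) (N0 := (M : ℝ)) (n := 0) (x := (x : ℝ)) (k := 0)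
    (d := (d : ℝ)) hP hP' le_rfl zero_le_one (by
      intro Q' l hQ hl
      rcases hQ with rfl | rfl <;> rcases hl with rfl | rfl <;> simp only [midF] <;> norm_num <;>
        linarith)
  simp only [midF] at this
  linarith

/-- **A row of mode `2`.** -/
theorem row_E (hq : w.okE c B vl = true) (he0 : (0 : ℝ) ≤ c.e0) (hvl : (0 : ℝ) < vl)
    (P : MidPt c m q Y ε kap T σ h X) (R : RowPt B vl w.vhi m T σ) :
    PosGoal m q Y ε kap T σ h X := by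
  simp only [MidRow.okE, Bool.and_eq_true, decide_eq_true_eq] at hq
  obtain ⟨⟨⟨⟨⟨⟨hc, hlin0⟩, hrem⟩, hCE⟩, hBq⟩, hp1⟩, hp2⟩ := hq
  have N := rowNum hc he0 hvl P R
  obtain ⟨l, Cw, Sl, hA, hL, hSl0, hSl, hfin⟩ := N.fin
  have hm := P.hm
  have hT := P.hR.T_pos
  have hpre : 0 < pre m T := by unfold pre; positivity
  have hη : 0 ≤ Y ^ 2 - 1 := sub_nonneg.2 (one_le_pow₀ P.hY)
  refine goal_of_fin P hfin ?_
  obtain ⟨hU0, -, -⟩ := UM_bounds (m := m) hm P.ε0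
  obtain ⟨δ, G', hδ0, hδ, hsplit, hG2, hG'⟩ := state_shift (g := gG m ε kap T)
    (c₀ := LargeN.c0 m ε) (c₁ := LargeN.c1 m ε) (by omega : 1 ≤ m) P.hY hT P.hσ hU0 P.hB
  have hup : 0 ≤ stateUp m (q * semiMom m 1) Y (LargeN.c0 m ε) (LargeN.c1 m ε) T := by
    have : 0 ≤ (q * semiMom m 1 - semiMom m 1) / Y ^ (m + 1) :=
      div_nonneg (sub_nonneg.2 P.Vge) (pow_nonneg P.Y0.le _)
    unfold stateUp
    positivity
  have hneg := MidN.negE_nonnegM (m := m) (Y := Y) P.ε0 rfl rfl P.hY hT.le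
    (c₀ := LargeN.c0 m ε) (c₁ := LargeN.c1 m ε)
  have hG1 : gG m ε kap T - negE m Y (LargeN.c0 m ε) (LargeN.c1 m ε) T ≤ G' := by
    rcases hG' with e | e
    · have h1 := stateG_low' (V := q * semiMom m 1) (by omega : 2 ≤ m) P.hY hT hU0 P.hB
      rw [e, negE]
      linarith
    · rw [e]; linarith
  have hpay := MidN.sq_payM (c₀ := LargeN.c0 m ε) (c₁ := LargeN.c1 m ε) P.hm P.hm2 P.hε1 P.hε2 rfl
    rfl P.hY P.hYk P.kap_uOf hT hG1 hG2
  set gl := ((w.gl c B vl : ℚ) : ℝ) with hgldef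
  have hG0 : -gl ≤ G' := N.gl.trans hG1
  set p := shP m (LargeN.c0 m ε) (LargeN.c1 m ε) T / pre m T + δ with hpdef
  set P' := -p with hP'd
  have hP1 : P' ≤ ((MidRow.P1 c B vl : ℚ) : ℝ) := by linarith [N.P0]
  have hvh : 0 < (w.vhi : ℝ) := lt_of_lt_of_le (by positivity) R.hi
  have hP0 : (c.e0 : ℝ) * (4 / 5) / (w.vhi : ℝ) ≤ P' := by
    have h := shifted_field_le_mid (m := m) hm P.ε0 hT hδ
    have h2 : (c.e0 : ℝ) / (w.vhi : ℝ) ≤ ε / √((m : ℝ) + 2) :=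
      div_le_div₀ P.ε0 P.he0 (by positivity) R.hi
    have e : (c.e0 : ℝ) * (4 / 5) / (w.vhi : ℝ) = 4 / 5 * ((c.e0 : ℝ) / (w.vhi : ℝ)) := by ring
    rw [e]
    linarith
  have hP' : 0 ≤ P' := le_trans (by positivity) hP0
  have eD1 : ((MidRow.D1 B : ℚ) : ℝ) = (B.u1 : ℝ) - B.T0 := by
    simp only [MidRow.D1]; push_cast; ring
  set D1 := (B.u1 : ℝ) - B.T0 with hD1d
  have hD1 : 0 < D1 := eD1 ▸ N.D1
  set D := σ - T with hDd
  have hD : 0 ≤ D := sub_nonneg.2 P.hσ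
  have hDh : D ≤ D1 := by linarith [R.u1, R.T0]
  set be := ((w.bes B vl : ℚ) : ℝ) with hbed
  set bs := (w.b : ℝ) * ((Y ^ 2 - 1) / T ^ 2) with hbs
  have hbs0 : 0 ≤ bs := mul_nonneg N.b0 (div_nonneg hη (sq_nonneg T))
  have hbsbe : bs ≤ be := by
    rw [hbed, hbs]
    simp only [MidRow.bes, MidRow.es]
    push_cast
    rcases N.bT with e | ⟨e, -⟩
    · simp [e]
    · exact mul_le_mul_of_nonneg_left
        (div_le_div₀ N.eta0 N.eta (pow_pos e 2) (pow_le_pow_left₀ e.le R.T0 2)) N.b0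
  have hbe0 : 0 ≤ be := hbs0.trans hbsbe
  set E := ((w.E c : ℚ) : ℝ) with hEd
  have hE0 : 0 ≤ ε - w.b := by linarith [N.bε]
  have hσ0 := P.hR.σ_pos
  have hσ2 : σ ^ 2 ≤ (B.u1 : ℝ) ^ 2 := pow_le_pow_left₀ hσ0.le R.u1 2
  have hT2 : T ^ 2 ≤ (B.T1 : ℝ) ^ 2 := pow_le_pow_left₀ hT.le R.T1 2
  have hEσ := mul_le_mul N.E hσ2 (sq_nonneg σ) (hE0.trans N.E)
  have hET := mul_le_mul N.E hT2 (sq_nonneg T) (hE0.trans N.E)
  have hPD : -(P' * D1) ≤ p * D := by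
    have := mul_le_mul_of_nonneg_left hDh hP'
    rw [show p * D = -(P' * D) by rw [hP'd]; ring]
    linarith
  have hA0 : 0 ≤ tanA ε (w.b : ℝ) (Y ^ 2 - 1) σ := by
    unfold tanA; linarith [N.A1, mul_nonneg N.b0 hη]
  have eη : ∀ k : ℝ, (w.b : ℝ) * (Y ^ 2 - 1) * (k + 1 / T ^ 2) = bs * (k * T ^ 2 + 1) := fun k => by
    rw [hbs]; field_simp
  have hBq' : ((0 : ℚ) : ℝ) ≤ (((1 + w.b) - w.E c * B.T1 ^ 2 - 2 * MidRow.P1 c B vl * MidRow.D1 B -
      w.gl c B vl - w.bes B vl * (1 + B.T1 ^ 2) : ℚ) : ℝ) := Rat.cast_le.2 hBq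
  push_cast at hBq'
  rw [eD1, ← hgldef, ← hbed] at hBq'
  have hbsT : bs * (T ^ 2 + 1) ≤ be * (1 + (B.T1 : ℝ) ^ 2) :=
    mul_le_mul hbsbe (by linarith) (by positivity) hbe0
  have hP1D := mul_le_mul_of_nonneg_right hP1 hD1.le
  have hB0 : 0 ≤ tanB ε (w.b : ℝ) (Y ^ 2 - 1) T (2 * p * D + G') := by
    unfold tanB; rw [eη, one_mul]; linarith
  set om := ((MidRow.om B vl : ℚ) : ℝ) with homd
  set op := ((w.op c B vl : ℚ) : ℝ) with hopd
  set C := ((w.CE c B vl : ℚ) : ℝ) with hCd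
  have hC : 0 ≤ C := by rw [hCd]; exact_mod_cast hCE
  set z0 := ((MidRow.z0 B vl : ℚ) : ℝ) with hz0d
  have hz00 : 0 ≤ z0 := by rw [hz0d]; simp only [MidRow.z0]; push_cast; positivity
  have hzz : z0 ≤ ((m : ℝ) + 2) * T ^ 2 := by
    rw [hz0d]
    simp only [MidRow.z0]
    push_cast
    rw [← sq_sqrt (show (0 : ℝ) ≤ (m : ℝ) + 2 by positivity)]
    exact mul_le_mul (pow_le_pow_left₀ hvl.le R.lo 2) (pow_le_pow_left₀ N.T0 R.T0 2) (sq_nonneg _)
      (sq_nonneg _)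
  have eom : om = 1 / (38 / 100 + z0 / 200) := by
    rw [homd, hz0d]; simp only [MidRow.om]; push_cast; ring
  have hom : 0 < om := by rw [eom]; positivity
  have eop : op = ((w.eta vl : ℚ) : ℝ) * (w.b : ℝ) ^ 2 * (2 + 1 / (B.T0 : ℝ) ^ 2) ^ 2 /
      ((w.rem c B vl : ℚ) : ℝ) := by
    rw [hopd]; simp only [MidRow.op]; push_cast; ring
  -- the price `w'` of the part of `η`
  obtain ⟨w', hw0, hop0, hwop, hwSl⟩ : ∃ w' : ℝ, 0 ≤ w' ∧ 0 ≤ op ∧
      ((w.b : ℝ) * (Y ^ 2 - 1) * (2 + 1 / T ^ 2)) ^ 2 ≤ op * w' ∧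
      pre m T * (bs + w') ≤ Sl := by
    rcases eq_or_ne (w.b : ℝ) 0 with hb | hb
    · refine ⟨0, le_rfl, ?_, ?_, ?_⟩
      · rw [eop, hb]; simp
      · rw [hb]; simp
      · rw [hbs, hb]; simp [hSl0]
    · obtain ⟨hT00, -⟩ := N.bT.resolve_left hb
      have hr : (0 : ℝ) < ((w.rem c B vl : ℚ) : ℝ) := by
        exact_mod_cast hrem.resolve_left (fun e => hb (by exact_mod_cast e))
      refine ⟨((w.rem c B vl : ℚ) : ℝ) * (Y ^ 2 - 1), mul_nonneg hr.le hη, ?_, ?_, ?_⟩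
      · rw [eop]; exact div_nonneg (mul_nonneg (mul_nonneg N.eta0 (sq_nonneg _)) (sq_nonneg _)) hr.le
      · rw [eop]
        exact op_bound (by positivity) hη N.eta hr (add_le_add_right
          (one_div_le_one_div_of_le (pow_pos hT00 2) (pow_le_pow_left₀ hT00.le R.T0 2)) _)
      · refine le_trans ?_ (hSl hb)
        rw [mul_assoc]
        refine mul_le_mul_of_nonneg_left ?_ hpre.le
        have er : ((w.rem c B vl : ℚ) : ℝ) =
            ((w.L c B vl : ℚ) : ℝ) / (2 * (B.T1 : ℝ)) - (w.b : ℝ) / (B.T0 : ℝ) ^ 2 := by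
          simp only [MidRow.rem]; push_cast; ring
        have h1 : (w.b : ℝ) / T ^ 2 ≤ (w.b : ℝ) / (B.T0 : ℝ) ^ 2 :=
          div_le_div_of_nonneg_left N.b0 (pow_pos hT00 2) (pow_le_pow_left₀ hT00.le R.T0 2)
        have h2 : ((w.L c B vl : ℚ) : ℝ) / (2 * (B.T1 : ℝ)) ≤ ((w.L c B vl : ℚ) : ℝ) / (2 * T) :=
          div_le_div_of_nonneg_left N.L0 (by positivity) (by linarith [R.T1])
        have h3 := mul_le_mul_of_nonneg_left (show (w.b : ℝ) / T ^ 2 + ((w.rem c B vl : ℚ) : ℝ) ≤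
          ((w.L c B vl : ℚ) : ℝ) / (2 * T) by rw [er]; linarith) hη
        have e1 : bs = (Y ^ 2 - 1) * ((w.b : ℝ) / T ^ 2) := by rw [hbs]; ring
        have e2 : ((w.L c B vl : ℚ) : ℝ) * ((Y ^ 2 - 1) / (2 * T)) =
            (Y ^ 2 - 1) * (((w.L c B vl : ℚ) : ℝ) / (2 * T)) := by ring
        rw [e1, e2]
        linarith
  set a := (ε - w.b) * (σ + T) + 2 * p with had
  have hhi : (ε - w.b) * (σ + T) ≤ E * ((B.u1 : ℝ) + B.T1) :=
    mul_le_mul N.E (by linarith [R.u1, R.T1]) (by linarith) (hE0.trans N.E)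
  have hlo : ((c.e0 : ℝ) - w.b) * ((B.u0 : ℝ) + B.T0) ≤ (ε - w.b) * (σ + T) := by
    rcases le_total ((B.u0 : ℝ) + B.T0) 0 with h0 | h0
    · exact (mul_nonpos_of_nonneg_of_nonpos (by linarith [N.bE]) h0).trans
        (mul_nonneg hE0 (by linarith))
    · exact mul_le_mul (by linarith [P.he0]) (by linarith [R.u0, R.T0]) h0 hE0
  have hpair : ∀ ca cb : ℚ, w.pairE c B vl ca cb = true → (0 : ℝ) ≤ ca → (0 : ℝ) ≤ cb →
      ∃ Nv : ℝ, Nv ≤ (ca : ℝ) * tanA ε (w.b : ℝ) (Y ^ 2 - 1) σ +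
          (cb : ℝ) * tanB ε (w.b : ℝ) (Y ^ 2 - 1) T (2 * p * D + G') ∧
        om + op ≤ Nv ∧ a ^ 2 ≤ C * (Nv - om - op) := by
    intro ca cb hp hca hcb
    simp only [MidRow.pairE, Bool.and_eq_true, decide_eq_true_eq] at hp
    obtain ⟨⟨⟨⟨g0, g1⟩, g2⟩, g3⟩, g4⟩ := hp
    have g0' : ((0 : ℚ) : ℝ) ≤ ((w.N0 c B vl ca cb - w.bes B vl * etaN ca cb B.T0 B.T1 -
      MidRow.om B vl - w.op c B vl - 2 * MidRow.P1 c B vl * (cb * MidRow.D1 B) : ℚ) : ℝ) :=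
      Rat.cast_le.2 g0
    push_cast at g0'
    rw [eD1, ← hbed, ← homd, ← hopd] at g0'
    have eP : ((c.e0 * (4 / 5) / w.vhi : ℚ) : ℝ) = (c.e0 : ℝ) * (4 / 5) / (w.vhi : ℝ) := by
      push_cast; ring
    have k1 := lineE_sound g1 g2 (eP.le.trans hP0) hP1
    have k2 := lineE_sound g3 g4 (eP.le.trans hP0) hP1
    push_cast at k1 k2
    rw [eD1, ← hbed, ← homd, ← hopd, ← hCd] at k1 k2
    rw [← hEd] at k1
    set nn := ((etaN ca cb B.T0 B.T1 : ℚ) : ℝ) with hnn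
    set M := ((w.N0 c B vl ca cb : ℚ) : ℝ) with hMd
    have eM : M = ((ca : ℝ) + cb) * (1 + w.b) -
        E * (ca * (B.u1 : ℝ) ^ 2 + cb * (B.T1 : ℝ) ^ 2) - cb * gl := by
      rw [hMd, MidRow.N0]; push_cast; rw [← hgldef, ← hEd]
    refine ⟨M - be * nn - 2 * P' * (cb * D1), ?_, ?_, ?_⟩
    · have e : (ca : ℝ) * tanA ε (w.b : ℝ) (Y ^ 2 - 1) σ +
          (cb : ℝ) * tanB ε (w.b : ℝ) (Y ^ 2 - 1) T (2 * p * D + G') =
          ((ca : ℝ) + cb) * (1 + w.b) - ca * ((ε - w.b) * σ ^ 2) - cb * ((ε - w.b) * T ^ 2) +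
            cb * (2 * (p * D) + G') - bs * ((cb : ℝ) + ((cb : ℝ) - ca) * T ^ 2) := by
        rw [hbs]; unfold tanA tanB; field_simp; ring
      have hn : (cb : ℝ) + ((cb : ℝ) - ca) * T ^ 2 ≤ nn := by
        refine le_of_le_of_eq (etaN_ge (ca := (ca : ℝ)) (cb := (cb : ℝ)) N.T0 R.T0 R.T1) ?_
        rw [hnn]
        unfold etaN
        by_cases hh : cb ≤ ca
        · rw [if_pos hh, if_pos (Rat.cast_le.2 hh)]; push_cast; ring
        · rw [if_neg hh, if_neg (fun h => hh (Rat.cast_le.1 h))]; push_cast; ring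
      have hn0 : 0 ≤ nn := by
        have hh : 0 ≤ etaN (ca : ℚ) cb B.T0 B.T1 := by
          have hcb' : (0 : ℚ) ≤ cb := by exact_mod_cast hcb
          unfold etaN
          split_ifs with h
          · exact le_max_left _ _
          · have := mul_nonneg (by linarith : 0 ≤ cb - ca) (sq_nonneg B.T1)
            linarith
        rw [hnn]; exact_mod_cast hh
      have h1 := mul_le_mul_of_nonneg_left hn hbs0
      have h1' := mul_le_mul_of_nonneg_right hbsbe hn0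
      have h2 := mul_le_mul_of_nonneg_left hEσ hca
      have h3 := mul_le_mul_of_nonneg_left hET hcb
      have h4 := mul_le_mul_of_nonneg_left hPD hcb
      have h5 := mul_le_mul_of_nonneg_left hG0 hcb
      rw [e, eM]
      linarith
    · have := mul_le_mul_of_nonneg_right hP1 (mul_nonneg hcb hD1.le)
      linarith
    · rcases le_total 0 a with ha | ha
      · refine (pow_le_pow_left₀ ha
          (by rw [had]; linarith : a ≤ E * ((B.u1 : ℝ) + B.T1) - 2 * P') 2).trans ?_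
        linarith
      · have h := pow_le_pow_left₀ (neg_nonneg.2 ha) (by rw [had]; linarith :
          -a ≤ -(((c.e0 : ℝ) - w.b) * ((B.u0 : ℝ) + B.T0) - 2 * P')) 2
        rw [neg_sq, neg_sq] at h
        refine h.trans ?_
        linarith
  have e1 : ((1 + 2 * w.r : ℚ) : ℝ) = 1 + 2 * (w.r : ℝ) := by push_cast; ring
  have e2 : ((1 + 2 / w.r : ℚ) : ℝ) = 1 + 2 / (w.r : ℝ) := by push_cast; ring
  have hr0 : (0 : ℝ) ≤ 2 / (w.r : ℝ) := div_nonneg zero_le_two N.r.le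
  obtain ⟨N1, a1, b1, c1⟩ := hpair _ _ hp1 (by rw [e1]; linarith [N.r]) (by norm_num)
  obtain ⟨N2, a2, b2, c2⟩ := hpair _ _ hp2 (by norm_num) (by rw [e2]; linarith)
  rw [e1, Rat.cast_one, one_mul] at a1
  rw [e2, Rat.cast_one, one_mul] at a2
  obtain ⟨L, hL', hle⟩ := core_E (π' := pre m T) (l := l) (Cw := Cw) (Sl := Sl) (p := p) (G := G')
    (C := C) (ω := om) (op := op) (w := w') (N := min N1 N2) hpre.le N.b0 N.r P.hR hom hop0 hw0 hC
    hA0 hB0 ((min_le_left _ _).trans a1) ((min_le_right _ _).trans a2) (le_min b1 b2) (by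
      rcases le_total N1 N2 with h | h
      · rw [min_eq_left h]; exact c1
      · rw [min_eq_right h]; exact c2) hwop (by
    have hlin : ((w.lin c B vl : ℚ) : ℝ) / D1 * D ≤
        ((w.L c B vl : ℚ) : ℝ) - 2 * (w.b : ℝ) / T := by
      have h0 : (0 : ℝ) ≤ ((w.lin c B vl : ℚ) : ℝ) := by exact_mod_cast hlin0
      have h1 := mul_le_mul_of_nonneg_left hDh (div_nonneg h0 hD1.le)
      rw [div_mul_cancel₀ _ hD1.ne'] at h1
      have elin : ((w.lin c B vl : ℚ) : ℝ) =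
          ((w.L c B vl : ℚ) : ℝ) - 2 * (w.b : ℝ) / (B.T0 : ℝ) := by
        simp [MidRow.lin]
      have hbT : 2 * (w.b : ℝ) / T ≤ 2 * (w.b : ℝ) / (B.T0 : ℝ) := by
        rcases N.bT with e | ⟨e, -⟩
        · simp [e]
        · exact div_le_div_of_nonneg_left (by linarith [N.b0]) e R.T0
      linarith
    have hEC : ε - w.b + C ≤
        ((w.A c B vl : ℚ) : ℝ) + ((w.lin c B vl : ℚ) : ℝ) / D1 := by
      rw [hCd]
      simp only [MidRow.CE]
      push_cast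
      rw [eD1]
      linarith [N.E]
    have h5 := mul_le_mul_of_nonneg_left (mul_le_mul_of_nonneg_right hEC (sq_nonneg D)) hpre.le
    have h6 := mul_le_mul_of_nonneg_left (mul_le_mul_of_nonneg_right hlin hD) hpre.le
    have h7 := mul_le_mul_of_nonneg_right hA (sq_nonneg D)
    have h8 := mul_le_mul_of_nonneg_right hL hD
    rw [show (w.b : ℝ) * (Y ^ 2 - 1) / T ^ 2 = bs by rw [hbs]; ring,
      show 2 * (w.b : ℝ) * (σ - T) / T = 2 * (w.b : ℝ) / T * D by rw [hDd]; ring, ← hDd]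
    linarith)
  refine ⟨L, hL'.trans (le_of_eq ?_), le_trans ?_ hle⟩
  · rw [hsplit]; ring
  · have hG : G' ^ 2 / om ≤ cPM (((m : ℝ) + 2) * T ^ 2) * G' ^ 2 := by
      rw [eom, div_div_eq_mul_div, div_one, mul_comm]
      refine mul_le_mul_of_nonneg_right ?_ (sq_nonneg _)
      unfold cPM
      linarith
    have := mul_le_mul_of_nonneg_left hG hpre.le
    linarith

end Vale.Agent.P237.Cal.PosN
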