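import Vale.Agent.P237.Cal.Mid.Defs
import Vale.Agent.P237.Cal.LowEnv
import Vale.Agent.P237.Cal.ScalarFlatBounds

/-!
# P237: the squares of the coefficient against the loss for `128 ≤ n < 384`

`(9/20) u negE ≤ gG`, hence the negative part is at most `(1 - (9/20) u) negE`, whose square is
paid by `ngTM` at every `z`.
-/

open Real

namespace Vale.Agent.P237.Cal.MidN

variable {m : ℕ} {V Y T ε kap c₀ c₁ G : ℝ}

lemma n_bounds (hm : 126 ≤ m) (hm2 : m ≤ 381) :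
    128 ≤ (m : ℝ) + 2 ∧ (m : ℝ) + 2 ≤ 383 := by
  have h1 : (126 : ℝ) ≤ (m : ℝ) := by exact_mod_cast hm
  have h2 : (m : ℝ) ≤ 381 := by exact_mod_cast hm2
  constructor <;> linarith

/-- `n (Y²-1) ≤ 16` below `384`. -/
lemma nd_le (hm : 126 ≤ m) (hm2 : m ≤ 381) (hY : 1 ≤ Y)
    (hYk : Y ^ (m + 1) ≤ 2 * ((m : ℝ) + 2)) : ((m : ℝ) + 2) * (Y ^ 2 - 1) ≤ 16 := by
  obtain ⟨hN, hN2⟩ := n_bounds hm hm2
  have hey : exp (((m : ℝ) + 1) * Real.log Y) = Y ^ (m + 1) := by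
    rw [show (m : ℝ) + 1 = ((m + 1 : ℕ) : ℝ) by push_cast; ring, exp_nat_mul,
      exp_log (one_pos.trans_le hY)]
  have hy : ((m : ℝ) + 1) * Real.log Y ≤ 67 / 10 := by
    have h2 : (766 : ℝ) ≤ exp (67 / 10) := by
      rw [show (67 : ℝ) / 10 = ((6 : ℕ) : ℝ) * 1 + 7 / 10 by norm_num, exp_add, exp_nat_mul]
      refine le_trans ?_ (mul_le_mul (pow_le_pow_left₀ (by norm_num) exp_one_gt_d9.le 6)
        (quadratic_le_exp_of_nonneg (show (0 : ℝ) ≤ 7 / 10 by norm_num)) (by norm_num) (by positivity))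
      norm_num
    exact exp_le_exp.1 (hey.le.trans (hYk.trans (le_trans (by linarith) h2)))
  have h0 := Real.log_nonneg hY
  have hL : Real.log Y ≤ 54 / 1000 := by
    refine le_of_mul_le_mul_left (a := (m : ℝ) + 1) ?_ (by linarith)
    linarith
  obtain ⟨-, -, -, -, h5⟩ := SF.exp_two_bounds h0 (by linarith)
  rw [two_mul, exp_add, exp_log (one_pos.trans_le hY)] at h5
  have h2 := mul_le_mul_of_nonneg_left hL h0
  have hd : Y ^ 2 - 1 ≤ 212 / 100 * Real.log Y := by linarith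
  have h3 := mul_le_mul_of_nonneg_left hd (show (0 : ℝ) ≤ (m : ℝ) + 2 by positivity)
  linarith

/-- `shUM ≤ (21/5) ε/√n`. -/
lemma UM_bounds (he : 0 ≤ ε) (h₀ : c₀ = 9 / 5 * ε / √((m : ℝ) + 2))
    (h₁ : c₁ = 6 / 5 * ε * √((m : ℝ) + 2)) :
    0 ≤ shUM m c₀ c₁ ∧ shUM m c₀ c₁ ≤ 21 / 5 * ε / √((m : ℝ) + 2) := by
  set v := √((m : ℝ) + 2) with hv
  have hv0 : 0 < v := by rw [hv]; positivity
  have hv2 : v ^ 2 = (m : ℝ) + 2 := sq_sqrt (by positivity)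
  have hr : 0 ≤ ε / v := by positivity
  have a : 2 * c₁ / ((m : ℝ) + 4) ≤ 12 / 5 * (ε / v) := by
    rw [div_le_iff₀ (by positivity), h₁,
      show 6 / 5 * ε * v = 6 / 5 * (ε / v) * v ^ 2 by field_simp, hv2]
    have := mul_le_mul_of_nonneg_left (show ((m : ℝ) + 2) ≤ (m : ℝ) + 4 by linarith) hr
    linarith
  have e : c₀ = 9 / 5 * (ε / v) := by rw [h₀]; ring
  refine ⟨by rw [shUM, h₀, h₁]; positivity, ?_⟩
  rw [shUM, show 21 / 5 * ε / v = 21 / 5 * (ε / v) by ring]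
  linarith

lemma negE_nonnegM (he : 0 ≤ ε) (h₀ : c₀ = 9 / 5 * ε / √((m : ℝ) + 2))
    (h₁ : c₁ = 6 / 5 * ε * √((m : ℝ) + 2)) (hY : 1 ≤ Y) (hT : 0 ≤ T) :
    0 ≤ negE m Y c₀ c₁ T := by
  have := (UM_bounds he h₀ h₁).1
  have : 0 ≤ Y ^ 2 - 1 := by linarith [one_le_pow₀ (n := 2) hY]
  unfold negE
  positivity

/-- `(9/20) u negE ≤ gG`. -/
theorem theta_leM (hm : 126 ≤ m) (hm2 : m ≤ 381) (he1 : 7 / 2 ≤ ε) (he2 : ε ≤ 203 / 50)
    (h₀ : c₀ = 9 / 5 * ε / √((m : ℝ) + 2)) (h₁ : c₁ = 6 / 5 * ε * √((m : ℝ) + 2))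
    (hY : 1 ≤ Y) (hYk : Y ^ (m + 1) ≤ 2 * ((m : ℝ) + 2)) (hkap : kap = uOf m Y / 2) (hT : 0 < T) :
    9 / 20 * uOf m Y * negE m Y c₀ c₁ T ≤ gG m ε kap T := by
  obtain ⟨hU0, hU⟩ := UM_bounds (m := m) (show 0 ≤ ε by linarith) h₀ h₁
  obtain ⟨hN, -⟩ := n_bounds hm hm2
  have hnd := nd_le hm hm2 hY hYk
  have hd0 : 0 ≤ Y ^ 2 - 1 := by linarith [one_le_pow₀ (n := 2) hY]
  have hu0 : 0 ≤ uOf m Y := sub_nonneg.2 (inv_le_one_of_one_le₀ (one_le_pow₀ hY))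
  set N := (m : ℝ) + 2 with hNdef
  set r := √N with hr
  have hr0 : 0 < r := sqrt_pos.2 (by linarith)
  have hr2 : r ^ 2 = N := sq_sqrt (by linarith)
  set v := r * T with hv
  have hv0 : 0 < v := mul_pos hr0 hT
  have hz : N * T ^ 2 = v ^ 2 := by rw [hv, mul_pow, hr2]
  have hs : T ^ 2 ≤ v ^ 2 / 128 := by
    rw [le_div_iff₀ (by norm_num), ← hz]
    linarith [mul_le_mul_of_nonneg_right hN (sq_nonneg T)]
  set mn := min ((Y ^ 2 - 1) / (T * √(1 + N * T ^ 2 / 3))) (2 * T / 3) with hmn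
  have hmn0 : 0 ≤ mn := le_min (by positivity) (by positivity)
  have key : 189 / 100 * ((1 + T ^ 2) * (r * mn)) ≤ 9346 / 10000 + 4673 / 10000 * v ^ 2 := by
    rcases le_or_gt v 40 with h40 | h40
    · have h1 : r * mn ≤ 2 / 3 * v := by
        have := mul_le_mul_of_nonneg_left (min_le_right ((Y ^ 2 - 1) / (T * √(1 + N * T ^ 2 / 3)))
          (2 * T / 3)) hr0.le
        rw [hv]; linarith
      have h2 := mul_le_mul (add_le_add_right hs 1) h1 (mul_nonneg hr0.le hmn0) (by positivity)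
      linarith [mul_nonneg (sq_nonneg (v - 27 / 20)) (sub_nonneg.2 h40), sq_nonneg (v - 19 / 10)]
    · have h1 : r * mn ≤ 16 / (577 / 1000 * v ^ 2) := by
        have hR : 577 / 1000 * v ≤ √(1 + N * T ^ 2 / 3) := by
          refine le_sqrt_of_sq_le ?_
          rw [hz]; linarith [sq_nonneg v]
        calc r * mn ≤ r * ((Y ^ 2 - 1) / (T * √(1 + N * T ^ 2 / 3))) :=
              mul_le_mul_of_nonneg_left (min_le_left _ _) hr0.le
          _ = N * (Y ^ 2 - 1) / (v * √(1 + N * T ^ 2 / 3)) := by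
              rw [hv, ← hr2]; field_simp
          _ ≤ 16 / (v * (577 / 1000 * v)) := by gcongr
          _ = _ := by ring
      have h2 := mul_le_mul (add_le_add_right hs 1) h1 (mul_nonneg hr0.le hmn0) (by positivity)
      have h3 : (1 + v ^ 2 / 128) * (16 / (577 / 1000 * v ^ 2)) ≤ 1 := by
        rw [mul_div_assoc', div_le_one (by positivity)]
        nlinarith
      linarith [pow_le_pow_left₀ (by norm_num) h40.le 2]
  have hk : uOf m Y * ε * (62315 / 100000) ≤ kap * (1 + ε) := by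
    rw [hkap]
    linarith [mul_le_mul_of_nonneg_left he2 hu0]
  have hneg : negE m Y c₀ c₁ T ≤ 21 / 5 * ε / N * ((1 + T ^ 2) * (r * mn)) := by
    refine le_trans (mul_le_mul_of_nonneg_right (mul_le_mul_of_nonneg_right hU (by positivity))
      hmn0) (le_of_eq ?_)
    rw [← hmn, show 21 / 5 * ε / N = 21 / 5 * ε / r / r by rw [div_div, ← sq, hr2]]
    field_simp
  have h1 := mul_le_mul_of_nonneg_left hneg (show 0 ≤ 9 / 20 * uOf m Y by positivity)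
  have h2 := mul_le_mul_of_nonneg_left key (show 0 ≤ uOf m Y * ε / N by
    have : 0 ≤ ε := by linarith
    positivity)
  have h3 := mul_le_mul_of_nonneg_right hk
    (show 0 ≤ (3 / 2 + 3 / 4 * v ^ 2) / N by positivity)
  rw [gG, ← hNdef, hz]
  have h4 : 0 ≤ uOf m Y * ε / N * v ^ 2 := by
    have : 0 ≤ ε := by linarith
    positivity
  have h5 : 0 ≤ uOf m Y * ε / N := by
    have : 0 ≤ ε := by linarith
    positivity
  have e : kap * (1 + ε) * (3 / 2 + 3 / 4 * v ^ 2) / N =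
      kap * (1 + ε) * ((3 / 2 + 3 / 4 * v ^ 2) / N) := by ring
  rw [e]
  refine h1.trans (le_trans ?_ h3)
  ring_nf at h2 h4 h5 ⊢
  linarith

/-- The envelope in `z`. -/
lemma cPM_width {z N : ℝ} (hz : 0 ≤ z) (hN : 128 ≤ N) :
    cPM z * (1 + z / N) ^ 2 ≤ (1 + z / 3) * (383 / 1000 - 81 / 1000 * z + 1 / 125 * z ^ 2) := by
  have h1 : z / N ≤ z / 128 := div_le_div_of_nonneg_left hz (by norm_num) hN
  have h2 : 0 ≤ z / N := div_nonneg hz (by linarith)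
  refine (mul_le_mul_of_nonneg_left
    (pow_le_pow_left₀ (by linarith) (add_le_add le_rfl h1) 2) (cPM_pos hz).le).trans ?_
  rw [cPM]
  linarith [mul_nonneg hz (sq_nonneg (z - 359 / 100)), pow_nonneg hz 3]

lemma ngPolyM_nonneg (z : ℝ) : 0 ≤ 383 / 1000 - 81 / 1000 * z + 1 / 125 * z ^ 2 := by
  linarith [sq_nonneg (z - 81 / 16)]

/-- **The negative part is paid.** -/
theorem ng_leM (hm : 126 ≤ m) (hm2 : m ≤ 381) (he1 : 7 / 2 ≤ ε) (he2 : ε ≤ 203 / 50)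
    (h₀ : c₀ = 9 / 5 * ε / √((m : ℝ) + 2)) (h₁ : c₁ = 6 / 5 * ε * √((m : ℝ) + 2))
    (hY : 1 ≤ Y) (hYk : Y ^ (m + 1) ≤ 2 * ((m : ℝ) + 2)) (hkap : kap = uOf m Y / 2) (hT : 0 < T) :
    pre m T * cPM (((m : ℝ) + 2) * T ^ 2) * max (negE m Y c₀ c₁ T - gG m ε kap T) 0 ^ 2 ≤
      ngTM m Y c₀ c₁ T := by
  obtain ⟨hN, -⟩ := n_bounds hm hm2
  have hd : 0 ≤ Y ^ 2 - 1 := by linarith [one_le_pow₀ (n := 2) hY]
  have hlo : 0 ≤ -loD Y T / T := div_nonneg (neg_nonneg.2 (loD_nonpos hY hT.le)) hT.le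
  have hpre : 0 ≤ pre m T := by unfold pre; positivity
  have hE0 := negE_nonnegM (m := m) (show 0 ≤ ε by linarith) h₀ h₁ hY hT.le
  have hth := theta_leM hm hm2 he1 he2 h₀ h₁ hY hYk hkap hT
  have hu1 : uOf m Y ≤ 1 :=
    sub_le_self _ (inv_nonneg.2 (pow_nonneg (zero_le_one.trans hY) _))
  set z := ((m : ℝ) + 2) * T ^ 2 with hz
  have hz0 : 0 ≤ z := by positivity
  set mn := min ((Y ^ 2 - 1) / (T * √(1 + z / 3))) (2 * T / 3) with hmn
  have hmax : max (negE m Y c₀ c₁ T - gG m ε kap T) 0 ≤ (1 - 9 / 20 * uOf m Y) * negE m Y c₀ c₁ T :=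
    max_le (by linarith) (mul_nonneg (by linarith) hE0)
  have hsq : max (negE m Y c₀ c₁ T - gG m ε kap T) 0 ^ 2 ≤
      (1 - 9 / 20 * uOf m Y) ^ 2 * shUM m c₀ c₁ ^ 2 * ((1 + T ^ 2) ^ 2 * mn ^ 2) := by
    refine (pow_le_pow_left₀ (le_max_right _ _) hmax 2).trans (le_of_eq ?_)
    rw [negE, ← hz, ← hmn]
    ring
  have hK : 0 ≤ (1 - 9 / 20 * uOf m Y) ^ 2 * shUM m c₀ c₁ ^ 2 := by positivity
  have h1 := (stateLow_sq_le hY hT (nd_le hm hm2 hY hYk)).trans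
    (mul_le_mul_of_nonneg_right (min_le_left _ _) hlo)
  rw [← hz, ← hmn] at h1
  have hs : T ^ 2 = z / ((m : ℝ) + 2) := by rw [hz]; field_simp
  have h2 := cPM_width hz0 hN
  rw [← hs] at h2
  refine (mul_le_mul_of_nonneg_left (hsq.trans (mul_le_mul_of_nonneg_left
    (mul_le_mul_of_nonneg_left h1 (sq_nonneg _)) hK))
    (mul_nonneg hpre (cPM_pos hz0).le)).trans ?_
  have h3 : cPM z * (1 + T ^ 2) ^ 2 / (1 + z / 3) ≤
      383 / 1000 - 81 / 1000 * z + 1 / 125 * z ^ 2 := by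
    rw [div_le_iff₀ (by positivity)]; linarith
  have h4 := mul_le_mul_of_nonneg_left h3
    (show 0 ≤ (1 - 9 / 20 * uOf m Y) ^ 2 * shUM m c₀ c₁ ^ 2 * (2 * (Y ^ 2 - 1)) *
      (pre m T * (-loD Y T / T)) by positivity)
  have e : ngTM m Y c₀ c₁ T = (1 - 9 / 20 * uOf m Y) ^ 2 * shUM m c₀ c₁ ^ 2 * (2 * (Y ^ 2 - 1)) *
      (pre m T * (-loD Y T / T)) * (383 / 1000 - 81 / 1000 * z + 1 / 125 * z ^ 2) := by
    simp only [ngTM, envLo, muX, pre, hz]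
    field_simp
    ring
  rw [e]
  exact le_trans (le_of_eq (by ring)) h4

/-- **The square of a point of `[gG - negE, gG + stateUp]` is paid.** -/
theorem sq_payM (hm : 126 ≤ m) (hm2 : m ≤ 381) (he1 : 7 / 2 ≤ ε) (he2 : ε ≤ 203 / 50)
    (h₀ : c₀ = 9 / 5 * ε / √((m : ℝ) + 2)) (h₁ : c₁ = 6 / 5 * ε * √((m : ℝ) + 2))
    (hY : 1 ≤ Y) (hYk : Y ^ (m + 1) ≤ 2 * ((m : ℝ) + 2)) (hkap : kap = uOf m Y / 2) (hT : 0 < T)
    (h1 : gG m ε kap T - negE m Y c₀ c₁ T ≤ G)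
    (h2 : G ≤ gG m ε kap T + stateUp m V Y c₀ c₁ T) :
    pre m T * (cPM (((m : ℝ) + 2) * T ^ 2) * G ^ 2) ≤
      gTM m ε kap T + upTM m V Y c₀ c₁ T + ngTM m Y c₀ c₁ T := by
  have hng := ng_leM hm hm2 he1 he2 h₀ h₁ hY hYk hkap hT
  have hc := (cPM_pos (show (0 : ℝ) ≤ ((m : ℝ) + 2) * T ^ 2 by positivity)).le
  have hpre : 0 ≤ pre m T := by unfold pre; positivity
  set c := cPM (((m : ℝ) + 2) * T ^ 2)
  set g := gG m ε kap T
  set b := stateUp m V Y c₀ c₁ T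
  have h3 := sq_le_envelope h1 h2
  have h5 : (g + b) ^ 2 ≤ 3 * g ^ 2 + 3 / 2 * b ^ 2 := by linarith [sq_nonneg (2 * g - b)]
  have h6 := mul_le_mul_of_nonneg_left (mul_le_mul_of_nonneg_left
    (h3.trans (add_le_add h5 le_rfl)) hc) hpre
  simp only [gTM, upTM]
  linarith

end Vale.Agent.P237.Cal.MidN
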