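import Vale.Agent.P237.Cal.Mid.PwAll
import Vale.Agent.P237.Cal.Mid.Pay
import Vale.Agent.P237.Cal.Mid.CapSharp
import Vale.Agent.P237.Cal.TanTail

/-!
# P237: the side `σ ≥ T`, `T ≥ 47/100` for `128 ≤ n < 384`

The multiplier is `b = ε - 5/4` up to `T = 53/100` and `b = ε + 1/1000` beyond. The coefficient of
`h - 1` is at least `(5/2) η`, so `(G - b η d)² ≤ G² + η² b d (b d - 5)`; the slack of the linear
part is used with its second order term. Beyond `T = 3` the negative part of the flattened weight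
is paid by `etaM`.
-/

open Real

namespace Vale.Agent.P237.Cal.MidN

variable {m : ℕ} {V Y T σ h X ε kap q b η : ℝ}

/-- `log Y ≤ 4368/100000`. -/
lemma logY_leM (hm : 126 ≤ m) (hY : 1 ≤ Y) (hYk : Y ^ (m + 1) ≤ 2 * ((m : ℝ) + 2)) :
    log Y ≤ 4368 / 100000 := by
  have hm' : (126 : ℝ) ≤ (m : ℝ) := by exact_mod_cast hm
  set N := (m : ℝ) + 2 with hN
  have hY0 : 0 < Y := one_pos.trans_le hY
  have h1 := log_le_log (pow_pos hY0 _) hYk
  rw [log_pow, show (2 : ℝ) * N = 2 ^ 8 * (N / 128) by ring,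
    log_mul (by norm_num) (by positivity), log_pow] at h1
  have h2 := log_le_sub_one_of_pos (show 0 < N / 128 by positivity)
  push_cast at h1
  have h3 := log_two_lt_d9
  refine le_of_mul_le_mul_left (a := (m : ℝ) + 1) ?_ (by linarith)
  linarith

/-- `η ≤ (2092/1000) log Y` and `η ≤ 23/250`. -/
lemma eta_leM (hm : 126 ≤ m) (hY : 1 ≤ Y) (hYk : Y ^ (m + 1) ≤ 2 * ((m : ℝ) + 2)) :
    Y ^ 2 - 1 ≤ 2092 / 1000 * log Y ∧ Y ^ 2 - 1 ≤ 23 / 250 := by
  have hL := logY_leM hm hY hYk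
  have hL0 := log_nonneg hY
  have e : exp (2 * log Y) = Y ^ 2 := by
    rw [show (2 : ℝ) * log Y = ((2 : ℕ) : ℝ) * log Y by norm_num, exp_nat_mul,
      exp_log (one_pos.trans_le hY)]
  have h := exp_bound' (x := 2 * log Y) (by linarith) (by linarith) (n := 3) (by norm_num)
  simp only [Finset.sum_range_succ, Finset.sum_range_zero, Nat.factorial] at h
  norm_num at h
  rw [e] at h
  have h2 : Y ^ 2 - 1 ≤ 2092 / 1000 * log Y := by
    nlinarith [mul_le_mul_of_nonneg_left hL hL0,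
      mul_le_mul_of_nonneg_left hL (mul_nonneg hL0 hL0)]
  exact ⟨h2, by linarith⟩

/-- `10 η ≤ u`. -/
lemma ten_eta_le_u (hm : 126 ≤ m) (hY : 1 ≤ Y) (hYk : Y ^ (m + 1) ≤ 2 * ((m : ℝ) + 2)) :
    10 * (Y ^ 2 - 1) ≤ uOf m Y := by
  have hm' : (126 : ℝ) ≤ (m : ℝ) := by exact_mod_cast hm
  have hη := (eta_leM hm hY hYk).1
  have hL := logY_leM hm hY hYk
  have hL0 := log_nonneg hY
  have hY0 : 0 < Y := one_pos.trans_le hY
  set L := log Y with hLdef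
  set y := ((m : ℝ) + 1) * L with hy
  have hy0 : 0 ≤ y := by positivity
  have hLy : 127 * L ≤ y := mul_le_mul_of_nonneg_right (by linarith) hL0
  have hq : 1 + y + y ^ 2 / 2 ≤ Y ^ (m + 1) := by
    refine (quadratic_le_exp_of_nonneg hy0).trans (le_of_eq ?_)
    rw [hy, hLdef, show (m : ℝ) + 1 = ((m + 1 : ℕ) : ℝ) by push_cast; ring, exp_nat_mul,
      exp_log hY0]
  have hQ : 0 < 1 + y + y ^ 2 / 2 := by positivity
  have hu : 1 - 1 / (1 + y + y ^ 2 / 2) ≤ uOf m Y := by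
    rw [uOf, ← one_div]
    exact sub_le_sub_left (one_div_le_one_div_of_le hQ hq) _
  refine le_trans ?_ hu
  have h10 : 10 * (Y ^ 2 - 1) ≤ 2092 / 100 * L := by linarith
  refine h10.trans ?_
  rw [one_sub_div hQ.ne', le_div_iff₀ hQ]
  rcases le_or_gt y (56 / 10) with h | h
  · have h1 := mul_le_mul_of_nonneg_right hLy hQ.le
    nlinarith [mul_nonneg hy0 (mul_nonneg hy0 (sub_nonneg.2 h)), mul_nonneg hy0 (sub_nonneg.2 h)]
  · have h1 := mul_le_mul_of_nonneg_right hL hQ.le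
    nlinarith

/-- `ε Y² ≤ 416/100`. -/
lemma eps_Y_le (hm : 126 ≤ m) (hq : 1 < q) (hY : 1 ≤ Y) (hcap : q * semiMom m 1 ≤ capB m)
    (hε : ε = 4 * q ^ (2 / ((m : ℝ) + 2)) / Y ^ 2) : ε * Y ^ 2 ≤ 416 / 100 := by
  have hm' : (126 : ℝ) ≤ (m : ℝ) := by exact_mod_cast hm
  have hq0 : 0 < q := by linarith
  have hY0 : 0 < Y := one_pos.trans_le hY
  set N := (m : ℝ) + 2 with hN
  have hlq := log_q_le_mid hm hq0 hcap
  rw [← hN, show N = 2 ^ 7 * (N / 128) by ring, log_mul (by norm_num) (by positivity), log_pow]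
    at hlq
  push_cast at hlq
  have h2 := log_le_sub_one_of_pos (show 0 < N / 128 by positivity)
  have h3 := log_two_lt_d9
  rw [hε, div_mul_cancel₀ _ (pow_ne_zero _ hY0.ne'), rpow_def_of_pos hq0]
  have hx : log q * (2 / N) ≤ 375 / 10000 := by
    rw [← mul_div_assoc, div_le_iff₀ (by positivity)]
    linarith
  have h := exp_bound' (x := (375 : ℝ) / 10000) (by norm_num) (by norm_num) (n := 3) (by norm_num)
  simp only [Finset.sum_range_succ, Finset.sum_range_zero, Nat.factorial] at h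
  norm_num at h
  linarith [exp_le_exp.2 hx]

/-- A line above `416/(100 (1 + η))`. -/
lemma eps_line (hη0 : 0 ≤ η) (hη : η ≤ 23 / 250) (h : ε * (1 + η) ≤ 416 / 100) :
    ε ≤ 4161 / 1000 - 38 / 10 * η := by
  refine le_of_mul_le_mul_right (h.trans ?_) (by linarith : (0 : ℝ) < 1 + η)
  nlinarith [mul_nonneg hη0 (sub_nonneg.2 hη)]

/-- The state part stays above `(5/2) η` on the tail. -/
lemma tail_G_ge {c₀ c₁ : ℝ} (hm : 126 ≤ m) (he1 : 7 / 2 ≤ ε) (he2 : ε ≤ 203 / 50)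
    (h₀ : c₀ = 9 / 5 * ε / √((m : ℝ) + 2)) (h₁ : c₁ = 6 / 5 * ε * √((m : ℝ) + 2))
    (hY : 1 ≤ Y) (hYk : Y ^ (m + 1) ≤ 2 * ((m : ℝ) + 2)) (hkap : kap = uOf m Y / 2)
    (hT : 47 / 100 ≤ T) :
    5 / 2 * (Y ^ 2 - 1) ≤ gG m ε kap T - negE m Y c₀ c₁ T := by
  have hm' : (126 : ℝ) ≤ (m : ℝ) := by exact_mod_cast hm
  obtain ⟨hU0, hU⟩ := UM_bounds (m := m) (show 0 ≤ ε by linarith) h₀ h₁
  have hu := ten_eta_le_u hm hY hYk
  have hd0 : 0 ≤ Y ^ 2 - 1 := by linarith [one_le_pow₀ (n := 2) hY]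
  set η := Y ^ 2 - 1 with hηdef
  set N := (m : ℝ) + 2 with hN
  have hT0 : 0 < T := by linarith
  have hs : 2209 / 10000 ≤ T ^ 2 := by
    have := pow_le_pow_left₀ (by norm_num) hT 2
    linarith
  have hv : 1131 / 100 ≤ √N := le_sqrt_of_sq_le (by norm_num; linarith)
  have hR : 653 / 100 * T ^ 2 ≤ T * √(1 + N * T ^ 2 / 3) := by
    rw [show 653 / 100 * T ^ 2 = T * (653 / 100 * T) by ring]
    refine mul_le_mul_of_nonneg_left (le_sqrt_of_sq_le ?_) hT0.le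
    have := mul_le_mul_of_nonneg_right (show (128 : ℝ) ≤ N by linarith) (sq_nonneg T)
    linarith
  have hneg : negE m Y c₀ c₁ T ≤ 315 / 1000 * (ε * η) := by
    have h1 : shUM m c₀ c₁ ≤ 21 / 5 * ε * (100 / 1131) := by
      refine hU.trans ?_
      rw [show 21 / 5 * ε * (100 / 1131) = 21 / 5 * ε / (1131 / 100) by ring]
      exact div_le_div_of_nonneg_left (by positivity) (by norm_num) hv
    have h2 : min (η / (T * √(1 + N * T ^ 2 / 3))) (2 * T / 3) ≤ η / (653 / 100 * T ^ 2) :=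
      (min_le_left _ _).trans (div_le_div_of_nonneg_left hd0 (by positivity) hR)
    have h3 : (1 + T ^ 2) * (η / (653 / 100 * T ^ 2)) ≤ η * (8465 / 10000) := by
      rw [← mul_div_assoc, div_le_iff₀ (by positivity)]
      linarith [mul_le_mul_of_nonneg_left hs hd0]
    rw [negE, mul_assoc, ← hηdef, ← hN]
    refine le_trans (mul_le_mul h1 ((mul_le_mul_of_nonneg_left h2 (by positivity)).trans h3)
      (mul_nonneg (by positivity) (le_min (by positivity) (by positivity))) (by positivity)) ?_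
    linarith [mul_nonneg (show 0 ≤ ε by linarith) hd0]
  have hu0 : 0 ≤ uOf m Y := by linarith
  have hg : uOf m Y * ε * (1032 / 10000) ≤ gG m ε kap T := by
    rw [gG, ← hN, le_div_iff₀ (by linarith)]
    have h1 : uOf m Y * ε * (623 / 1000) ≤ kap * (1 + ε) := by
      rw [hkap]
      linarith [mul_le_mul_of_nonneg_left he2 hu0]
    have h2 : 16567 / 100000 * N ≤ 3 / 2 + 3 / 4 * (N * T ^ 2) := by
      linarith [mul_le_mul_of_nonneg_left hs (show 0 ≤ N by linarith)]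
    have h3 := mul_le_mul h1 h2 (by linarith) (le_trans (by positivity) h1)
    have : 0 ≤ uOf m Y * ε * N := by positivity
    linarith
  have h4 := mul_le_mul_of_nonneg_right hu (show 0 ≤ ε by linarith)
  have h5 := mul_le_mul_of_nonneg_left he1 hd0
  linarith

/-- The constant of the weight at `W ≤ w`, `n ≥ 128`. -/
noncomputable def tailCL (w : ℝ) : ℝ :=
  (2 * w + 251 / 250) / ((w + 251 / 250) ^ 2 * (251 / 250) ^ 3) - 3755 / 10000

lemma rr_le_mid (hm : 126 ≤ m) : rr (m + 1) ≤ 251 / 250 := by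
  have hm' : (126 : ℝ) ≤ (m : ℝ) := by exact_mod_cast hm
  have h := rr_le (k := m + 1) (by omega)
  push_cast at h
  have := one_div_le_one_div_of_le (by norm_num : (0 : ℝ) < 255)
    (by linarith : (255 : ℝ) ≤ 2 * ((m : ℝ) + 1) + 1)
  linarith

/-- `n flatB ≥ tailCL(w) (z - 101/100)²` for `z ≥ 28`. -/
lemma flat_tailM {N W r s kap w : ℝ} (hN : 128 ≤ N) (hs : W ^ 2 = 1 + s) (hW : 1 ≤ W) (hw : W ≤ w)
    (hz : 28 ≤ N * s) (hr1 : 1 ≤ r) (hr2 : r ≤ 251 / 250)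
    (hr3 : |N * (r ^ 2 - 1) - 1| ≤ 1 / N) (hk0 : 0 ≤ kap) (hk : kap ≤ 1 / 2) :
    tailCL w * (N * s - 101 / 100) ^ 2 ≤
      N * ((N + 2) * ((W - r) ^ 2 * (2 * W + r) / r ^ 3) +
        kap / N * (-(3 / 4) * (N * s - 1) ^ 2 + s * (3 / 2 * (N * s) - 15 / 4))) := by
  have hN0 : 0 < N := by linarith
  have hr0 : 0 < r := by linarith
  have hb : N * (r ^ 2 - 1) ≤ 101 / 100 := by
    have h6 : 1 / N ≤ 1 / 128 := one_div_le_one_div_of_le (by norm_num) hN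
    linarith [(abs_le.1 hr3).2]
  have hs0 : 0 ≤ s := by nlinarith
  set z := N * s with hzdef
  set R : ℝ := 251 / 250 with hR
  set c := (2 * w + R) / ((w + R) ^ 2 * R ^ 3) with hcdef
  have hw0 : 0 < w := by linarith
  have hR0 : 0 < R := by rw [hR]; norm_num
  have hc : c ≤ (2 * W + r) / ((W + r) ^ 2 * r ^ 3) := by
    have h1 : (2 * w + R) / (w + R) ^ 2 ≤ (2 * W + r) / (W + r) ^ 2 := by
      rw [div_le_div_iff₀ (by positivity) (by positivity)]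
      nlinarith [mul_nonneg (mul_nonneg (sub_nonneg.2 hw) (by linarith : (0 : ℝ) ≤ W)) hw0.le,
        mul_nonneg (mul_nonneg (sub_nonneg.2 hr2) (by linarith : (0 : ℝ) ≤ W)) hw0.le,
        mul_nonneg (mul_nonneg (sub_nonneg.2 hw) hr0.le) hR0.le,
        mul_nonneg (mul_nonneg (sub_nonneg.2 hr2) hr0.le) hR0.le,
        mul_nonneg (mul_nonneg (sub_nonneg.2 hw) (by linarith : (0 : ℝ) ≤ W)) hR0.le,
        mul_nonneg (mul_nonneg (sub_nonneg.2 hr2) hr0.le) hw0.le,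
        mul_nonneg (mul_nonneg (sub_nonneg.2 hw) hr0.le) hw0.le,
        mul_nonneg (mul_nonneg (sub_nonneg.2 hr2) (by linarith : (0 : ℝ) ≤ W)) hR0.le]
    have h2 : r ^ 3 ≤ R ^ 3 := pow_le_pow_left₀ hr0.le hr2 3
    rw [hcdef, ← div_div, ← div_div]
    exact div_le_div₀ (div_nonneg (by linarith) (sq_nonneg _)) h1 (by positivity) h2
  have hc0 : 0 ≤ c := by rw [hcdef]; positivity
  have h1 : c * (z - 101 / 100) ^ 2 ≤
      N * ((N + 2) * ((W - r) ^ 2 * (2 * W + r) / r ^ 3)) := by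
    have h3 : (z - 101 / 100) ^ 2 ≤ (N * (W ^ 2 - r ^ 2)) ^ 2 := by
      refine pow_le_pow_left₀ (by linarith) ?_ 2
      have e : N * (W ^ 2 - r ^ 2) = z - N * (r ^ 2 - 1) := by rw [hs, hzdef]; ring
      linarith
    have e : N * ((N + 2) * ((W - r) ^ 2 * (2 * W + r) / r ^ 3)) =
        (1 + 2 / N) * ((N * (W ^ 2 - r ^ 2)) ^ 2 * ((2 * W + r) / ((W + r) ^ 2 * r ^ 3))) := by
      field_simp
      ring
    rw [e]
    refine le_trans ?_ (le_mul_of_one_le_left (by positivity) (by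
      have : 0 ≤ 2 / N := by positivity
      linarith))
    rw [mul_comm c]
    exact mul_le_mul h3 hc hc0 (sq_nonneg _)
  have h4 : -(3755 / 10000 * (z - 101 / 100) ^ 2) ≤
      kap * (-(3 / 4) * (z - 1) ^ 2 + s * (3 / 2 * z - 15 / 4)) := by
    have hz0 : 0 ≤ kap * (s * (3 / 2 * z - 15 / 4)) :=
      mul_nonneg hk0 (mul_nonneg hs0 (by linarith))
    have h5 := mul_le_mul_of_nonneg_right hk (sq_nonneg (z - 1))
    nlinarith [sq_nonneg (z - 28)]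
  have e : N * (kap / N * (-(3 / 4) * (z - 1) ^ 2 + s * (3 / 2 * z - 15 / 4))) =
      kap * (-(3 / 4) * (z - 1) ^ 2 + s * (3 / 2 * z - 15 / 4)) := by field_simp
  rw [mul_add N, e, tailCL, ← hR, ← hcdef]
  linarith

/-- The weight on a piece `[T₀, T₁]` of the tail. -/
lemma tail_weightM {T₀ T₁ w Kc : ℝ} (hm : 126 ≤ m) (hε : 0 ≤ ε) (hk0 : 0 ≤ kap)
    (hk : kap ≤ 1 / 2) (hT₀ : 47 / 100 ≤ T₀) (h0 : T₀ ≤ T) (h1 : T ≤ T₁) (hw0 : 0 ≤ w)
    (hw : 1 + T₁ ^ 2 ≤ w ^ 2) (hc : 0 ≤ tailCL w)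
    (hK : Kc ≤ tailCL w / 2 * ((128 * T₀ ^ 2 - 101 / 50) / (1 + T₀ ^ 2))) :
    pre m T * (2 * T * ((1 + ε) * Kc)) ≤ ellFlat m ε kap (rr (m + 1)) T := by
  have hm' : (126 : ℝ) ≤ (m : ℝ) := by exact_mod_cast hm
  have hT : 0 < T := by linarith
  have hs : T₀ ^ 2 ≤ T ^ 2 := pow_le_pow_left₀ (by linarith) h0 2
  have hs0 : (2209 / 10000 : ℝ) ≤ T₀ ^ 2 := by
    have := pow_le_pow_left₀ (by norm_num) hT₀ 2
    linarith
  set z := ((m : ℝ) + 2) * T ^ 2 with hz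
  have hz1 : 128 * T ^ 2 ≤ z := mul_le_mul_of_nonneg_right (by linarith) (sq_nonneg T)
  have hw' : √(1 + T ^ 2) ≤ w :=
    (sqrt_le_left hw0).2 (by linarith [pow_le_pow_left₀ hT.le h1 2])
  have hr1 := (one_lt_rr (k := m + 1) (by omega)).le
  have hr0 : 0 < rr (m + 1) := one_pos.trans_le hr1
  have h := flat_tailM (N := (m : ℝ) + 2) (kap := kap) (by linarith) (w_sq T) (one_le_w T) hw'
    (by rw [← hz]; linarith) hr1 (rr_le_mid hm) (rr_sq_near (by omega)) hk0 hk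
  rw [show (m : ℝ) + 2 + 2 = (m : ℝ) + 4 by ring, ← hz] at h
  rw [ellFlat_eq hr0.ne' T]
  have hh1 := mul_le_mul_of_nonneg_left h (by linarith : (0 : ℝ) ≤ 1 + ε)
  have hh2 := mul_le_mul_of_nonneg_left hh1
    (by positivity : 0 ≤ ((m : ℝ) + 1) * T / (((m : ℝ) + 2) * √(1 + T ^ 2) ^ (m + 6)))
  have hq : (128 * T₀ ^ 2 - 101 / 50) / (1 + T₀ ^ 2) ≤
      (z - 101 / 100) ^ 2 / (z * (1 + T ^ 2)) := by
    refine le_trans (?_ : _ ≤ (128 * T ^ 2 - 101 / 50) / (1 + T ^ 2)) ?_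
    · rw [div_le_div_iff₀ (by positivity) (by positivity)]; linarith
    · rw [← div_div]
      refine div_le_div_of_nonneg_right ?_ (by positivity)
      rw [le_div_iff₀ (by linarith)]
      have := mul_le_mul_of_nonneg_right hz1 (by linarith : (0 : ℝ) ≤ z)
      linarith
  have h3 := mul_le_mul_of_nonneg_left
    (hK.trans (mul_le_mul_of_nonneg_left hq (by linarith))) (show 0 ≤ 1 + ε by linarith)
  have h4 := mul_le_mul_of_nonneg_left h3
    (show 0 ≤ 2 * T * pre m T by unfold pre; positivity)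
  refine le_trans (le_trans (le_of_eq (by ring)) (h4.trans (le_of_eq ?_)))
    (hh2.trans (le_of_eq ?_))
  · simp only [pre, hz]
    rw [show √(1 + T ^ 2) ^ (m + 6) = √(1 + T ^ 2) ^ (m + 4) * √(1 + T ^ 2) ^ 2 from pow_add _ _ 2,
      w_sq]
    field_simp
  · simp only [flatB, hz]
    field_simp

/-- The weight beyond `T = 3`. -/
lemma far_weightM (hm : 126 ≤ m) (he0 : 7 / 2 ≤ ε) (he1 : ε ≤ 203 / 50) (hk0 : 0 ≤ kap)
    (hT : 3 ≤ T) :
    pre m T * (2 * T * (120 / T)) ≤ ellFlat m ε kap (rr (m + 1)) T +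
      pre m T * (8 / 5 * ((m : ℝ) + 2) * kap ^ 2 * √(1 + T ^ 2) ^ 3 / T) := by
  have hm' : (126 : ℝ) ≤ (m : ℝ) := by exact_mod_cast hm
  have hT0 : 0 < T := by linarith
  have hW0 := w_pos T
  have hs := w_sq T
  have hr1 := (one_lt_rr (k := m + 1) (by omega)).le
  have hr0 : 0 < rr (m + 1) := one_pos.trans_le hr1
  have hr2 := rr_le_mid hm
  set W := √(1 + T ^ 2) with hWdef
  set N := (m : ℝ) + 2 with hN
  set r := rr (m + 1) with hr
  have hWT : T ≤ W := le_sqrt_of_sq_le (by linarith)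
  have hW : 316 / 100 ≤ W := le_sqrt_of_sq_le (by nlinarith)
  have hN0 : 128 ≤ N := by linarith
  have h1 : 9 / 10 * W ^ 3 ≤ (W - r) ^ 2 * (2 * W + r) / r ^ 3 := by
    rw [le_div_iff₀ (by positivity)]
    have a1 : (68 / 100 * W) ^ 2 ≤ (W - r) ^ 2 :=
      pow_le_pow_left₀ (by positivity) (by linarith) 2
    have a2 := mul_le_mul a1 (by linarith : 2 * W ≤ 2 * W + r) (by positivity) (sq_nonneg _)
    have a3 : r ^ 3 ≤ (251 / 250) ^ 3 := pow_le_pow_left₀ hr0.le hr2 3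
    have a4 := mul_le_mul_of_nonneg_left a3 (by positivity : (0 : ℝ) ≤ 9 / 10 * W ^ 3)
    have : 0 ≤ W ^ 3 := by positivity
    linarith
  have h2 : -(N * (9 / 20 * W ^ 3 + 5 / 16 * kap ^ 2 * W ^ 5)) ≤
      kap / N * (-(3 / 4) * (N * T ^ 2 - 1) ^ 2 + T ^ 2 * (3 / 2 * (N * T ^ 2) - 15 / 4)) := by
    have hz : 1 ≤ N * T ^ 2 := by nlinarith
    have hz' : 0 ≤ 3 / 2 * (N * T ^ 2) - 15 / 4 := by nlinarith
    have a1 : (N * T ^ 2 - 1) ^ 2 ≤ (N * W ^ 2) ^ 2 :=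
      pow_le_pow_left₀ (by linarith) (by rw [hs]; linarith) 2
    have a2 := mul_le_mul_of_nonneg_left a1 (div_nonneg hk0 (by linarith : 0 ≤ N))
    have a3 : 0 ≤ kap / N * (T ^ 2 * (3 / 2 * (N * T ^ 2) - 15 / 4)) := by positivity
    have a4 : 3 / 4 * kap * W ^ 4 ≤ 9 / 20 * W ^ 3 + 5 / 16 * kap ^ 2 * W ^ 5 := by
      have : 0 ≤ W ^ 3 * (6 * (1 / 1) - 5 * kap * W) ^ 2 := by positivity
      linarith
    have a5 := mul_le_mul_of_nonneg_left a4 (by linarith : 0 ≤ N)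
    have e : kap / N * (N * W ^ 2) ^ 2 = N * kap * W ^ 4 := by field_simp
    linarith
  have hN2 : N + 2 = (m : ℝ) + 4 := by rw [hN]; ring
  have h3 : N * (9 / 20 * W ^ 3 - 5 / 16 * kap ^ 2 * W ^ 5) ≤ flatB m kap r T := by
    have a1 := mul_le_mul_of_nonneg_left h1 (by linarith : (0 : ℝ) ≤ N)
    have a2 : 0 ≤ (W - r) ^ 2 * (2 * W + r) / r ^ 3 := le_trans (by positivity) h1
    simp only [flatB, ← hWdef, ← hN, ← hN2]
    linarith
  have hpre : 0 ≤ pre m T := by unfold pre; positivity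
  have e1 : ellFlat m ε kap r T = pre m T * ((1 + ε) * flatB m kap r T / (T * W ^ 2)) := by
    rw [ellFlat_eq hr0.ne' T, ← hWdef]
    simp only [pre, ← hWdef]
    rw [show W ^ (m + 6) = W ^ (m + 4) * W ^ 2 from pow_add _ _ 2]
    field_simp
  rw [e1, ← mul_add]
  refine mul_le_mul_of_nonneg_left ?_ hpre
  have e2 : 2 * T * (120 / T) = 240 := by field_simp; ring
  have e3 : (1 + ε) * flatB m kap r T / (T * W ^ 2) + 8 / 5 * N * kap ^ 2 * W ^ 3 / T =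
      ((1 + ε) * flatB m kap r T + 8 / 5 * N * kap ^ 2 * W ^ 5) / (T * W ^ 2) := by
    field_simp
  rw [e2, e3, le_div_iff₀ (by positivity)]
  have a1 := mul_le_mul_of_nonneg_left h3 (by linarith : (0 : ℝ) ≤ 1 + ε)
  have a2 : 240 * (T * W ^ 2) ≤ 9 / 2 * (N * (9 / 20 * W ^ 3)) := by
    have b1 := mul_le_mul_of_nonneg_right hWT (sq_nonneg W)
    have b2 := mul_le_mul_of_nonneg_right hN0 (by positivity : (0 : ℝ) ≤ W ^ 3)
    have : 0 ≤ W ^ 3 := by positivity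
    linarith
  have a3 := mul_le_mul_of_nonneg_right (by linarith : (9 : ℝ) / 2 ≤ 1 + ε)
    (by positivity : 0 ≤ N * (9 / 20 * W ^ 3))
  have a4 := mul_le_mul_of_nonneg_right (by linarith : (1 + ε) * (5 / 16) ≤ 8 / 5)
    (by positivity : 0 ≤ N * (kap ^ 2 * W ^ 5))
  linarith

/-- The slack pays `l (η/(2T)) (1 + η/(4T²))`. -/
lemma slack_ge2 (hY : 1 ≤ Y) (hT : 0 < T) {l ν : ℝ} (hν : 0 ≤ ν) (hlν : 0 ≤ l + ν)
    (hη : Y ^ 2 - 1 ≤ T ^ 2) :
    l * ((Y ^ 2 - 1) / (2 * T) * (1 + (Y ^ 2 - 1) / (4 * T ^ 2))) ≤ (l + ν) * (-loD Y T) := by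
  have hη0 : 0 ≤ Y ^ 2 - 1 := by nlinarith
  set η := Y ^ 2 - 1 with hηdef
  refine (mul_le_mul_of_nonneg_right (le_add_of_nonneg_right hν : l ≤ l + ν)
    (by positivity)).trans (mul_le_mul_of_nonneg_left ?_ hlν)
  set a := η / (2 * T) * (1 + η / (4 * T ^ 2)) with ha
  have haT : a ≤ T := by
    have h1 : η / (4 * T ^ 2) ≤ 1 / 4 := by rw [div_le_iff₀ (by positivity)]; linarith
    have h2 : η / (2 * T) ≤ T / 2 := by rw [div_le_iff₀ (by positivity)]; nlinarith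
    refine (mul_le_mul h2 (add_le_add_right h1 1) (by positivity) (by positivity)).trans ?_
    linarith
  rw [loD, le_neg, sub_le_iff_le_add, sqrt_le_left (by linarith)]
  have e : (-a + T) ^ 2 = T ^ 2 + 1 - Y ^ 2 +
      (η * η ^ 2 / (8 * T ^ 4) + η ^ 2 * η ^ 2 / (64 * T ^ 6)) := by
    rw [ha, hηdef]; field_simp; ring
  rw [e]
  have : 0 ≤ η * η ^ 2 / (8 * T ^ 4) + η ^ 2 * η ^ 2 / (64 * T ^ 6) := by positivity
  linarith

/-- The square behind the multiplier. -/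
lemma tailM_quot {k2 k γ Wc lam N c D G R d : ℝ} (hk2 : 1 < k2) (hk : k = k2 / (k2 - 1))
    (hN : 0 < N) (hγ : k ≤ γ * N) (hD : 0 ≤ D) (hη : 0 ≤ η) (hbd : 0 ≤ b * d)
    (hG : 5 / 2 * η ≤ G) (hx : k2 * c ^ 2 * D ≤ (Wc * D + lam) * N)
    (hR : k * (η * (b * d) * (b * d - 5)) ≤ R * N) :
    (c * D + (G - b * η * d)) ^ 2 / N ≤ Wc * D ^ 2 + lam * D + γ * G ^ 2 + η * R := by
  have hk0 : 0 ≤ k := by rw [hk]; exact div_nonneg (by linarith) (by linarith)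
  rw [div_le_iff₀ hN]
  refine (add_sq_le_split hk2).trans ?_
  rw [← hk]
  have h1 := mul_le_mul_of_nonneg_right hx hD
  have h2 : (G - b * η * d) ^ 2 ≤ G ^ 2 + η * (η * (b * d) * (b * d - 5)) := by
    nlinarith [mul_le_mul_of_nonneg_right hG (mul_nonneg hη hbd)]
  have h3 := mul_le_mul_of_nonneg_left h2 hk0
  have h4 := mul_le_mul_of_nonneg_right hγ (sq_nonneg G)
  have h5 := mul_le_mul_of_nonneg_left hR hη
  linarith

/-- One point of the tail. -/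
theorem tailM_core {π' l Cw Sl M p G K k2 k γ Wc lam R : ℝ} (hπ : 0 ≤ π') (hR : RegC Y T σ h)
    (hY : 1 ≤ Y) (hσ : T ≤ σ) (hb : 0 ≤ b) (hA : 0 ≤ tanA ε b (Y ^ 2 - 1) σ)
    (hB : 0 ≤ tanB ε b (Y ^ 2 - 1) T (2 * p * (σ - T) + G))
    (hN : 0 < tanA ε b (Y ^ 2 - 1) σ + tanB ε b (Y ^ 2 - 1) T (2 * p * (σ - T) + G))
    (hk2 : 1 < k2) (hk : k = k2 / (k2 - 1))
    (hγ : k ≤ γ * (tanA ε b (Y ^ 2 - 1) σ + tanB ε b (Y ^ 2 - 1) T (2 * p * (σ - T) + G)))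
    (hG : 5 / 2 * (Y ^ 2 - 1) ≤ G)
    (hx : k2 * ((ε - b) * (σ + T) + 2 * p) ^ 2 * (σ - T) ≤ (Wc * (σ - T) + lam) *
      (tanA ε b (Y ^ 2 - 1) σ + tanB ε b (Y ^ 2 - 1) T (2 * p * (σ - T) + G)))
    (hCw : π' * (ε - b + Wc) ≤ Cw) (hl : π' * (2 * T * K) ≤ l + M)
    (hlin : 2 * b / T + lam ≤ 2 * T * K)
    (hηR : b / T ^ 2 + R ≤ K * (1 + (Y ^ 2 - 1) / (4 * T ^ 2)))
    (hRN : k * ((Y ^ 2 - 1) * (b * (2 + 1 / T ^ 2)) * (b * (2 + 1 / T ^ 2) - 5)) ≤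
      R * (tanA ε b (Y ^ 2 - 1) σ + tanB ε b (Y ^ 2 - 1) T (2 * p * (σ - T) + G)))
    (hSl : l * ((Y ^ 2 - 1) / (2 * T) * (1 + (Y ^ 2 - 1) / (4 * T ^ 2))) ≤ Sl) :
    ∃ L, L ≤ valQ ε T σ h + (2 * p * (σ - T) + G) * (h - 1) ∧
      -(π' * (γ * G ^ 2)) -
          M * ((σ - T) + (Y ^ 2 - 1) / (2 * T) * (1 + (Y ^ 2 - 1) / (4 * T ^ 2))) ≤
        π' * L + (σ - T) * l + (σ - T) ^ 2 * Cw + Sl := by
  have hT := hR.T_pos
  have hη0 : 0 ≤ Y ^ 2 - 1 := sub_nonneg.2 (one_le_pow₀ hY)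
  have hD0 : 0 ≤ σ - T := sub_nonneg.2 hσ
  refine ⟨_, valQ_ge_tan hb hR hA hB hN, ?_⟩
  have hq := tailM_quot (b := b) hk2 hk hN hγ hD0 hη0 (by positivity) hG hx hRN
  have e : tanB ε b (Y ^ 2 - 1) T (2 * p * (σ - T) + G) - tanA ε b (Y ^ 2 - 1) σ =
      ((ε - b) * (σ + T) + 2 * p) * (σ - T) + (G - b * (Y ^ 2 - 1) * (2 + 1 / T ^ 2)) := by
    simp only [tanA, tanB]; ring
  rw [← e] at hq
  generalize (tanB ε b (Y ^ 2 - 1) T (2 * p * (σ - T) + G) - tanA ε b (Y ^ 2 - 1) σ) ^ 2 /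
    (tanA ε b (Y ^ 2 - 1) σ + tanB ε b (Y ^ 2 - 1) T (2 * p * (σ - T) + G)) = Qt at hq ⊢
  generalize hηdef : Y ^ 2 - 1 = η at *
  generalize hDdef : σ - T = D at *
  have k1 := mul_le_mul_of_nonneg_left hlin (mul_nonneg hπ hD0)
  have k2 := mul_le_mul_of_nonneg_left hηR (mul_nonneg hπ hη0)
  have k3 := mul_le_mul_of_nonneg_right hl
    (by positivity : 0 ≤ D + η / (2 * T) * (1 + η / (4 * T ^ 2)))
  have k4 := mul_le_mul_of_nonneg_left hq hπ
  have k5 := mul_le_mul_of_nonneg_left hCw (sq_nonneg D)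
  have e2 : π' * (2 * T * K) * (η / (2 * T) * (1 + η / (4 * T ^ 2))) =
      π' * η * (K * (1 + η / (4 * T ^ 2))) := by field_simp
  have e3 : 2 * b * D / T = D * (2 * b / T) := by ring
  have e4 : b * η / T ^ 2 = η * (b / T ^ 2) := by ring
  rw [e3, e4]
  generalize η / (2 * T) * (1 + η / (4 * T ^ 2)) = u at *
  generalize 2 * b / T = cc at *
  generalize b / T ^ 2 = c' at *
  generalize 1 + η / (4 * T ^ 2) = e5 at *
  linarith

/-- The polynomial of the piece `[47/100, 53/100]`. -/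
lemma tailA_poly (hb0 : 9 / 4 ≤ b) (hb1 : b ≤ 2811 / 1000) (hη0 : 0 ≤ η) (hη : η ≤ 23 / 250)
    (hbl : b ≤ 2911 / 1000 - 38 / 10 * η) :
    0 ≤ (b + 9 / 4) * (893 / 250) * (1 + η / (4 * (53 / 100) ^ 2)) - 4528 / 1000 * b ∧
    9 / 8 * (η * (b * (6528 / 1000)) * (b * (6528 / 1000) - 5)) ≤
      ((b + 9 / 4) * (893 / 250) * (1 + η / (4 * (53 / 100) ^ 2)) - 4528 / 1000 * b) *
        (2 + 2 * b - 5 / 4 * (1 + 2 * (53 / 100) ^ 2) - 635 / 1000 - b * η * (4528 / 1000)) := by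
  have e : η / (4 * (53 / 100) ^ 2) = 2500 / 2809 * η := by ring
  rw [e]
  have p1 := mul_nonneg (sub_nonneg.2 hb0) hη0
  refine ⟨by linarith, ?_⟩
  nlinarith [mul_nonneg hη0 (sub_nonneg.2 hη), mul_nonneg (sub_nonneg.2 hb0) (sub_nonneg.2 hη),
    mul_nonneg (sub_nonneg.2 hb0) (sub_nonneg.2 hb1), mul_nonneg (sub_nonneg.2 hbl) hη0,
    mul_nonneg (sub_nonneg.2 hb0) (sub_nonneg.2 hbl),
    mul_nonneg p1 (sub_nonneg.2 hbl), mul_nonneg p1 (sub_nonneg.2 hη),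
    mul_nonneg p1 (sub_nonneg.2 hb0),
    mul_nonneg (mul_nonneg (sub_nonneg.2 hbl) hη0) (sub_nonneg.2 hη),
    mul_nonneg (mul_nonneg (sub_nonneg.2 hbl) hη0) hη0,
    mul_nonneg (mul_nonneg (sub_nonneg.2 hb1) hη0) (sub_nonneg.2 hη)]

/-- The inequality of a piece with `b = ε + 1/1000`. -/
def TailOK (T₁ i Dm Kc : ℝ) : Prop :=
  ∀ b η : ℝ, 3501 / 1000 ≤ b → b ≤ 4061 / 1000 → 0 ≤ η → η ≤ 23 / 250 →
    b ≤ 4162 / 1000 - 38 / 10 * η →
    0 ≤ 1 + b - Dm - b * η * (1 + i) ∧ 6 ≤ 2 + 2 * b - Dm - b * η * i ∧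
    0 ≤ (b + 999 / 1000) * Kc * (1 + η / (4 * T₁ ^ 2)) - i * b ∧
    12 / 11 * (η * (b * (2 + i)) * (b * (2 + i) - 5)) ≤
      ((b + 999 / 1000) * Kc * (1 + η / (4 * T₁ ^ 2)) - i * b) *
        (2 + 2 * b - Dm - b * η * i)

lemma tailB1 : TailOK (4 / 5) (3560 / 1000) (602 / 1000) (3965 / 1000) := by
  intro b η hb0 hb1 hη0 hη hbl
  have e : η / (4 * (4 / 5) ^ 2) = 25 / 64 * η := by ring
  rw [e]
  have p1 := mul_nonneg (sub_nonneg.2 hb0) hη0
  have p2 := mul_nonneg (sub_nonneg.2 hb1) (sub_nonneg.2 hη)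
  have p3 := mul_nonneg (sub_nonneg.2 hbl) hη0
  refine ⟨by nlinarith, by nlinarith, by linarith, ?_⟩
  nlinarith [mul_nonneg hη0 (sub_nonneg.2 hη), p1, p2, p3, mul_nonneg (sub_nonneg.2 hb0) (sub_nonneg.2 hη),
    mul_nonneg (sub_nonneg.2 hb0) (sub_nonneg.2 hb1),
    mul_nonneg (sub_nonneg.2 hb0) (sub_nonneg.2 hbl),
    mul_nonneg p1 (sub_nonneg.2 hbl), mul_nonneg p1 (sub_nonneg.2 hη), mul_nonneg p1 (sub_nonneg.2 hb0),
    mul_nonneg p3 (sub_nonneg.2 hη), mul_nonneg p3 hη0,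
    mul_nonneg (mul_nonneg (sub_nonneg.2 hb1) hη0) (sub_nonneg.2 hη)]

lemma tailB2 : TailOK (3 / 2) (1563 / 1000) (481 / 1000) (4935 / 1000) := by
  intro b η hb0 hb1 hη0 hη hbl
  have e : η / (4 * (3 / 2) ^ 2) = 1 / 9 * η := by ring
  rw [e]
  have p1 := mul_nonneg (sub_nonneg.2 hb0) hη0
  have p2 := mul_nonneg (sub_nonneg.2 hb1) (sub_nonneg.2 hη)
  have p3 := mul_nonneg (sub_nonneg.2 hbl) hη0
  refine ⟨by nlinarith, by nlinarith, by linarith, ?_⟩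
  nlinarith [mul_nonneg hη0 (sub_nonneg.2 hη), p1, p2, p3, mul_nonneg (sub_nonneg.2 hb0) (sub_nonneg.2 hη),
    mul_nonneg (sub_nonneg.2 hb0) (sub_nonneg.2 hb1),
    mul_nonneg (sub_nonneg.2 hb0) (sub_nonneg.2 hbl),
    mul_nonneg p1 (sub_nonneg.2 hbl), mul_nonneg p1 (sub_nonneg.2 hη), mul_nonneg p1 (sub_nonneg.2 hb0),
    mul_nonneg p3 (sub_nonneg.2 hη), mul_nonneg p3 hη0,
    mul_nonneg (mul_nonneg (sub_nonneg.2 hb1) hη0) (sub_nonneg.2 hη)]

lemma tailB3 : TailOK 3 (445 / 1000) (303 / 1000) (1829 / 1000) := by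
  intro b η hb0 hb1 hη0 hη hbl
  have e : η / (4 * 3 ^ 2) = 1 / 36 * η := by ring
  rw [e]
  have p1 := mul_nonneg (sub_nonneg.2 hb0) hη0
  have p2 := mul_nonneg (sub_nonneg.2 hb1) (sub_nonneg.2 hη)
  have p3 := mul_nonneg (sub_nonneg.2 hbl) hη0
  refine ⟨by nlinarith, by nlinarith, by linarith, ?_⟩
  nlinarith [mul_nonneg hη0 (sub_nonneg.2 hη), p1, p2, p3, mul_nonneg (sub_nonneg.2 hb0) (sub_nonneg.2 hη),
    mul_nonneg (sub_nonneg.2 hb0) (sub_nonneg.2 hb1),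
    mul_nonneg (sub_nonneg.2 hb0) (sub_nonneg.2 hbl),
    mul_nonneg p1 (sub_nonneg.2 hbl), mul_nonneg p1 (sub_nonneg.2 hη), mul_nonneg p1 (sub_nonneg.2 hb0),
    mul_nonneg p3 (sub_nonneg.2 hη), mul_nonneg p3 hη0,
    mul_nonneg (mul_nonneg (sub_nonneg.2 hb1) hη0) (sub_nonneg.2 hη)]

/-- `x (x - 5)` increases for `x + y ≥ 5`. -/
lemma quad_mono {x y : ℝ} (hη : 0 ≤ η) (h : x ≤ y) (h5 : 5 ≤ x + y) :
    η * x * (x - 5) ≤ η * y * (y - 5) := by
  nlinarith [mul_nonneg hη (mul_nonneg (sub_nonneg.2 h) (sub_nonneg.2 h5))]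

/-- The negative part of the weight beyond `T = 3` against the remainder. -/
lemma far_pay (hm2 : m ≤ 381) (hη0 : 0 ≤ η) (hk0 : 0 ≤ kap) (hkη : kap ≤ ((m : ℝ) + 1) / 4 * η)
    (hT : 3 ≤ T) :
    8 / 5 * ((m : ℝ) + 2) * kap ^ 2 * √(1 + T ^ 2) ^ 3 / T * (55 / 100 / T) ≤
      η ^ 2 * (25 / 19 * T ^ 2) ^ 8 := by
  have hm2' : (m : ℝ) ≤ 381 := by exact_mod_cast hm2
  have hT0 : 0 < T := by linarith
  set W := √(1 + T ^ 2) with hWdef
  have hW0 : 0 ≤ W := sqrt_nonneg _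
  have h9 : (9 : ℝ) ≤ T ^ 2 := by
    have := pow_le_pow_left₀ (by norm_num) hT 2
    linarith
  have hW2 : W ^ 2 ≤ 10 / 9 * T ^ 2 := by rw [hWdef, w_sq]; linarith
  have hW3 : W ≤ 2 * T := (sqrt_le_left (by linarith)).2 (by linarith)
  have hk2 : kap ^ 2 ≤ (((m : ℝ) + 1) / 4) ^ 2 * η ^ 2 := by
    rw [← mul_pow]; exact pow_le_pow_left₀ hk0 hkη 2
  have hc : 8 / 5 * (55 / 100) * ((m : ℝ) + 2) * (((m : ℝ) + 1) / 4) ^ 2 ≤ 31 * 10 ^ 5 := by
    have h1 := mul_le_mul (show (m : ℝ) + 2 ≤ 383 by linarith)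
      (pow_le_pow_left₀ (by positivity) (show ((m : ℝ) + 1) / 4 ≤ 382 / 4 by linarith) 2)
      (by positivity) (by norm_num)
    linarith
  have e : 8 / 5 * ((m : ℝ) + 2) * kap ^ 2 * W ^ 3 / T * (55 / 100 / T) =
      8 / 5 * (55 / 100) * ((m : ℝ) + 2) * kap ^ 2 * (W ^ 2 * W / T ^ 2) := by
    field_simp
  rw [e]
  have h1 : W ^ 2 * W / T ^ 2 ≤ 20 / 9 * T := by
    rw [div_le_iff₀ (by positivity)]
    have := mul_le_mul hW2 hW3 hW0 (by positivity)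
    linarith
  have h2 := mul_le_mul (mul_le_mul_of_nonneg_left hk2
    (show 0 ≤ 8 / 5 * (55 / 100) * ((m : ℝ) + 2) by positivity)) h1 (by positivity) (by positivity)
  have h3 := mul_le_mul_of_nonneg_right hc (show 0 ≤ η ^ 2 * (20 / 9 * T) by positivity)
  have h4 : 31 * 10 ^ 5 * (20 / 9 * T) ≤ (25 / 19 * T ^ 2) ^ 8 := by
    have h15 : (3 : ℝ) ^ 15 * T ≤ T ^ 15 * T :=
      mul_le_mul_of_nonneg_right (pow_le_pow_left₀ (by norm_num) hT 15) hT0.le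
    have e : (25 / 19 * T ^ 2) ^ 8 = (25 / 19) ^ 8 * (T ^ 15 * T) := by ring
    rw [e]
    have := mul_le_mul_of_nonneg_left h15 (show (0 : ℝ) ≤ (25 / 19) ^ 8 by positivity)
    linarith
  have h5 := mul_le_mul_of_nonneg_left h4 (sq_nonneg η)
  linarith

/-- The endpoints of `σ - T + (η/(2T))(1 + η/(4T²))` beyond `T = 3`. -/
lemma far_width {D : ℝ} (hT : 3 ≤ T) (hη0 : 0 ≤ η) (hη : η ≤ 23 / 250)
    (hD : D ≤ √(1 + T ^ 2) - T) :
    D + η / (2 * T) * (1 + η / (4 * T ^ 2)) ≤ 55 / 100 / T := by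
  have hT0 : 0 < T := by linarith
  have h4 : √(1 + T ^ 2) ≤ T + 1 / 2 / T := by
    rw [sqrt_le_left (by positivity)]
    have e : (T + 1 / 2 / T) ^ 2 = T ^ 2 + 1 + (1 / 2 / T) ^ 2 := by field_simp; ring
    linarith [sq_nonneg (1 / 2 / T)]
  have h6 : η / (4 * T ^ 2) ≤ 1 / 100 := by
    rw [div_le_iff₀ (by positivity)]; linarith [pow_le_pow_left₀ (by norm_num) hT 2]
  have h7 : η / (2 * T) ≤ 23 / 500 / T := by
    rw [show 23 / 500 / T = 23 / 250 / (2 * T) by ring]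
    exact div_le_div_of_nonneg_right hη (by positivity)
  have h8 := mul_le_mul h7 (add_le_add (le_refl (1 : ℝ)) h6) (by positivity) (by positivity)
  have e : 55 / 100 / T - 1 / 2 / T - 23 / 500 / T * (1 + 1 / 100) = 354 / 100000 / T := by ring
  have : 0 ≤ 354 / 100000 / T := by positivity
  linarith

/-- The square of `η b d` beyond `T = 3`. -/
lemma far_R {N : ℝ} (hη0 : 0 ≤ η) (hη : η ≤ 23 / 250) (hb0 : 7 / 2 ≤ b) (hb1 : b ≤ 4061 / 1000)
    (hT : 0 < T) (hiT : 1 / T ^ 2 ≤ 1 / 9) (hNT : 7 / 100 * T ≤ N) :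
    3 / 2 * (η * (b * (2 + 1 / T ^ 2)) * (b * (2 + 1 / T ^ 2) - 5)) * T ≤ 118 * N := by
  have h0 : 0 ≤ 1 / T ^ 2 := by positivity
  have hx0 : 7 ≤ b * (2 + 1 / T ^ 2) := by linarith [mul_nonneg (show 0 ≤ b by linarith) h0]
  have hx1 : b * (2 + 1 / T ^ 2) ≤ 86 / 10 := by
    linarith [mul_le_mul hb1 hiT h0 (by norm_num : (0 : ℝ) ≤ 4061 / 1000)]
  generalize b * (2 + 1 / T ^ 2) = x at hx0 hx1 ⊢
  have h1 : η * x * (x - 5) ≤ 23 / 250 * (86 / 10) * (86 / 10 - 5) :=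
    mul_le_mul (mul_le_mul hη hx1 (by linarith) (by norm_num)) (by linarith) (by linarith)
      (by norm_num)
  linarith [mul_le_mul_of_nonneg_right h1 hT.le]

/-- The square of the slope beyond `T = 3`. -/
lemma far_x {D N p : ℝ} (hD0 : 0 ≤ D) (hD : D ≤ 1 / 6) (hσ : T ≤ σ) (hT : 0 ≤ T)
    (hp0 : -(1 / 2) ≤ p) (hp1 : p ≤ 0) (hN1 : 8 ≤ N) (hN2 : σ ^ 2 / 1000 ≤ N) :
    3 * (-(1 / 1000) * (σ + T) + 2 * p) ^ 2 * D ≤ 62 / 100 * N := by
  have hp2 : p ^ 2 ≤ (1 / 2) ^ 2 := sq_le_sq' hp0 (by linarith)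
  have hsT : (σ + T) ^ 2 ≤ (2 * σ) ^ 2 := pow_le_pow_left₀ (by linarith) (by linarith) 2
  have hc : (-(1 / 1000) * (σ + T) + 2 * p) ^ 2 ≤ 26 / 100 * N := by
    linarith [sq_nonneg (1 / 1000 * (σ + T) + 2 * p), sq_nonneg σ]
  have h2 := mul_le_mul hc hD hD0 (by linarith)
  linarith

/-- The linear condition beyond `T = 3`. -/
lemma far_K (hb0 : 0 ≤ b) (hb1 : b ≤ 4061 / 1000) (hT : 3 ≤ T) (hη0 : 0 ≤ η) :
    b / T ^ 2 + 118 / T ≤ 120 / T * (1 + η / (4 * T ^ 2)) := by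
  have hT0 : 0 < T := by linarith
  have h1 : b / T ≤ 2 := by rw [div_le_iff₀ hT0]; linarith
  have h2 : 0 ≤ 120 / T * (η / (4 * T ^ 2)) := by positivity
  have h3 := div_le_div_of_nonneg_right h1 hT0.le
  rw [show b / T ^ 2 = b / T / T by ring]
  have e : 120 / T * (1 + η / (4 * T ^ 2)) = 2 / T + 118 / T + 120 / T * (η / (4 * T ^ 2)) := by
    ring
  linarith

/-- The data of a point of the tail. -/
structure TailPt (m : ℕ) (Y T σ h ε kap p G Sl : ℝ) : Prop where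
  hm : 126 ≤ m
  hR : RegC Y T σ h
  hY : 1 ≤ Y
  hη : Y ^ 2 - 1 ≤ 23 / 250
  hεY : ε * (1 + (Y ^ 2 - 1)) ≤ 416 / 100
  hT : 47 / 100 ≤ T
  hσ : T ≤ σ
  he0 : 7 / 2 ≤ ε
  he1 : ε ≤ 203 / 50
  hk0 : 0 ≤ kap
  hk : kap ≤ 1 / 2
  hp0 : -(1 / 2) ≤ p
  hp1 : p ≤ 0
  hG : 5 / 2 * (Y ^ 2 - 1) ≤ G
  hSl : ellFlat m ε kap (rr (m + 1)) T *
    ((Y ^ 2 - 1) / (2 * T) * (1 + (Y ^ 2 - 1) / (4 * T ^ 2))) ≤ Sl

/-- The weight of `D²`. -/
noncomputable def tailCw (m : ℕ) (ε T : ℝ) : ℝ :=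
  shP' m (LargeN.c0 m ε) (LargeN.c1 m ε) T +
    2 * muX m T * shS m (LargeN.c0 m ε) (LargeN.c1 m ε) T

/-- The goal of a point of the tail. -/
def TailGoal (m : ℕ) (Y T σ h ε kap p G Sl : ℝ) : Prop :=
  ∃ L, L ≤ valQ ε T σ h + (2 * p * (σ - T) + G) * (h - 1) ∧
    -(pre m T * (cPM (((m : ℝ) + 2) * T ^ 2) * G ^ 2)) - etaM m Y T ≤
      pre m T * L + (σ - T) * ellFlat m ε kap (rr (m + 1)) T + (σ - T) ^ 2 * tailCw m ε T + Sl

namespace TailPt

variable {p G Sl : ℝ} (P : TailPt m Y T σ h ε kap p G Sl)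
include P

lemma eta_nonneg : 0 ≤ Y ^ 2 - 1 := sub_nonneg.2 (one_le_pow₀ P.hY)

lemma T_pos : 0 < T := by linarith [P.hT]

lemma cPM_ge : 521 / 1000 ≤ cPM (((m : ℝ) + 2) * T ^ 2) := by
  have hm' : (126 : ℝ) ≤ (m : ℝ) := by exact_mod_cast P.hm
  have h := mul_le_mul (show (128 : ℝ) ≤ (m : ℝ) + 2 by linarith)
    (pow_le_pow_left₀ (by norm_num) P.hT 2) (by norm_num) (by linarith)
  unfold cPM
  linarith

lemma Cw_ge {T₀ T₁ : ℝ} (h0 : 0 < T₀) (hT0 : T₀ ≤ T) (hT1 : T ≤ T₁) {C : ℝ}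
    (hC : C ≤ 475 / 10 * (T₀ / (1 + T₀ ^ 2))) (hC' : C ≤ 475 / 10 * (T₁ / (1 + T₁ ^ 2))) :
    pre m T * C ≤ tailCw m ε T := by
  have hm' : (126 : ℝ) ≤ (m : ℝ) := by exact_mod_cast P.hm
  have hT := P.T_pos
  have hε : 0 ≤ ε := by linarith [P.he0]
  set v := √((m : ℝ) + 2) with hv
  have hv0 : 0 < v := by rw [hv]; positivity
  have hv1 : 1131 / 100 ≤ v := le_sqrt_of_sq_le (by norm_num; linarith)
  rw [tailCw, shapes_A (c₀ := LargeN.c0 m ε) (c₁ := LargeN.c1 m ε) hv0 hT rfl rfl]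
  refine mul_le_mul_of_nonneg_left ?_ (by unfold pre; positivity)
  have h1 : C ≤ 475 / 10 * (T / (1 + T ^ 2)) := by
    rcases le_or_gt (T * T₁) 1 with h | h
    · refine hC.trans (mul_le_mul_of_nonneg_left ?_ (by norm_num))
      rw [div_le_div_iff₀ (by positivity) (by positivity)]
      have h2 : T₀ * T ≤ 1 :=
        (mul_le_mul (hT0.trans hT1) le_rfl hT.le (by linarith)).trans (by rw [mul_comm]; exact h)
      nlinarith [mul_nonneg (sub_nonneg.2 hT0) (sub_nonneg.2 h2)]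
    · refine hC'.trans (mul_le_mul_of_nonneg_left ?_ (by norm_num))
      rw [div_le_div_iff₀ (by positivity) (by positivity)]
      nlinarith [mul_nonneg (sub_nonneg.2 hT1) (sub_nonneg.2 h.le)]
  refine h1.trans ?_
  have h2 : 475 / 10 ≤ ε * (6 / 5 * v) := by
    have := mul_le_mul P.he0 hv1 (by norm_num) hε
    linarith
  have h3 : 0 ≤ ε * (9 / 5 / (v * T)) := by positivity
  have h4 := mul_le_mul_of_nonneg_right h2 (show 0 ≤ T / (1 + T ^ 2) by positivity)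
  have e : ε * (9 / 5 / (v * T) + 6 / 5 * v * T / (1 + T ^ 2)) =
      ε * (9 / 5 / (v * T)) + ε * (6 / 5 * v) * (T / (1 + T ^ 2)) := by ring
  rw [e]
  linarith

lemma pD_ge {Dm : ℝ} (hD : 1 + T ^ 2 ≤ (T + Dm) ^ 2) (hDm : 0 ≤ Dm) :
    σ - T ≤ Dm ∧ -Dm ≤ 2 * p * (σ - T) := by
  have hT := P.T_pos
  have h1 : σ - T ≤ Dm := by
    have := (sqrt_le_left (by linarith)).2 hD
    linarith [P.hR.σ_le]
  refine ⟨h1, ?_⟩
  nlinarith [mul_le_mul_of_nonneg_right P.hp0 (sub_nonneg.2 P.hσ)]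

/-- The piece `[47/100, 53/100]`. -/
theorem pieceA (h1 : T ≤ 53 / 100) : TailGoal m Y T σ h ε kap p G Sl := by
  have hη0 := P.eta_nonneg
  have hT := P.T_pos
  have hT0 := P.hT
  have hcP := P.cPM_ge
  set η := Y ^ 2 - 1 with hηdef
  set b := ε - 5 / 4 with hbdef
  have hb0 : 9 / 4 ≤ b := by linarith [P.he0]
  have hb1 : b ≤ 2811 / 1000 := by linarith [P.he1]
  have hbl : b ≤ 2911 / 1000 - 38 / 10 * η := by linarith [eps_line hη0 P.hη P.hεY]
  obtain ⟨hK0, hpoly⟩ := tailA_poly hb0 hb1 hη0 P.hη hbl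
  have hs1 : T ^ 2 ≤ (53 / 100) ^ 2 := pow_le_pow_left₀ hT.le h1 2
  have hs0 : (2209 / 10000 : ℝ) ≤ T ^ 2 := by
    have := pow_le_pow_left₀ (by norm_num) hT0 2
    linarith
  have hi : 1 / T ^ 2 ≤ 4528 / 1000 := by rw [div_le_iff₀ (by positivity)]; linarith
  obtain ⟨hD, hpD⟩ := P.pD_ge (Dm := 635 / 1000) (by linarith) (by norm_num)
  have hbη : 0 ≤ b * η := mul_nonneg (by linarith) hη0
  have hbη1 : b * η ≤ 236 / 1000 := by
    linarith [mul_le_mul_of_nonneg_left hbl hη0, sq_nonneg (η - 23 / 250), P.hη]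
  have hσ2 : σ ^ 2 ≤ 1 + T ^ 2 := by
    have := pow_le_pow_left₀ (P.hR.σ_pos.le) P.hR.σ_le 2
    rwa [w_sq] at this
  have hA : 1 + b - 5 / 4 * (1 + (53 / 100) ^ 2) + b * η ≤ tanA ε b η σ := by
    rw [tanA, show ε - b = 5 / 4 by rw [hbdef]; ring]
    linarith
  have hB : 1 + b - 5 / 4 * (53 / 100) ^ 2 - 635 / 1000 - b * η * (1 + 4528 / 1000) ≤
      tanB ε b η T (2 * p * (σ - T) + G) := by
    rw [tanB, show ε - b = 5 / 4 by rw [hbdef]; ring]
    have := mul_le_mul_of_nonneg_left hi hbη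
    linarith [P.hG]
  set N := tanA ε b η σ + tanB ε b η T (2 * p * (σ - T) + G) with hNdef
  have hN0 : 2 + 2 * b - 5 / 4 * (1 + 2 * (53 / 100) ^ 2) - 635 / 1000 - b * η * (4528 / 1000) ≤
      N := by linarith
  have hN1 : 268 / 100 ≤ N := by linarith
  set K := (1 + ε) * (893 / 250) with hKdef
  have hl := tail_weightM (ε := ε) (kap := kap) (T := T) (T₀ := 47 / 100) (T₁ := 53 / 100)
    (w := 1132 / 1000) (Kc := 893 / 250) P.hm (by linarith [P.he0]) P.hk0 P.hk le_rfl hT0 h1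
    (by norm_num) (by norm_num) (by norm_num [tailCL]) (by norm_num [tailCL])
  have hKe : (b + 9 / 4) * (893 / 250) * (1 + η / (4 * (53 / 100) ^ 2)) ≤
      K * (1 + η / (4 * T ^ 2)) := by
    rw [hKdef, show b + 9 / 4 = 1 + ε by rw [hbdef]; ring]
    refine mul_le_mul_of_nonneg_left (add_le_add le_rfl ?_) (by linarith [P.he0])
    exact div_le_div_of_nonneg_left hη0 (by positivity) (by linarith)
  have hbi : b / T ^ 2 ≤ 4528 / 1000 * b := by
    rw [div_eq_mul_one_div, mul_comm]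
    exact mul_le_mul_of_nonneg_right hi (by linarith)
  have hCw := P.Cw_ge (T₀ := 47 / 100) (T₁ := 53 / 100) (C := 65 / 4) (by norm_num) hT0 h1
    (by norm_num) (by norm_num)
  obtain ⟨L, hL, hle⟩ := tailM_core (π' := pre m T) (Cw := tailCw m ε T) (b := b) (M := 0) (K := K) (k2 := 9)
    (k := 9 / 8) (γ := cPM (((m : ℝ) + 2) * T ^ 2)) (Wc := 15) (lam := 0)
    (R := (b + 9 / 4) * (893 / 250) * (1 + η / (4 * (53 / 100) ^ 2)) - 4528 / 1000 * b)
    (by unfold pre; positivity) P.hR P.hY P.hσ (by linarith) (by linarith) (by linarith)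
    (by linarith) (by norm_num) (by norm_num)
    (by rw [← hηdef, ← hNdef]; linarith [mul_le_mul hcP hN1 (by norm_num) (by linarith)])
    P.hG
    (by
      rw [← hηdef, ← hNdef, show ε - b = 5 / 4 by rw [hbdef]; ring, add_zero]
      have hc : (5 / 4 * (σ + T) + 2 * p) ^ 2 ≤ 4335 / 1000 := by
        have hu : σ ≤ 1133 / 1000 :=
          (abs_le_of_sq_le_sq' (show σ ^ 2 ≤ (1133 / 1000 : ℝ) ^ 2 by linarith) (by norm_num)).2
        refine (sq_le_sq' (show -(2079 / 1000) ≤ 5 / 4 * (σ + T) + 2 * p by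
          linarith [P.hp0, P.hσ]) (show 5 / 4 * (σ + T) + 2 * p ≤ 2079 / 1000 by
          linarith [P.hp1])).trans ?_
        norm_num
      have := mul_le_mul_of_nonneg_right (show 9 * (5 / 4 * (σ + T) + 2 * p) ^ 2 ≤ 15 * N by
        linarith) (sub_nonneg.2 P.hσ)
      linarith)
    (by
      rw [show ε - b = 5 / 4 by rw [hbdef]; ring]
      exact le_trans (le_of_eq (by norm_num)) hCw)
    (by rw [add_zero]; exact hl)
    (by
      rw [add_zero, div_le_iff₀ hT, hKdef]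
      have h2 := mul_le_mul_of_nonneg_left hs0 (show 0 ≤ (1 + ε) * (893 / 250) by
        linarith [P.he0])
      linarith)
    (by rw [← hηdef]; linarith)
    (by
      rw [← hηdef, ← hNdef]
      refine le_trans ?_ (le_trans hpoly (mul_le_mul_of_nonneg_left hN0 hK0))
      refine mul_le_mul_of_nonneg_left ?_ (by norm_num)
      have hd : b * (2 + 1 / T ^ 2) ≤ b * (6528 / 1000) :=
        mul_le_mul_of_nonneg_left (by linarith) (by linarith)
      have hd0 : 9 / 2 ≤ b * (2 + 1 / T ^ 2) := by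
        have : 0 ≤ b * (1 / T ^ 2) := mul_nonneg (by linarith) (by positivity)
        linarith
      exact quad_mono hη0 hd (by linarith))
    P.hSl
  refine ⟨L, hL, le_trans ?_ hle⟩
  have : 0 ≤ etaM m Y T := by unfold etaM pre; positivity
  linarith

/-- A piece with `b = ε + 1/1000`. -/
theorem pieceB {T₀ T₁ w i Dm Kc : ℝ} (hT₀ : 47 / 100 ≤ T₀) (h0 : T₀ ≤ T) (h1 : T ≤ T₁)
    (hT₁ : T₁ ≤ 3) (hw0 : 0 ≤ w) (hw : 1 + T₁ ^ 2 ≤ w ^ 2) (hc : 0 ≤ tailCL w)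
    (hK : Kc ≤ tailCL w / 2 * ((128 * T₀ ^ 2 - 101 / 50) / (1 + T₀ ^ 2)))
    (hi : 1 ≤ i * T₀ ^ 2) (hDm0 : 0 ≤ Dm) (hDm : 1 + T₀ ^ 2 ≤ (T₀ + Dm) ^ 2)
    (hlin : 4061 / 1000 ≤ 9 / 2 * Kc * T₀ ^ 2) (hok : TailOK T₁ i Dm Kc) :
    TailGoal m Y T σ h ε kap p G Sl := by
  have hη0 := P.eta_nonneg
  have hT := P.T_pos
  have hcP := P.cPM_ge
  have hε := P.he0
  set η := Y ^ 2 - 1 with hηdef
  set b := ε + 1 / 1000 with hbdef
  have hT00 : 0 < T₀ := by linarith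
  have hs : T₀ ^ 2 ≤ T ^ 2 := pow_le_pow_left₀ hT00.le h0 2
  have hi0 : 0 ≤ i := by
    rcases le_or_gt 0 i with h | h
    · exact h
    · linarith [mul_nonpos_of_nonpos_of_nonneg h.le (sq_nonneg T₀)]
  have hiT : 1 / T ^ 2 ≤ i := by
    rw [div_le_iff₀ (by positivity)]
    exact hi.trans (mul_le_mul_of_nonneg_left hs hi0)
  obtain ⟨hB0, hN6, hK0, hpoly⟩ := hok b η (by linarith) (by linarith [P.he1]) hη0 P.hη
    (by linarith [eps_line hη0 P.hη P.hεY])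
  have hDmT : 1 + T ^ 2 ≤ (T + Dm) ^ 2 := by
    linarith [mul_le_mul_of_nonneg_right h0 hDm0]
  obtain ⟨hD, hpD⟩ := P.pD_ge hDmT hDm0
  have hbη : 0 ≤ b * η := mul_nonneg (by linarith) hη0
  have hA : 1 + b + b * η ≤ tanA ε b η σ := by
    rw [tanA, show ε - b = -(1 / 1000) by rw [hbdef]; ring]
    linarith [sq_nonneg σ]
  have hB : 1 + b - Dm - b * η * (1 + i) ≤ tanB ε b η T (2 * p * (σ - T) + G) := by
    rw [tanB, show ε - b = -(1 / 1000) by rw [hbdef]; ring]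
    have := mul_le_mul_of_nonneg_left hiT hbη
    have := sq_nonneg T
    linarith [P.hG]
  set N := tanA ε b η σ + tanB ε b η T (2 * p * (σ - T) + G) with hNdef
  have hN0 : 2 + 2 * b - Dm - b * η * i ≤ N := by linarith
  have hl := tail_weightM (ε := ε) (kap := kap) (T := T) P.hm (by linarith) P.hk0 P.hk hT₀ h0 h1
    hw0 hw hc hK
  have hKc : 0 ≤ Kc := by
    rcases le_or_gt 0 Kc with h | h
    · exact h
    · linarith [mul_nonpos_of_nonpos_of_nonneg h.le (sq_nonneg T₀)]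
  have hKe : (b + 999 / 1000) * Kc * (1 + η / (4 * T₁ ^ 2)) ≤
      (1 + ε) * Kc * (1 + η / (4 * T ^ 2)) := by
    rw [show b + 999 / 1000 = 1 + ε by rw [hbdef]; ring]
    refine mul_le_mul_of_nonneg_left (add_le_add le_rfl ?_) (mul_nonneg (by linarith) hKc)
    exact div_le_div_of_nonneg_left hη0 (by positivity)
      (by linarith [pow_le_pow_left₀ hT.le h1 2])
  have hbi : b / T ^ 2 ≤ i * b := by
    rw [div_eq_mul_one_div, mul_comm]
    exact mul_le_mul_of_nonneg_right hiT (by linarith)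
  have hCw := P.Cw_ge (T₀ := 47 / 100) (T₁ := 3) (C := 4) (by norm_num) P.hT (h1.trans hT₁)
    (by norm_num) (by norm_num)
  obtain ⟨L, hL, hle⟩ := tailM_core (π' := pre m T) (Cw := tailCw m ε T) (b := b) (M := 0) (K := (1 + ε) * Kc)
    (k2 := 12) (k := 12 / 11) (γ := cPM (((m : ℝ) + 2) * T ^ 2)) (Wc := 4) (lam := 0)
    (R := (b + 999 / 1000) * Kc * (1 + η / (4 * T₁ ^ 2)) - i * b)
    (by unfold pre; positivity) P.hR P.hY P.hσ (by linarith) (by linarith) (by linarith)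
    (by linarith) (by norm_num) (by norm_num)
    (by rw [← hηdef, ← hNdef]; linarith [mul_le_mul hcP (hN6.trans hN0) (by norm_num) (by linarith)])
    P.hG
    (by
      rw [← hηdef, ← hNdef, show ε - b = -(1 / 1000) by rw [hbdef]; ring, add_zero]
      have hu : σ ≤ T + 1 := P.hR.σ_le.trans
        ((sqrt_le_left (by linarith)).2 (by linarith [P.T_pos]))
      have hc : (-(1 / 1000) * (σ + T) + 2 * p) ^ 2 ≤ 2 := by
        have h2 := sq_le_sq' (show -(102 / 100) ≤ -(1 / 1000) * (σ + T) + 2 * p by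
          linarith [P.hp0]) (show -(1 / 1000) * (σ + T) + 2 * p ≤ 102 / 100 by
          linarith [P.hp1, P.hσ, P.T_pos])
        linarith
      have := mul_le_mul_of_nonneg_right (show 12 * (-(1 / 1000) * (σ + T) + 2 * p) ^ 2 ≤ 4 * N by
        linarith) (sub_nonneg.2 P.hσ)
      linarith)
    (by
      refine le_trans (mul_le_mul_of_nonneg_left ?_ (by unfold pre; positivity)) hCw
      rw [hbdef]; linarith)
    (by rw [add_zero]; exact hl)
    (by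
      rw [add_zero, div_le_iff₀ hT]
      have h2 := mul_le_mul_of_nonneg_left hs (show 0 ≤ (1 + ε) * Kc by positivity)
      have h3 := mul_le_mul_of_nonneg_right (show 9 / 2 ≤ 1 + ε by linarith)
        (show 0 ≤ Kc * T₀ ^ 2 by positivity)
      linarith [P.he1])
    (by rw [← hηdef]; linarith)
    (by
      rw [← hηdef, ← hNdef]
      refine le_trans ?_ (le_trans hpoly (mul_le_mul_of_nonneg_left hN0 hK0))
      refine mul_le_mul_of_nonneg_left ?_ (by norm_num)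
      have hd : b * (2 + 1 / T ^ 2) ≤ b * (2 + i) :=
        mul_le_mul_of_nonneg_left (by linarith) (by linarith)
      have hd0 : 7 ≤ b * (2 + 1 / T ^ 2) := by
        have : 0 ≤ b * (1 / T ^ 2) := mul_nonneg (by linarith) (by positivity)
        linarith
      exact quad_mono hη0 hd (by linarith))
    P.hSl
  refine ⟨L, hL, le_trans ?_ hle⟩
  have : 0 ≤ etaM m Y T := by unfold etaM pre; positivity
  linarith

/-- The piece `T ≥ 3`. -/
theorem pieceFar (h3 : 3 ≤ T) (hm2 : m ≤ 381)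
    (hkη : kap ≤ ((m : ℝ) + 1) / 4 * (Y ^ 2 - 1)) : TailGoal m Y T σ h ε kap p G Sl := by
  have hη0 := P.eta_nonneg
  have hT := P.T_pos
  have hε := P.he0
  have hm' : (126 : ℝ) ≤ (m : ℝ) := by exact_mod_cast P.hm
  have hm2' : (m : ℝ) ≤ 381 := by exact_mod_cast hm2
  set η := Y ^ 2 - 1 with hηdef
  set b := ε + 1 / 1000 with hbdef
  have hb1 : b ≤ 4061 / 1000 := by linarith [P.he1]
  have hT9 : (9 : ℝ) ≤ T ^ 2 := by nlinarith
  have hiT : 1 / T ^ 2 ≤ 1 / 9 := one_div_le_one_div_of_le (by norm_num) hT9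
  obtain ⟨hD, hpD⟩ := P.pD_ge (Dm := 1 / 6) (by nlinarith) (by norm_num)
  have hbη : 0 ≤ b * η := mul_nonneg (by linarith) hη0
  have hbη1 : b * η ≤ 4061 / 1000 * (23 / 250) := mul_le_mul hb1 P.hη hη0 (by norm_num)
  have hA : 1 + b + σ ^ 2 / 1000 ≤ tanA ε b η σ := by
    rw [tanA, show ε - b = -(1 / 1000) by rw [hbdef]; ring]
    linarith
  have hB : 39 / 10 ≤ tanB ε b η T (2 * p * (σ - T) + G) := by
    rw [tanB, show ε - b = -(1 / 1000) by rw [hbdef]; ring]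
    have := mul_le_mul_of_nonneg_left hiT hbη
    linarith [P.hG, sq_nonneg T]
  set N := tanA ε b η σ + tanB ε b η T (2 * p * (σ - T) + G) with hNdef
  have hσ2 : T ^ 2 ≤ σ ^ 2 := pow_le_pow_left₀ hT.le P.hσ 2
  have hN1 : 8 ≤ N := by linarith [sq_nonneg σ]
  have hN2 : σ ^ 2 / 1000 ≤ N := by linarith
  have hNT : 7 / 100 * T ≤ N := by linarith [sq_nonneg (T - 70)]
  have hl := far_weightM P.hm hε P.he1 P.hk0 h3
  have hcP : 6 ≤ cPM (((m : ℝ) + 2) * T ^ 2) := by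
    have := mul_le_mul (show (128 : ℝ) ≤ (m : ℝ) + 2 by linarith) hT9 (by norm_num) (by linarith)
    unfold cPM
    linarith
  have hCw : pre m T * (ε - b + 0) ≤ tailCw m ε T := by
    have hv0 : 0 < √((m : ℝ) + 2) := by positivity
    rw [tailCw, shapes_A (c₀ := LargeN.c0 m ε) (c₁ := LargeN.c1 m ε) hv0 hT rfl rfl]
    refine mul_le_mul_of_nonneg_left ?_ (by unfold pre; positivity)
    have : 0 ≤ ε * (9 / 5 / (√((m : ℝ) + 2) * T) +
        6 / 5 * √((m : ℝ) + 2) * T / (1 + T ^ 2)) := by positivity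
    rw [hbdef]; linarith
  obtain ⟨L, hL, hle⟩ := tailM_core (π' := pre m T) (Cw := tailCw m ε T) (b := b) (K := 120 / T) (k2 := 3) (k := 3 / 2)
    (γ := cPM (((m : ℝ) + 2) * T ^ 2)) (Wc := 0) (lam := 62 / 100) (R := 118 / T)
    (by unfold pre; positivity) P.hR P.hY P.hσ (by linarith) (by nlinarith [sq_nonneg σ])
    (by linarith) (by linarith) (by norm_num) (by norm_num)
    (by rw [← hηdef, ← hNdef]; linarith [mul_le_mul hcP hN1 (by norm_num) (by linarith)])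
    P.hG
    (by
      rw [← hηdef, ← hNdef, show ε - b = -(1 / 1000) by rw [hbdef]; ring, zero_mul, zero_add]
      exact far_x (sub_nonneg.2 P.hσ) hD P.hσ hT.le P.hp0 P.hp1 hN1 hN2)
    hCw hl
    (by
      have e : 2 * T * (120 / T) = 240 := by field_simp; ring
      have : 2 * b / T ≤ 3 := by rw [div_le_iff₀ hT]; linarith
      rw [e]; linarith)
    (by
      rw [← hηdef]
      exact far_K (by linarith) hb1 h3 hη0)
    (by
      rw [← hηdef, ← hNdef, show 118 / T * N = 118 * N / T by ring, le_div_iff₀ hT]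
      exact far_R hη0 P.hη (by linarith) hb1 hT hiT hNT)
    P.hSl
  refine ⟨L, hL, le_trans ?_ hle⟩
  have hD' := far_width h3 hη0 P.hη (show σ - T ≤ √(1 + T ^ 2) - T by linarith [P.hR.σ_le])
  have hpre : 0 ≤ pre m T := by unfold pre; positivity
  have hM : 0 ≤ pre m T * (8 / 5 * ((m : ℝ) + 2) * kap ^ 2 * √(1 + T ^ 2) ^ 3 / T) := by
    positivity
  have k1 := mul_le_mul_of_nonneg_left hD' hM
  have k2 := mul_le_mul_of_nonneg_left (far_pay (η := η) hm2 hη0 P.hk0 hkη h3) hpre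
  rw [etaM, ← hηdef, mul_assoc (pre m T) (η ^ 2)]
  linarith

/-- Every point of the tail. -/
theorem all (hm2 : m ≤ 381) (hkη : kap ≤ ((m : ℝ) + 1) / 4 * (Y ^ 2 - 1)) :
    TailGoal m Y T σ h ε kap p G Sl := by
  rcases le_or_gt T (53 / 100) with h1 | h1
  · exact P.pieceA h1
  rcases le_or_gt T (4 / 5) with h2 | h2
  · exact P.pieceB (T₀ := 53 / 100) (T₁ := 4 / 5) (w := 1281 / 1000) (by norm_num) h1.le h2
      (by norm_num) (by norm_num) (by norm_num) (by norm_num [tailCL]) (by norm_num [tailCL])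
      (by norm_num) (by norm_num) (by norm_num) (by norm_num) tailB1
  rcases le_or_gt T (3 / 2) with h3 | h3
  · exact P.pieceB (T₀ := 4 / 5) (T₁ := 3 / 2) (w := 1803 / 1000) (by norm_num) h2.le h3
      (by norm_num) (by norm_num) (by norm_num) (by norm_num [tailCL]) (by norm_num [tailCL])
      (by norm_num) (by norm_num) (by norm_num) (by norm_num) tailB2
  rcases le_or_gt T 3 with h4 | h4
  · exact P.pieceB (T₀ := 3 / 2) (T₁ := 3) (w := 3163 / 1000) (by norm_num) h3.le h4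
      le_rfl (by norm_num) (by norm_num) (by norm_num [tailCL]) (by norm_num [tailCL])
      (by norm_num) (by norm_num) (by norm_num) (by norm_num) tailB3
  · exact P.pieceFar h4.le hm2 hkη

end TailPt

/-- `u ≤ (n - 1) η / 2`. -/
lemma u_le_eta (hY : 1 ≤ Y) : uOf m Y ≤ ((m : ℝ) + 1) / 2 * (Y ^ 2 - 1) := by
  have hY0 : 0 < Y := one_pos.trans_le hY
  have h1 := one_sub_inv_le_log_of_pos (pow_pos hY0 (m + 1))
  rw [log_pow] at h1
  have h2 := log_le_sub_one_of_pos (pow_pos hY0 2)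
  rw [log_pow] at h2
  push_cast at h1 h2
  have h3 := mul_le_mul_of_nonneg_left h2 (show 0 ≤ ((m : ℝ) + 1) / 2 by positivity)
  rw [uOf]
  linarith

/-- The field on the tail lies in `[-1/2, 1/2]`. -/
lemma tail_field {c₀ c₁ δ : ℝ} (hm : 126 ≤ m) (he0 : 7 / 2 ≤ ε) (he1 : ε ≤ 203 / 50)
    (h₀ : c₀ = 9 / 5 * ε / √((m : ℝ) + 2)) (h₁ : c₁ = 6 / 5 * ε * √((m : ℝ) + 2))
    (hT : 47 / 100 ≤ T) (hδ0 : 0 ≤ δ)
    (hδ : δ ≤ 2 * shUM m c₀ c₁ * √(1 + T ^ 2) / (4 + ((m : ℝ) + 1) * T ^ 2)) :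
    -(1 / 2) ≤ shP m c₀ c₁ T / pre m T + δ ∧ shP m c₀ c₁ T / pre m T + δ ≤ 0 := by
  have hm' : (126 : ℝ) ≤ (m : ℝ) := by exact_mod_cast hm
  have hε : 0 ≤ ε := by linarith
  obtain ⟨hU0, hU⟩ := UM_bounds (m := m) hε h₀ h₁
  set v := √((m : ℝ) + 2) with hv
  have hv2 : v ^ 2 = (m : ℝ) + 2 := sq_sqrt (by linarith)
  have hv1 : 1131 / 100 ≤ v := le_sqrt_of_sq_le (by norm_num; linarith)
  have hT0 : 0 < T := by linarith
  have hpre : 0 < pre m T := by unfold pre; positivity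
  have hz : 2827 / 100 ≤ v ^ 2 * T ^ 2 := by
    have := mul_le_mul (show (128 : ℝ) ≤ v ^ 2 by linarith) (pow_le_pow_left₀ (by norm_num) hT 2)
      (by norm_num) (by positivity)
    linarith
  have hlow := mid_P (m := m) hε (by linarith) hv2 h₀ h₁ hpre hT0 (by norm_num) hz
  have hεv : ε / v ≤ 359 / 1000 := by rw [div_le_iff₀ (by linarith)]; linarith
  constructor
  · refine le_trans ?_ (hlow.trans (le_add_of_nonneg_right hδ0))
    rw [neg_le_neg_iff, mul_comm, mul_div_assoc]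
    refine (mul_le_mul_of_nonneg_left hεv (by norm_num)).trans ?_
    norm_num
  · have hc0 : 0 ≤ c₀ := by rw [h₀]; positivity
    have hc1 : 0 ≤ c₁ := by rw [h₁]; positivity
    have hz0 : 0 ≤ ((m : ℝ) + 2) * T ^ 2 := by positivity
    have hP : shP m c₀ c₁ T / pre m T ≤ -(117 / 100 * (ε / v)) := by
      rw [div_le_iff₀ hpre]
      have hG := neg_shP_ge (m := m) hc0 hc1 T
      have h1 : 117 / 100 * (ε / v) ≤ c₁ / ((m : ℝ) + 4) := by
        rw [le_div_iff₀ (by positivity), h₁,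
          show 6 / 5 * ε * v = 6 / 5 * (ε / v) * v ^ 2 by field_simp, hv2]
        have := mul_le_mul_of_nonneg_left
          (show 117 / 100 * ((m : ℝ) + 4) ≤ 6 / 5 * ((m : ℝ) + 2) by linarith)
          (show 0 ≤ ε / v by positivity)
        linarith
      have h2 : 0 ≤ shUM m c₀ c₁ * (1 + T ^ 2) / (2 + ((m : ℝ) + 2) * T ^ 2) := by positivity
      have h3 := mul_le_mul_of_nonneg_right (h1.trans (le_add_of_nonneg_right h2)) hpre.le
      linarith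
    have hs : 2209 / 10000 ≤ T ^ 2 := by
      have := pow_le_pow_left₀ (by norm_num) hT 2
      linarith
    have hW : √(1 + T ^ 2) ≤ 1 + T ^ 2 / 2 := by
      rw [sqrt_le_left (by positivity)]
      linarith [sq_nonneg (T ^ 2)]
    have : δ ≤ 117 / 100 * (ε / v) := by
      refine hδ.trans ?_
      rw [div_le_iff₀ (by positivity)]
      have hr : 0 ≤ ε / v := by positivity
      have hU' : shUM m c₀ c₁ ≤ 21 / 5 * (ε / v) := by rw [← mul_div_assoc]; exact hU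
      have h1 := mul_le_mul hU' hW (sqrt_nonneg _) (by positivity)
      have h2 := mul_le_mul_of_nonneg_left
        (show 42 / 5 * (1 + T ^ 2 / 2) ≤ 117 / 100 * (4 + ((m : ℝ) + 1) * T ^ 2) by
          linarith [mul_le_mul_of_nonneg_right (show (127 : ℝ) ≤ (m : ℝ) + 1 by linarith)
            (sq_nonneg T)]) hr
      linarith
    linarith

/-- **The side `σ ≥ T`, `T ≥ 47/100`.** -/
theorem sidePw_tail (hm : 126 ≤ m) (hm2 : m ≤ 381) :
    SidePw m fun T σ => T ≤ σ ∧ 47 / 100 ≤ T := by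
  intro q Y Q ε kap hq hY hYk _ _ _ hcap hε he1 he2 hkap T σ h X hS hR hB _
  obtain ⟨hσ, hT⟩ := hS
  have hT0 : 0 < T := by linarith
  set c₀ := LargeN.c0 m ε with hc₀
  set c₁ := LargeN.c1 m ε with hc₁
  have hε0 : 0 ≤ ε := by linarith
  obtain ⟨hU0, -⟩ := UM_bounds (m := m) (c₀ := c₀) (c₁ := c₁) hε0 rfl rfl
  have hkap' : kap = uOf m Y / 2 := by rw [hkap, uOf]
  have hu0 : 0 ≤ uOf m Y := sub_nonneg.2 (inv_le_one_of_one_le₀ (one_le_pow₀ hY))
  have hu1 : uOf m Y ≤ 1 :=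
    sub_le_self _ (inv_nonneg.2 (pow_nonneg (zero_le_one.trans hY) _))
  have hk0 : 0 ≤ kap := by linarith
  have hk : kap ≤ 1 / 2 := by linarith
  obtain ⟨-, hη⟩ := eta_leM hm hY hYk
  have hη0 : 0 ≤ Y ^ 2 - 1 := sub_nonneg.2 (one_le_pow₀ hY)
  have hs : 2209 / 10000 ≤ T ^ 2 := by
    have := pow_le_pow_left₀ (by norm_num) hT 2
    linarith
  set V := q * semiMom m 1 with hV
  have hV0 : 0 ≤ semiMom m 1 := by rw [semiMom_one]; exact mom_nonneg ..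
  have hVge : semiMom m 1 ≤ V := le_mul_of_one_le_left hV0 hq.le
  obtain ⟨δ, G', hδ0, hδ, hsplit, hG2, hG1'⟩ := state_shift (g := gG m ε kap T) (c₀ := c₀)
    (c₁ := c₁) (by omega : 1 ≤ m) hY hT0 hσ hU0 hB
  have hG1 : gG m ε kap T - negE m Y c₀ c₁ T ≤ G' := by
    have hup : 0 ≤ stateUp m V Y c₀ c₁ T := by
      unfold stateUp
      refine mul_nonneg (mul_nonneg hU0 (by positivity)) (le_min (by positivity) ?_)
      exact div_nonneg (mul_nonneg zero_le_two (div_nonneg (sub_nonneg.2 hVge)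
        (pow_nonneg (zero_le_one.trans hY) _))) (by positivity)
    rcases hG1' with e | e
    · have h1 := stateG_low' (c₀ := c₀) (c₁ := c₁) (by omega : 2 ≤ m) hY hT0 hU0 hB
      rw [e, negE]
      linarith
    · rw [e]
      linarith [negE_nonnegM (m := m) (c₀ := c₀) (c₁ := c₁) hε0 rfl rfl hY hT0.le]
  have hlow := tail_G_ge (c₀ := c₀) (c₁ := c₁) hm he1 he2 rfl rfl hY hYk hkap' hT
  obtain ⟨hlν, hsl⟩ := slack_nonneg (m := m) (kap := kap) (by omega) hε0 hk0 hk hY hT0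
  have hν := nuFlat_nonneg (m := m) (ε := ε) (kap := kap) (by linarith) hk0 hT0.le
  have hSl := slack_ge2 hY hT0 hν hlν (by linarith)
  obtain ⟨hp0, hp1⟩ := tail_field (c₀ := c₀) (c₁ := c₁) hm he1 he2 rfl rfl hT hδ0 hδ
  have P : TailPt m Y T σ h ε kap (shP m c₀ c₁ T / pre m T + δ) G'
      ((ellFlat m ε kap (rr (m + 1)) T + nuFlat m ε kap T) * -loD Y T) :=
    ⟨hm, hR, hY, hη, by rw [add_sub_cancel]; exact eps_Y_le hm hq hY hcap hε, hT, hσ, he1, he2,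
      hk0, hk, hp0, hp1, hlow.trans hG1, hSl⟩
  obtain ⟨L, hL, hle⟩ := P.all hm2 (by
    have := u_le_eta (m := m) hY
    linarith)
  refine pw_of_L hT0 ⟨L, hL.trans (le_of_eq ?_), ?_⟩
  · rw [hsplit]; ring
  have hpay := sq_payM hm hm2 he1 he2 (c₀ := c₀) (c₁ := c₁) rfl rfl hY hYk hkap' hT0 hG1 hG2
  have hlowT : 0 ≤ lowTM m ε kap T := by
    unfold lowTM lowT
    positivity
  simp only [midLB, lossTM, tailCw, ← hV, ← hc₀, ← hc₁] at hle ⊢
  linarith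

end Vale.Agent.P237.Cal.MidN
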