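import Vale.Agent.P237.Cal.Mid.NegSide
import Vale.Agent.P237.Cal.Mid.Tail
import Vale.Agent.P237.Cal.Mid.MidCal
import Vale.Agent.P237.Cal.Mid.PosGlue
import Vale.Agent.P237.Cal.Mid.PosModeE

/-!
# P237: `ProfileCal` for every `n ≥ 128`
-/

namespace Vale.Agent.P237.Cal.MidN

/-- **The side `σ ≥ T`, `T ≤ 47/100`.** -/
theorem posSide {m : ℕ} (hm : 126 ≤ m) (hm2 : m ≤ 381) :
    SidePw m fun T σ => T ≤ σ ∧ T ≤ 47 / 100 :=
  PosN.posSide_of (fun _ _ _ _ _ _ _ _ _ _ _ _ _ hq he0 hvl P R => PosN.row_E hq he0 hvl P R) hm hm2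

/-- **`ProfileCal` in every dimension `n = m + 2 ≥ 128`.** -/
theorem profileCal_128 {m : ℕ} (hm : 126 ≤ m) : ProfileCal m :=
  profileCal_128_of_pw (fun _ h h2 => midPw_of_sides (sidePw_neg h h2) (posSide h h2)
    (sidePw_tail h h2)) hm

end Vale.Agent.P237.Cal.MidN
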