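import Vale.Agent.P237.Cal.ScalarFlatBeta
import Vale.Agent.P237.Cal.ScalarFlatBounds

/-!
# P237: the margin at `Q = 1` for the middle range

`margE` is `phi` less the loss of the middle range at `Q = 1`; it pays the discriminant of the
slope there for every `N ≥ 128`.
-/

open Real

namespace Vale.Agent.P237.Cal.SF

/-- The bracket of the negative part. -/
noncomputable def ngBr (y Z : ℝ) : ℝ :=
  369 / 100 * (1 - Z) - 78 / 100 * (3 * (1 - Z) - 22 / 10 * y * Z) +
    802 / 10000 * (15 * (1 - Z) - (12 * y + 399 / 100 * y ^ 2) * Z)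

/-- The bound of the negative part. -/
noncomputable def ngB (y Z : ℝ) : ℝ := (1 - 9 / 20 * (1 - Z)) ^ 2 * (y * ngBr y Z)

/-- The loss of the middle range, `x = (q-1)/Y^k`. -/
noncomputable def lossB (y Z x : ℝ) : ℝ :=
  6 / 5 * (1 - Z) ^ 2 + 11 / 50 * x + 27 / 25 * x ^ 2 + ngB y Z + 127 / 1000 * ((1 - Z) * y)

/-- The margin at `Q = 1`. -/
noncomputable def margE (y Z : ℝ) : ℝ :=
  phi y Z - 228 / 100 * (1 - Z) ^ 2 - 22 / 100 * (1 - Z) - ngB y Z - 127 / 1000 * ((1 - Z) * y)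

/-- The slope of the discriminant. -/
noncomputable def slopeM (y Z : ℝ) : ℝ := 8 * y + 754 / 100 * (1 - Z)

/-- The margin less the discriminant at `N = 128`. -/
noncomputable def psiM (y Z : ℝ) : ℝ :=
  margE y Z - 1545 / 10000 * y - (68 / 100 * slopeM y Z + slopeM y Z ^ 2) / (47968 / 100)

lemma ngBr_eq (y Z : ℝ) :
    ngBr y Z = 2553 / 1000 * (1 - Z) + (7536 / 10000 * y - 319998 / 1000000 * y ^ 2) * Z := by
  simp only [ngBr]; ring

lemma ngBr_le {y Z : ℝ} (hZ : 0 ≤ Z) (hZ1 : Z ≤ 1) : ngBr y Z ≤ 3 := by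
  rw [ngBr_eq]
  have h : 7536 / 10000 * y - 319998 / 1000000 * y ^ 2 ≤ 4437 / 10000 := by
    linarith [sq_nonneg (639996 / 1000000 * y - 7536 / 10000)]
  have := mul_le_mul_of_nonneg_right h hZ
  linarith

lemma ngB_nonneg_aux {y : ℝ} : 7536 / 10000 * y - 319998 / 1000000 * y ^ 2 ≤ 2553 / 1000 := by
  linarith [sq_nonneg (639996 / 1000000 * y - 7536 / 10000)]

lemma margE_mono {y Z L : ℝ} (hy : 0 ≤ y) (hL : 0 ≤ L) (h : L ≤ Z) (hZ : Z ≤ 1) :
    margE y L ≤ margE y Z := by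
  have hW : 0 ≤ 152 / 25 * y + 79 / 25 * y ^ 2 := by positivity
  have hs : 0 ≤ Z + L := by linarith
  have key : 0 ≤ 15 / 2 + 65 / 4 * (y ^ 2 + 2 * y + 2) - 249 / 100 * (15 / 2) * (2 - (Z + L)) -
      249 / 100 * (152 / 25 * y + 79 / 25 * y ^ 2) * (1 - (Z + L)) - 27 / 10 * y := by
    have := mul_nonneg hW hs
    nlinarith [sq_nonneg y]
  have e : phi y Z - phi y L = (Z - L) * (15 / 2 + 65 / 4 * (y ^ 2 + 2 * y + 2) -
      249 / 100 * (15 / 2) * (2 - (Z + L)) -
      249 / 100 * (152 / 25 * y + 79 / 25 * y ^ 2) * (1 - (Z + L))) := by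
    simp only [phi]; ring
  have hsq := pow_le_pow_left₀ (show 0 ≤ 1 - Z by linarith) (show 1 - Z ≤ 1 - L by linarith) 2
  have huy := mul_le_mul_of_nonneg_right (show 1 - Z ≤ 1 - L by linarith) hy
  set a := (1 - 9 / 20 * (1 - Z)) ^ 2
  set b := (1 - 9 / 20 * (1 - L)) ^ 2
  have hab : a - b = (Z - L) * (9 / 20 * (2 - 9 / 20 * (1 - Z) - 9 / 20 * (1 - L))) := by
    simp only [a, b]; ring
  have hab1 : a - b ≤ 9 / 10 * (Z - L) := by
    rw [hab]
    have := mul_le_mul_of_nonneg_left (show 9 / 20 * (2 - 9 / 20 * (1 - Z) - 9 / 20 * (1 - L)) ≤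
      9 / 10 by linarith) (show 0 ≤ Z - L by linarith)
    linarith
  have hab0 : 0 ≤ a - b := by
    rw [hab]; exact mul_nonneg (by linarith) (by linarith)
  have h1 := mul_le_mul_of_nonneg_left (mul_le_mul_of_nonneg_left
    (ngBr_le (y := y) (hL.trans h) hZ) hy) hab0
  have h2 : b * (y * ngBr y Z) ≤ b * (y * ngBr y L) := by
    refine mul_le_mul_of_nonneg_left (mul_le_mul_of_nonneg_left ?_ hy) (sq_nonneg _)
    rw [ngBr_eq, ngBr_eq]
    linarith [mul_le_mul_of_nonneg_right (ngB_nonneg_aux (y := y)) (show 0 ≤ Z - L by linarith)]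
  have h3 := mul_le_mul_of_nonneg_right hab1 (show 0 ≤ y * 3 by positivity)
  have h4 := mul_nonneg (show 0 ≤ Z - L by linarith) key
  simp only [margE, ngB, a, b] at h1 h2 h3 ⊢
  linarith

lemma psiM_mono {y Z L : ℝ} (hy : 0 ≤ y) (hL : 0 ≤ L) (h : L ≤ Z) (hZ : Z ≤ 1) :
    psiM y L ≤ psiM y Z := by
  have h1 := margE_mono hy hL h hZ
  have hB : slopeM y Z ≤ slopeM y L := by simp only [slopeM]; linarith
  have hB0 : 0 ≤ slopeM y Z := by simp only [slopeM]; linarith
  have h2 := pow_le_pow_left₀ hB0 hB 2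
  simp only [psiM]
  linarith

/-- A tangent below `exp (-y)` on one segment. -/
lemma psiM_seg {y E m : ℝ} (hE : 0 < E) (hm : exp m ≤ 1 / E) (hy : 0 ≤ y) (hy1 : y ≤ 1 + m)
    (h : 0 ≤ psiM y (E * (1 + m - y))) : 0 ≤ psiM y (exp (-y)) :=
  h.trans (psiM_mono hy (mul_nonneg hE.le (by linarith)) (tangent_le_exp (le_exp_neg hE hm) hy1)
    (exp_le_one_iff.2 (neg_nonpos.2 hy)))

/-- On `[0, 1]`. -/
lemma psiM_small {y : ℝ} (h0 : 0 ≤ y) (h1 : y ≤ 1) : 0 ≤ psiM y (exp (-y)) := by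
  set L := 1 - y + y ^ 2 / 2 - y ^ 3 / 6 + y ^ 4 / 24 - y ^ 5 / 120 with hL
  have hL0 : 0 ≤ L := by
    have := mul_nonneg (pow_nonneg h0 2) (show (0 : ℝ) ≤ 1 / 2 - y / 6 by linarith)
    have := mul_nonneg (pow_nonneg h0 4) (show (0 : ℝ) ≤ 1 / 24 - y / 120 by linarith)
    rw [hL]; linarith
  refine le_trans ?_ (psiM_mono h0 hL0 (taylor_le_exp_neg h0 h1) (exp_le_one_iff.2 (neg_nonpos.2 h0)))
  have hb : 0 ≤ 1 - y := sub_nonneg.2 h1
  simp only [psiM, margE, ngB, ngBr, slopeM, phi, hL]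
  linarith [mul_nonneg (pow_nonneg h0 1) (pow_nonneg hb 9),
    mul_nonneg (pow_nonneg h0 2) (pow_nonneg hb 8),
    mul_nonneg (pow_nonneg h0 3) (pow_nonneg hb 7),
    mul_nonneg (pow_nonneg h0 4) (pow_nonneg hb 6),
    mul_nonneg (pow_nonneg h0 5) (pow_nonneg hb 5),
    mul_nonneg (pow_nonneg h0 6) (pow_nonneg hb 4),
    mul_nonneg (pow_nonneg h0 7) (pow_nonneg hb 3),
    mul_nonneg (pow_nonneg h0 8) (pow_nonneg hb 2),
    mul_nonneg (pow_nonneg h0 9) (pow_nonneg hb 1),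
    pow_nonneg h0 10,
    pow_nonneg h0 11,
    pow_nonneg h0 12,
    pow_nonneg h0 13,
    pow_nonneg h0 14,
    pow_nonneg h0 15,
    pow_nonneg h0 16,
    pow_nonneg h0 17,
    pow_nonneg h0 18,
    pow_le_pow_of_le_one h0 h1 (show 10 ≤ 12 by norm_num),
    pow_le_pow_of_le_one h0 h1 (show 10 ≤ 14 by norm_num),
    pow_le_pow_of_le_one h0 h1 (show 10 ≤ 16 by norm_num),
    pow_le_pow_of_le_one h0 h1 (show 10 ≤ 18 by norm_num)]

/-- On `[1, 9/2]`. -/
lemma psiM_mid {y : ℝ} (h1 : 1 ≤ y) (h9 : y ≤ 9 / 2) : 0 ≤ psiM y (exp (-y)) := by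
  have e18 := exp_frac (1 / 8) (by norm_num) (by norm_num)
  have e14 := exp_frac (1 / 4) (by norm_num) (by norm_num)
  have e38 := exp_frac (3 / 8) (by norm_num) (by norm_num)
  have e58 := exp_frac (5 / 8) (by norm_num) (by norm_num)
  have e78 := exp_frac (7 / 8) (by norm_num) (by norm_num)
  have e34 := exp_frac (3 / 4) (by norm_num) (by norm_num)
  rcases le_or_gt y (5 / 4) with h | h
  · refine psiM_seg (E := 3246 / 10000) (m := 1 + 1 / 8) (by norm_num)
      ((exp_one_add e18).trans (by norm_num)) (by linarith) (by linarith) ?_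
    simp only [psiM, margE, ngB, ngBr, slopeM, phi]
    have pa := sub_nonneg.2 h1
    have pb := sub_nonneg.2 h
    linarith [pow_nonneg pb 6, mul_nonneg (pow_nonneg pa 1) (pow_nonneg pb 5), mul_nonneg (pow_nonneg pa 2) (pow_nonneg pb 4),
      mul_nonneg (pow_nonneg pa 3) (pow_nonneg pb 3), mul_nonneg (pow_nonneg pa 4) (pow_nonneg pb 2), mul_nonneg (pow_nonneg pa 5) (pow_nonneg pb 1), pow_nonneg pa 6]
  rcases le_or_gt y (3 / 2) with h2 | h2
  · refine psiM_seg (E := 2528 / 10000) (m := 1 + 3 / 8) (by norm_num)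
      ((exp_one_add e38).trans (by norm_num)) (by linarith) (by linarith) ?_
    simp only [psiM, margE, ngB, ngBr, slopeM, phi]
    have pa := sub_nonneg.2 h.le
    have pb := sub_nonneg.2 h2
    linarith [pow_nonneg pb 6, mul_nonneg (pow_nonneg pa 1) (pow_nonneg pb 5), mul_nonneg (pow_nonneg pa 2) (pow_nonneg pb 4),
      mul_nonneg (pow_nonneg pa 3) (pow_nonneg pb 3), mul_nonneg (pow_nonneg pa 4) (pow_nonneg pb 2), mul_nonneg (pow_nonneg pa 5) (pow_nonneg pb 1), pow_nonneg pa 6]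
  rcases le_or_gt y (7 / 4) with h3 | h3
  · refine psiM_seg (E := 1968 / 10000) (m := 1 + 5 / 8) (by norm_num)
      ((exp_one_add e58).trans (by norm_num)) (by linarith) (by linarith) ?_
    simp only [psiM, margE, ngB, ngBr, slopeM, phi]
    have pa := sub_nonneg.2 h2.le
    have pb := sub_nonneg.2 h3
    linarith [pow_nonneg pb 6, mul_nonneg (pow_nonneg pa 1) (pow_nonneg pb 5), mul_nonneg (pow_nonneg pa 2) (pow_nonneg pb 4),
      mul_nonneg (pow_nonneg pa 3) (pow_nonneg pb 3), mul_nonneg (pow_nonneg pa 4) (pow_nonneg pb 2), mul_nonneg (pow_nonneg pa 5) (pow_nonneg pb 1), pow_nonneg pa 6]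
  rcases le_or_gt y 2 with h4 | h4
  · refine psiM_seg (E := 1533 / 10000) (m := 1 + 7 / 8) (by norm_num)
      ((exp_one_add e78).trans (by norm_num)) (by linarith) (by linarith) ?_
    simp only [psiM, margE, ngB, ngBr, slopeM, phi]
    have pa := sub_nonneg.2 h3.le
    have pb := sub_nonneg.2 h4
    linarith [pow_nonneg pb 6, mul_nonneg (pow_nonneg pa 1) (pow_nonneg pb 5), mul_nonneg (pow_nonneg pa 2) (pow_nonneg pb 4),
      mul_nonneg (pow_nonneg pa 3) (pow_nonneg pb 3), mul_nonneg (pow_nonneg pa 4) (pow_nonneg pb 2), mul_nonneg (pow_nonneg pa 5) (pow_nonneg pb 1), pow_nonneg pa 6]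
  rcases le_or_gt y (5 / 2) with h5 | h5
  · refine psiM_seg (E := 1053 / 10000) (m := 1 + (1 + 1 / 4)) (by norm_num)
      ((exp_one_add (exp_one_add e14)).trans (by norm_num)) (by linarith) (by linarith) ?_
    simp only [psiM, margE, ngB, ngBr, slopeM, phi]
    have pa := sub_nonneg.2 h4.le
    have pb := sub_nonneg.2 h5
    linarith [pow_nonneg pb 6, mul_nonneg (pow_nonneg pa 1) (pow_nonneg pb 5), mul_nonneg (pow_nonneg pa 2) (pow_nonneg pb 4),
      mul_nonneg (pow_nonneg pa 3) (pow_nonneg pb 3), mul_nonneg (pow_nonneg pa 4) (pow_nonneg pb 2), mul_nonneg (pow_nonneg pa 5) (pow_nonneg pb 1), pow_nonneg pa 6]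
  rcases le_or_gt y 3 with h6 | h6
  · refine psiM_seg (E := 639 / 10000) (m := 1 + (1 + 3 / 4)) (by norm_num)
      ((exp_one_add (exp_one_add e34)).trans (by norm_num)) (by linarith) (by linarith) ?_
    simp only [psiM, margE, ngB, ngBr, slopeM, phi]
    have pa := sub_nonneg.2 h5.le
    have pb := sub_nonneg.2 h6
    linarith [pow_nonneg pb 6, mul_nonneg (pow_nonneg pa 1) (pow_nonneg pb 5), mul_nonneg (pow_nonneg pa 2) (pow_nonneg pb 4),
      mul_nonneg (pow_nonneg pa 3) (pow_nonneg pb 3), mul_nonneg (pow_nonneg pa 4) (pow_nonneg pb 2), mul_nonneg (pow_nonneg pa 5) (pow_nonneg pb 1), pow_nonneg pa 6]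
  · refine psiM_seg (E := 235 / 10000) (m := 1 + (1 + (1 + 3 / 4))) (by norm_num)
      ((exp_one_add (exp_one_add (exp_one_add e34))).trans (by norm_num)) (by linarith) (by linarith) ?_
    simp only [psiM, margE, ngB, ngBr, slopeM, phi]
    have pa := sub_nonneg.2 h6.le
    have pb := sub_nonneg.2 h9
    linarith [pow_nonneg pb 6, mul_nonneg (pow_nonneg pa 1) (pow_nonneg pb 5), mul_nonneg (pow_nonneg pa 2) (pow_nonneg pb 4),
      mul_nonneg (pow_nonneg pa 3) (pow_nonneg pb 3), mul_nonneg (pow_nonneg pa 4) (pow_nonneg pb 2), mul_nonneg (pow_nonneg pa 5) (pow_nonneg pb 1), pow_nonneg pa 6]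

/-- **The margin pays the discriminant for `N ≥ 128`.** -/
theorem margM_disc {N y : ℝ} (hN : 128 ≤ N) (hy0 : 0 ≤ y) (hs : 1 ≤ 5 * N * y)
    (hy1 : y ≤ 433 / 100 + N / 100) :
    1545 / 10000 * y ≤ margE y (exp (-y)) ∧
      (34 / 100 + slopeM y (exp (-y))) ^ 2 <
        4 * (N - 808 / 100) * margE y (exp (-y)) := by
  have hZ0 := exp_pos (-y)
  have hZ1 : exp (-y) ≤ 1 := exp_le_one_iff.2 (neg_nonpos.2 hy0)
  set B := slopeM y (exp (-y)) with hB
  have hB0 : 0 ≤ B := by rw [hB, slopeM]; linarith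
  have hN1 : 47968 / 100 ≤ 4 * (N - 808 / 100) := by linarith
  rcases le_or_gt y (9 / 2) with h | h
  · have hp : 0 ≤ psiM y (exp (-y)) := by
      rcases le_or_gt y 1 with h1 | h1
      · exact psiM_small hy0 h1
      · exact psiM_mid h1.le h
    simp only [psiM, ← hB] at hp
    set R := (68 / 100 * B + B ^ 2) / (47968 / 100) with hR
    have hR0 : 0 ≤ R := by rw [hR]; positivity
    refine ⟨by linarith, ?_⟩
    have h2 := mul_le_mul_of_nonneg_left (show 1545 / 10000 * y + R ≤ margE y (exp (-y)) by linarith)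
      (show 0 ≤ 4 * (N - 808 / 100) by linarith)
    have h3 := mul_le_mul_of_nonneg_right hN1 hR0
    have h4 : 47968 / 100 * R = 68 / 100 * B + B ^ 2 := by rw [hR]; ring
    have h5 := mul_le_mul_of_nonneg_right (show 936875 / 1000000 * N ≤ N - 808 / 100 by linarith) hy0
    linarith
  · have h1 := margE_mono hy0 le_rfl hZ0.le hZ1
    have h0 : margE y 0 = 799 / 100 * y - 15 / 2 - 65 / 2 + 249 / 100 * (15 / 2) - 25 / 10 -
        121 / 400 * (y * (2553 / 1000)) - 127 / 1000 * y := by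
      simp only [margE, ngB, ngBr, phi]; ring
    have hBu : B ≤ 8 * y + 754 / 100 := by rw [hB, slopeM]; linarith
    refine ⟨by linarith, ?_⟩
    have h5 := pow_le_pow_left₀ (show 0 ≤ 34 / 100 + B by linarith)
      (show 34 / 100 + B ≤ 8 * y + 788 / 100 by linarith) 2
    have h7 := mul_le_mul_of_nonneg_left (show 709 / 100 * y - 2383 / 100 ≤ margE y (exp (-y)) by linarith)
      (show 0 ≤ 4 * (N - 808 / 100) by linarith)
    nlinarith [mul_nonneg (sub_nonneg.2 hN) (sub_nonneg.2 h.le),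
      mul_le_mul_of_nonneg_left hy1 hy0, sq_nonneg y]

end Vale.Agent.P237.Cal.SF
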