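import Vale.Agent.P237.Cal.ScalarFlatUpper
import Vale.Agent.P237.Cal.Mid.Margin

/-!
# P237: the closed scalar against the loss of the middle range

For `N ≥ 128` the scalar exceeds `22 (Q-1)²/N` plus `lossB/N` away from the ball.
-/

open Real Set

namespace Vale.Agent.P237.Cal.SF

variable {N A y Q : ℝ}

/-- The scalar for `Q ≥ 1` without the logarithm. -/
lemma tot_ge_phi (h : Par N A y) (hQ : 1 ≤ Q) (hQ1 : Q ≤ 83 / 50) :
    phi y (exp (-y)) + 1 / 2 * (Q - 1) + (3 / 4 * N + 137 / 10) * (Q - 1) ^ 2 ≤ N * tot N A y Q := by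
  have hN := h.hN
  have hN0 : 0 < N := by linarith
  have f1 := tot_one h
  have d1 := totD_one_low h
  set a := 2 + 73 / 2 / N with ha
  have ht := taylor_lower (f := fun t => tot N A y t - a * (t * log t - t))
    (f' := fun t => totD N A y t - a * log t) (f'' := fun t => totDD N A y t - a / t) (c := 0)
    (left_mem_Icc.2 (by norm_num : (1 : ℝ) ≤ 83 / 50)) ⟨hQ, hQ1⟩
    (fun t ht => by
      have ht0 : 0 < t := one_pos.trans_le ht.1
      refine ((hasDerivAt_tot hN ht0).fun_sub
        ((((hasDerivAt_id t).fun_mul (hasDerivAt_log ht0.ne')).fun_sub (hasDerivAt_id t)).const_mul a)).congr_deriv ?_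
      simp only [id_eq]; field_simp; ring)
    (fun t ht => by
      have ht0 : 0 < t := one_pos.trans_le ht.1
      exact ((hasDerivAt_totD hN ht0).fun_sub ((hasDerivAt_log ht0.ne').const_mul a)).congr_deriv
        (by simp only [div_eq_mul_inv]))
    (fun t ht => by
      have ht0 : 0 < t := one_pos.trans_le ht.1
      have hc := curvature_upper h ht.1 ht.2
      rw [sub_nonneg, div_le_iff₀ ht0, ← mul_le_mul_iff_left₀ ht0]
      linarith)
  simp only [log_one] at ht
  set x := Q - 1 with hx
  have hx0 : 0 ≤ x := sub_nonneg.2 hQ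
  have hlog : x ^ 2 * (50 / 133) ≤ Q * log Q - x := by
    have h1 := le_log_one_add_of_nonneg hx0
    rw [show 1 + x = Q by rw [hx]; ring] at h1
    have h2 := mul_le_mul_of_nonneg_left h1 (show 0 ≤ Q by linarith)
    have h3 : x ^ 2 * (50 / 133) ≤ Q * (2 * x / (x + 2)) - x := by
      rw [le_sub_iff_add_le, ← mul_div_assoc Q, le_div_iff₀ (by linarith)]
      have := mul_le_mul_of_nonneg_left (show x + 2 ≤ 133 / 50 by linarith) (sq_nonneg x)
      rw [show Q = 1 + x by rw [hx]; ring]
      linarith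
    linarith
  have ha2 : (3 / 4 * N + 137 / 10) * x ^ 2 ≤ N * (a * (x ^ 2 * (50 / 133))) := by
    have e : N * (a * (50 / 133)) = 100 / 133 * N + 1825 / 133 := by rw [ha]; field_simp; ring
    have := mul_le_mul_of_nonneg_right (show 3 / 4 * N + 137 / 10 ≤ N * (a * (50 / 133)) by linarith)
      (sq_nonneg x)
    linarith
  have hlog2 := mul_le_mul_of_nonneg_left hlog (show 0 ≤ N * a by positivity)
  have h5 := mul_le_mul_of_nonneg_right d1 hx0
  have h6 := mul_le_mul_of_nonneg_left ht hN0.le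
  linarith

/-- The second order bound for `Q ≤ 1` from either end. -/
lemma tot_ge_low (h : Par N A y) (hQ : exp (-y) ≤ Q) (hQ1 : Q ≤ 1) {p : ℝ}
    (hp : p ∈ Icc (exp (-y)) 1) :
    N * tot N A y p + N * totD N A y p * (Q - p) + (N + 15) * (Q - p) ^ 2 ≤ N * tot N A y Q := by
  have hN := h.hN
  have hN0 : 0 < N := by linarith
  have hZ0 := exp_pos (-y)
  have ht := taylor_lower (c := 2 + 30 / N) hp ⟨hQ, hQ1⟩
    (fun t ht => hasDerivAt_tot hN (hZ0.trans_le ht.1))
    (fun t ht => hasDerivAt_totD hN (hZ0.trans_le ht.1))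
    (fun t ht => le_of_mul_le_mul_left (by linarith [curvature_low h ht.1 ht.2])
      (pow_pos (hZ0.trans_le ht.1) 2))
  have e : N * ((2 + 30 / N) / 2 * (Q - p) ^ 2) = (N + 15) * (Q - p) ^ 2 := by field_simp; ring
  have := mul_le_mul_of_nonneg_left ht hN0.le
  linarith

/-- **The scalar exceeds the loss of the middle range.** -/
theorem tot_mid (h : Par N A y) (hN : 128 ≤ N) (hQ : exp (-y) ≤ Q) (hQ1 : Q ≤ 83 / 50)
    (hne : 0 < y ∨ 1 < Q) :
    22 / N * (Q - 1) ^ 2 + lossB y (exp (-y)) (Q - exp (-y)) / N < tot N A y Q := by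
  have hN0 : 0 < N := by linarith
  have hy := h.y0
  have hy1 := h.y_le
  set Z := exp (-y) with hZ
  have hZ0 : 0 < Z := exp_pos _
  have hZ1 : Z ≤ 1 := exp_le_one_iff.2 (neg_nonpos.2 hy)
  have hu : 1 - Z ≤ y := by rw [hZ]; linarith [add_one_le_exp (-y)]
  have hu0 : 0 ≤ 1 - Z := sub_nonneg.2 hZ1
  rw [div_mul_eq_mul_div, ← add_div, div_lt_iff₀ hN0, mul_comm (tot N A y Q) N]
  -- the case `5 N y ≤ 1` for the margin at `Q = 1`
  rcases le_or_gt (5 * N * y) 1 with hs | hs
  · have hy2 : y ≤ 1 / 640 := by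
      have := mul_le_mul_of_nonneg_right hN hy
      linarith
    have huy := mul_le_mul_of_nonneg_right hu hy
    have hu2 := pow_le_pow_left₀ hu0 hu 2
    have hng : ngB y Z ≤ 331 / 100 * y ^ 2 := by
      have hb : ngBr y Z ≤ 331 / 100 * y := by
        rw [ngBr_eq]
        have a1 := mul_le_mul_of_nonneg_right hZ1 (show 0 ≤ 7536 / 10000 * y by positivity)
        have a2 : 0 ≤ y ^ 2 * Z := by positivity
        linarith
      have a3 := mul_le_mul_of_nonneg_left hb hy
      have a4 : (1 - 9 / 20 * (1 - Z)) ^ 2 ≤ 1 := pow_le_one₀ (by linarith) (by linarith)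
      rw [ngB]
      calc (1 - 9 / 20 * (1 - Z)) ^ 2 * (y * ngBr y Z)
          ≤ (1 - 9 / 20 * (1 - Z)) ^ 2 * (y * (331 / 100 * y)) :=
            mul_le_mul_of_nonneg_left a3 (sq_nonneg _)
        _ ≤ 1 * (y * (331 / 100 * y)) := mul_le_mul_of_nonneg_right a4 (by positivity)
        _ = _ := by ring
    rcases le_or_gt 1 Q with h1 | h1
    · have hT := tot_ge_phi h h1 hQ1
      rw [← hZ] at hT
      have hphi := (phi_small hy (by linarith)).2 (by linarith)
      rw [← hZ] at hphi
      set d := Q - 1 with hd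
      have hd0 : 0 ≤ d := sub_nonneg.2 h1
      have hN2 := mul_le_mul_of_nonneg_right hN (sq_nonneg d)
      have hsq := sq_nonneg (d - (1 - Z) / 80)
      rw [lossB, show Q - Z = (1 - Z) + d by rw [hd]; ring]
      have hud := mul_le_mul_of_nonneg_right hu hd0
      have hyd := mul_le_mul_of_nonneg_right hy2 hd0
      rcases hne with hy0 | hQ0
      · linarith [mul_nonneg hy hy, sq_nonneg d]
      · have hd1 : 0 < d := sub_pos.2 hQ0
        linarith [mul_nonneg hy hy, sq_nonneg d]
    · have hy0 : 0 < y := hne.resolve_right (not_lt.2 h1.le)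
      have hT := tot_ge_low h hQ h1.le (left_mem_Icc.2 hZ1)
      have g1 := mul_le_mul_of_nonneg_left (tot_low h hs) hN0.le
      have g2 := mul_le_mul_of_nonneg_right (totD_low h hs) (sub_nonneg.2 hQ)
      rw [← hZ] at g1 g2 hT
      set x := Q - Z with hx
      have hx0 : 0 ≤ x := sub_nonneg.2 hQ
      rw [lossB, show Q - 1 = x - (1 - Z) by rw [hx]; ring]
      have h2 := mul_nonneg (mul_nonneg hu0 hx0) (by norm_num : (0 : ℝ) ≤ 44)
      have h3 := mul_nonneg hx0 (show 0 ≤ 28 / 100 - 14 / 10 * (N * y) by linarith)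
      have h4 := mul_le_mul_of_nonneg_right hN (sq_nonneg x)
      have h5 := mul_le_mul_of_nonneg_right hN (sq_nonneg y)
      have h6 := mul_nonneg hN0.le (sq_nonneg (93 / 100 * x - 54 / 100 * y))
      have h7 : 0 < N * y ^ 2 := by positivity
      linarith
  · obtain ⟨hE, hdisc⟩ := margM_disc hN hy hs.le hy1
    rw [← hZ] at hE hdisc
    have hy0 : 0 < y := by
      rcases hy.eq_or_lt with e | e
      · rw [← e] at hs; linarith
      · exact e
    rcases le_or_gt 1 Q with h1 | h1
    · have hT := tot_ge_phi h h1 hQ1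
      rw [← hZ] at hT
      set d := Q - 1 with hd
      have hd0 : 0 ≤ d := sub_nonneg.2 h1
      rw [margE] at hE
      rw [lossB, show Q - Z = (1 - Z) + d by rw [hd]; ring]
      have hN2 := mul_le_mul_of_nonneg_right hN (sq_nonneg d)
      have h3 := mul_le_mul_of_nonneg_left (show 1 - Z ≤ 1 by linarith) hu0
      have hsq := sq_nonneg (d - (1 - Z) / 80)
      linarith [sq_nonneg d]
    · have hT := tot_ge_low h hQ h1.le (right_mem_Icc.2 hZ1)
      have g1 := tot_one h
      have g2 := mul_le_mul_of_nonpos_right (totD_one_up h) (show Q - 1 ≤ 0 by linarith)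
      rw [← hZ] at g1 g2
      set d := Q - 1 with hd
      rw [lossB, show Q - Z = (1 - Z) + d by rw [hd]; ring]
      set B := 34 / 100 + slopeM y Z with hB
      have hK : 0 < N - 808 / 100 := by linarith
      have key : 0 < margE y Z + B * d + (N - 808 / 100) * d ^ 2 := by
        have h8 : 0 ≤ (2 * (N - 808 / 100) * d + B) ^ 2 := sq_nonneg _
        have : 0 < 4 * (N - 808 / 100) * (margE y Z + B * d + (N - 808 / 100) * d ^ 2) := by
          linarith
        exact pos_of_mul_pos_right this (by linarith)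
      rw [margE, hB, slopeM] at key
      linarith

end Vale.Agent.P237.Cal.SF
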