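import Vale.Agent.P237.Cal.ScalarFlatHsc

/-!
# P237: the scalar of the leaf is the closed function `SF.tot`
-/

open MeasureTheory Set Real

namespace Vale.Agent.P237.Cal

/-- The parameters of the closed scalar, and the identity with `scalarLin`. -/
theorem scalar_eq {m : ℕ} (hm : 98 ≤ m) {q Y Q ε kap : ℝ} (hY : 1 ≤ Y)
    (hYk : Y ^ (m + 1) ≤ 2 * ((m : ℝ) + 2)) (hq : 1 ≤ q) (hQ : Q = q / Y ^ (m + 1))
    (hε : ε = 4 * q ^ (2 / ((m : ℝ) + 2)) / Y ^ 2)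
    (hkap : kap = (1 - (Y ^ (m + 1))⁻¹) / 2) :
    SF.Par ((m : ℝ) + 2) ((((m : ℝ) + 2) + 2) / rr (m + 1) ^ 2) (((m : ℝ) + 1) * Real.log Y) ∧
      exp (-(((m : ℝ) + 1) * Real.log Y)) = (Y ^ (m + 1))⁻¹ ∧
      exp (-(((m : ℝ) + 1) * Real.log Y)) ≤ Q ∧
      SF.tot ((m : ℝ) + 2) ((((m : ℝ) + 2) + 2) / rr (m + 1) ^ 2) (((m : ℝ) + 1) * Real.log Y) Q =
        scalarLin m ε kap Q
          ((∫ T in Ioi (0 : ℝ), ellFlat m ε kap (rr (m + 1)) T * loD Y T) / semiMom m 1) := by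
  obtain ⟨p, rfl⟩ : ∃ p, m = p + 2 := ⟨m - 2, by omega⟩
  set N := ((p + 2 : ℕ) : ℝ) + 2 with hNd
  have hN : 100 ≤ N := by
    have : ((98 : ℕ) : ℝ) ≤ ((p + 2 : ℕ) : ℝ) := by exact_mod_cast hm
    push_cast at this ⊢
    rw [hNd]; push_cast; linarith
  have hpN : (p : ℝ) = N - 4 := by rw [hNd]; push_cast; ring
  have hmN : ((p + 2 : ℕ) : ℝ) = N - 2 := by rw [hNd]; ring
  have hY0 : 0 < Y := one_pos.trans_le hY
  set r := rr (p + 2 + 1) with hr
  have hrr : r = mom 0 (p + 5) / mom 0 (p + 6) := rfl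
  have hV : 0 < mom 0 (p + 6) := mom_zero_pos (p + 4)
  have hr0 : 0 < r := div_pos (mom_zero_pos (p + 3)) hV
  set y := (N - 1) * Real.log Y with hy
  have hyY : exp y = Y ^ (p + 2 + 1) := by
    rw [hy, ← Real.exp_log (pow_pos hY0 (p + 2 + 1)), Real.log_pow]
    push_cast
    rw [hpN]; ring_nf
  obtain ⟨hb1, hb2⟩ := rr_bounds (k := p + 2 + 1) (by omega)
  push_cast at hb1 hb2
  obtain ⟨hA1, hA2⟩ := A_range hN
    (le_of_eq_of_le (by rw [hpN]; ring_nf) hb1) (hb2.trans_eq (by rw [hpN]; ring_nf))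
  have hpar : SF.Par N ((N + 2) / r ^ 2) y :=
    ⟨hN, hA1, hA2, mul_nonneg (by linarith) (Real.log_nonneg hY), hyY ▸ hYk⟩
  have hZ : exp (-y) = (Y ^ (p + 2 + 1))⁻¹ := by rw [exp_neg, hyY]
  have hQ0 : 0 < Q := by rw [hQ]; positivity
  have hQZ : exp (-y) ≤ Q := by
    rw [hZ, hQ, inv_eq_one_div]; exact div_le_div_of_nonneg_right hq (by positivity)
  have hlog : y + Real.log Q = Real.log q := by
    rw [hQ, Real.log_div (by linarith) (pow_ne_zero _ hY0.ne'), ← hyY, Real.log_exp]; ring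
  have hlY : y / (N - 1) = Real.log Y := mul_div_cancel_left₀ _ (by linarith)
  have hY1 : exp (y / (N - 1)) = Y := by rw [hlY, Real.exp_log hY0]
  have hY2 : exp (2 * (y / (N - 1))) = Y ^ 2 := by
    rw [hlY, show (2 : ℝ) * Real.log Y = Real.log (Y ^ 2) by rw [Real.log_pow]; norm_num,
      Real.exp_log (by positivity)]
  have hY3 : exp (-(2 * (y / (N - 1)))) = (Y ^ 2)⁻¹ := by rw [exp_neg, hY2]
  have hqb : SF.qb N Q = Q ^ ((N - 2) / (N - 1)) := by
    rw [SF.qb, Real.rpow_def_of_pos hQ0]; ring_nf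
  have he : SF.eS N y Q = ε := by
    rw [SF.eS, hε, hlY, show 2 / N * (Real.log Q - Real.log Y) =
      Real.log q * (2 / N) + -(2 * Real.log Y) by
        rw [← hlog, ← hlY]; field_simp [show N - 1 ≠ 0 by linarith]; ring,
      exp_add, ← Real.rpow_def_of_pos (by linarith), exp_neg, ← hlY, hY2]
    ring
  rw [show (((p + 2 : ℕ) : ℝ) + 1) * Real.log Y = y by rw [hy, hNd]; ring]
  refine ⟨hpar, hZ, hQZ, ?_⟩
  have e0 : mom 0 (p + 4) = N / (N - 1) * mom 0 (p + 6) := by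
    have := mom_exp (a := 0) (m := p + 4) (by omega)
    push_cast at this
    rw [hpN] at this
    rw [div_mul_eq_mul_div, eq_div_iff (by linarith)]
    linarith
  have e4 : mom 0 (p + 4 + 4) = (N + 1) / (N + 2) * mom 0 (p + 6) := by
    have := mom_exp (a := 0) (m := p + 6) (by omega)
    push_cast at this
    rw [hpN] at this
    rw [div_mul_eq_mul_div, eq_div_iff (by linarith)]
    linarith
  have e1 : mom 0 (p + 1 + 4) = r * mom 0 (p + 6) := by rw [hrr, div_mul_cancel₀ _ hV.ne']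
  rw [(integral_ellFlat_loD hr0.ne' hY).2]
  simp only [scalarLin, SF.tot, SF.MS, SF.gS, SF.NI, muT, aT, kFlat, loMom, semiMom_one, ← hr]
  rw [hqb, he, hY1, hY2, hY3, hZ, hkap, e0, e4, e1, show p + 2 + 4 = p + 6 from rfl]
  push_cast
  rw [hpN]
  have : N - 1 ≠ 0 := by linarith
  have : N - 2 ≠ 0 := by linarith
  have : N - 3 ≠ 0 := by linarith
  have : N + 2 ≠ 0 := by linarith
  have : N ≠ 0 := by linarith
  have : Y ≠ 0 := hY0.ne'
  have : N + 1 ≠ 0 := by linarith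
  rw [show Y ^ (p + 1) = Y ^ (p + 2 + 1) / Y ^ 2 by field_simp; ring,
    show Y ^ (p + 1 + 1) = Y ^ (p + 2 + 1) / Y by field_simp; ring,
    show Y ^ (p + 4 + 1) = Y ^ (p + 2 + 1) * Y ^ 2 by ring]
  rw [show N - 4 + 6 = N + 2 by ring, show N - 4 + 2 + 4 = N + 2 by ring,
    show N - 4 + 2 + 2 = N by ring, show N - 4 + 2 + 1 = N - 1 by ring, show N - 4 + 1 + 1 = N - 2 by ring,
    show N - 4 + 4 + 1 = N + 1 by ring, show N - 4 + 4 = N by ring, show N - 4 + 3 = N - 1 by ring,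
    show N - 4 + 1 = N - 3 by ring, show N - 4 + 2 = N - 2 by ring]
  have hW : Y ^ (p + 2 + 1) ≠ 0 := pow_ne_zero _ hY0.ne'
  generalize Y ^ (p + 2 + 1) = W at hW ⊢
  generalize Q ^ ((N - 2) / (N - 1)) = B
  have := hV.ne'
  generalize mom 0 (p + 6) = V at this ⊢
  field_simp
  ring


end Vale.Agent.P237.Cal
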