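import Vale.Agent.P237.Cal.Mid.Defs
import Vale.Agent.P237.Cal.Mid.Scalar
import Vale.Agent.P237.Cal.Mid.ScalarEq

/-!
# P237: the integral half of the leaf for `n ≥ 128`

Closed bounds of the integrals of the loss terms, times `n`, leave the loss below the scalar.
-/

open MeasureTheory Set Real

namespace Vale.Agent.P237.Cal

variable {m : ℕ}

/-- The loss of the slack of the weight for `n ≥ 128`. -/
lemma nu_budgetM {N u y kap ε : ℝ} (hN : 128 ≤ N) (hu : 0 ≤ u) (huy : u ≤ y) (hk : kap = u / 2)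
    (he0 : 0 ≤ 1 + ε) (he : ε ≤ 203 / 50) :
    kap * (1 + ε) * (5 / 2 * u + 33 / 10 * y) / N ^ 2 ≤ 117 / 1000 * (u * y) / N := by
  have hy : 0 ≤ y := hu.trans huy
  have a : kap * (1 + ε) * (5 / 2 * u + 33 / 10 * y) ≤ u / 2 * (253 / 50) * (29 / 5 * y) := by
    rw [hk]
    gcongr
    · linarith
    · linarith
  rw [div_le_div_iff₀ (by positivity) (by linarith)]
  have b := mul_le_mul_of_nonneg_right a (show 0 ≤ N by linarith)
  have c := mul_le_mul_of_nonneg_right hN (mul_nonneg (mul_nonneg hu hy) (show 0 ≤ N by linarith))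
  linarith [mul_nonneg (mul_nonneg hu hy) (show 0 ≤ N by linarith)]

/-- **The budget of the middle range.** -/
theorem mid_budget {q Y Q ε kap : ℝ} (hm : 126 ≤ m) (hq : 1 < q) (hY : 1 ≤ Y)
    (hYk : Y ^ (m + 1) ≤ 2 * ((m : ℝ) + 2)) (hQ : Q = q / Y ^ (m + 1))
    (hQr : Q ≤ rr (m + 1) ^ (m + 1))
    (hε : ε = 4 * q ^ (2 / ((m : ℝ) + 2)) / Y ^ 2)
    (he1 : 7 / 2 ≤ ε) (he2 : ε ≤ 203 / 50)
    (hkap : kap = (1 - (Y ^ (m + 1))⁻¹) / 2)
    (hgT : Continuous (gTM m ε kap) ∧ IntegrableOn (gTM m ε kap) (Ioi 0) ∧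
      ((m : ℝ) + 2) * ((∫ T in Ioi (0 : ℝ), gTM m ε kap T) / semiMom m 1) ≤
        23 / 20 * uOf m Y ^ 2)
    (hup : Continuous (upTM m (q * semiMom m 1) Y (LargeN.c0 m ε) (LargeN.c1 m ε)) ∧
      IntegrableOn (upTM m (q * semiMom m 1) Y (LargeN.c0 m ε) (LargeN.c1 m ε)) (Ioi 0) ∧
      ((m : ℝ) + 2) * ((∫ T in Ioi (0 : ℝ),
        upTM m (q * semiMom m 1) Y (LargeN.c0 m ε) (LargeN.c1 m ε) T) / semiMom m 1) ≤
        11 / 50 * ((q - 1) / Y ^ (m + 1)) + 27 / 25 * ((q - 1) / Y ^ (m + 1)) ^ 2)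
    (hng : Continuous (ngTM m Y (LargeN.c0 m ε) (LargeN.c1 m ε)) ∧
      IntegrableOn (ngTM m Y (LargeN.c0 m ε) (LargeN.c1 m ε)) (Ioi 0) ∧
      ((m : ℝ) + 2) * ((∫ T in Ioi (0 : ℝ), ngTM m Y (LargeN.c0 m ε) (LargeN.c1 m ε) T) /
        semiMom m 1) ≤
        (1 - 9 / 20 * uOf m Y) ^ 2 * (yOf m Y * (369 / 100 * uOf m Y -
          78 / 100 * (3 * uOf m Y - 22 / 10 * yOf m Y * (1 - uOf m Y)) +
          802 / 10000 * (15 * uOf m Y -
            (12 * yOf m Y + 399 / 100 * yOf m Y ^ 2) * (1 - uOf m Y)))))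
    (hlow : Continuous (lowTM m ε kap) ∧ IntegrableOn (lowTM m ε kap) (Ioi 0) ∧
      ((m : ℝ) + 2) * ((∫ T in Ioi (0 : ℝ), lowTM m ε kap T) / semiMom m 1) ≤
        1 / 20 * uOf m Y ^ 2)
    (hη : Continuous (etaM m Y) ∧ IntegrableOn (etaM m Y) (Ioi 0) ∧
      ((m : ℝ) + 2) * ((∫ T in Ioi (0 : ℝ), etaM m Y T) / semiMom m 1) ≤
        1 / 100 * uOf m Y * yOf m Y) :
    Continuous (midLB m q Y ε kap) ∧ IntegrableOn (midLB m q Y ε kap) (Ioi 0) ∧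
      ((∫ T in Ioi (0 : ℝ), ellFlat m ε kap (rr (m + 1)) T * loD Y T) -
          ∫ T in Ioi (0 : ℝ), midLB m q Y ε kap T) / semiMom m 1 <
        scalarLin m ε kap Q
          ((∫ T in Ioi (0 : ℝ), ellFlat m ε kap (rr (m + 1)) T * loD Y T) / semiMom m 1) -
          22 / ((m : ℝ) + 2) * (Q - 1) ^ 2 := by
  obtain ⟨hpar, hZ, hQZ, hEq⟩ := scalar_eq (by omega) hY hYk hq.le hQ hε hkap
  have hQ1 : Q ≤ 83 / 50 := hQr.trans (rr_pow_le m)
  obtain ⟨p, rfl⟩ : ∃ p, m = p + 2 := ⟨m - 2, by omega⟩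
  have hY0 : 0 < Y := one_pos.trans_le hY
  have hYp : (0 : ℝ) < Y ^ (p + 2 + 1) := pow_pos hY0 _
  set N := ((p + 2 : ℕ) : ℝ) + 2 with hNd
  have hN : 128 ≤ N := by
    have : ((126 : ℕ) : ℝ) ≤ ((p + 2 : ℕ) : ℝ) := by exact_mod_cast hm
    push_cast at this
    rw [hNd]; push_cast; linarith
  set y := (((p + 2 : ℕ) : ℝ) + 1) * Real.log Y with hy
  have hy0 : 0 ≤ y := mul_nonneg (by positivity) (log_nonneg hY)
  have hne : 0 < y ∨ 1 < Q := by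
    rcases hy0.eq_or_lt with h | h
    · refine Or.inr ?_
      have : (Y ^ (p + 2 + 1))⁻¹ = 1 := by rw [← hZ, ← h]; simp
      rw [hQ, div_eq_mul_inv, this, mul_one]
      exact hq
    · exact Or.inl h
  set u := uOf (p + 2) Y with hu
  have hue : u = 1 - exp (-y) := by rw [hZ]; rfl
  have hu0 : 0 ≤ u := by
    rw [hue, sub_nonneg]; exact exp_le_one_iff.2 (neg_nonpos.2 hy0)
  have huy : u ≤ y := by rw [hue]; linarith [add_one_le_exp (-y)]
  have hk0 : 0 ≤ kap := by rw [hkap, ← uOf, ← hu]; linarith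
  have hr : rr (p + 2 + 1) ≠ 0 := (one_pos.trans_le (one_lt_rr (k := p + 2 + 1) (by omega)).le).ne'
  obtain ⟨i1, -⟩ := integral_ellFlat_loD (p := p) (ε := ε) (kap := kap) hr hY
  obtain ⟨i2, v2⟩ := integral_nuFlat_loD (m := p + 2) (by omega) hY hYk hk0 (ε := ε) (by linarith)
  obtain ⟨c1, j1, b1⟩ := hgT
  obtain ⟨c2, j2, b2⟩ := hup
  obtain ⟨c3, j3, b3⟩ := hng
  obtain ⟨c4, j4, b4⟩ := hlow
  obtain ⟨c6, j6, b6⟩ := hη
  have hcl : Continuous fun T => loD Y T := by unfold loD; fun_prop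
  have hw : ∀ j : ℕ, ∀ t : ℝ, √(1 + t ^ 2) ^ j ≠ 0 := fun j t => (pow_pos (w_pos t) _).ne'
  have hcell : Continuous fun T => ellFlat (p + 2) ε kap (rr (p + 2 + 1)) T * loD Y T := by
    refine Continuous.mul ?_ hcl
    unfold ellFlat ell gFlat' dpre pre muX
    fun_prop (disch := intros; exact hw _ _)
  have hcnu : Continuous fun T => nuFlat (p + 2) ε kap T * loD Y T := by
    refine Continuous.mul ?_ hcl
    unfold nuFlat muX
    fun_prop (disch := intros; exact hw _ _)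
  set c₀ := LargeN.c0 (p + 2) ε
  set c₁ := LargeN.c1 (p + 2) ε
  have hLB : midLB (p + 2) q Y ε kap = fun T => ellFlat (p + 2) ε kap (rr (p + 2 + 1)) T * loD Y T +
      nuFlat (p + 2) ε kap T * loD Y T - (gTM (p + 2) ε kap T +
        upTM (p + 2) (q * semiMom (p + 2) 1) Y c₀ c₁ T +
        ngTM (p + 2) Y c₀ c₁ T + lowTM (p + 2) ε kap T + etaM (p + 2) Y T) := by
    funext T; simp only [midLB, lossTM, c₀, c₁]; ring
  have hI : ∀ a b : ℝ → ℝ, IntegrableOn a (Ioi 0) → IntegrableOn b (Ioi 0) →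
      IntegrableOn (fun T => a T + b T) (Ioi 0) ∧
        (∫ T in Ioi (0 : ℝ), (a T + b T)) = (∫ T in Ioi (0 : ℝ), a T) + ∫ T in Ioi (0 : ℝ), b T :=
    fun a b ha hb => ⟨ha.add hb, integral_add ha hb⟩
  obtain ⟨l2, w2⟩ := hI _ _ j1 j2
  obtain ⟨l3, w3⟩ := hI _ _ l2 j3
  obtain ⟨l4, w4⟩ := hI _ _ l3 j4
  obtain ⟨l6, w6⟩ := hI _ _ l4 j6
  obtain ⟨l0, w0⟩ := hI _ _ i1 i2
  rw [hLB]
  refine ⟨(hcell.add hcnu).sub ((((c1.add c2).add c3).add c4).add c6), l0.sub l6, ?_⟩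
  rw [integral_sub l0 l6, w0, w6, w4, w3, w2]
  have hV : 0 < semiMom (p + 2) 1 := by rw [semiMom_one]; exact mom_zero_pos _
  have hNpos : 0 < N := by linarith
  have b7 : -(∫ T in Ioi (0 : ℝ), nuFlat (p + 2) ε kap T * loD Y T) / semiMom (p + 2) 1 ≤
      117 / 1000 * (u * y) / N := by
    refine le_trans ?_ (nu_budgetM hN hu0 huy hkap (by linarith) he2)
    rw [div_le_iff₀ hV]
    rw [neg_mul] at v2
    exact neg_le.1 v2
  have hxe : Q - exp (-y) = (q - 1) / Y ^ (p + 2 + 1) := by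
    rw [hZ, hQ]; field_simp
  have key := SF.tot_mid hpar hN hQZ hQ1 hne
  rw [hEq, hxe] at key
  refine lt_of_le_of_lt ?_ (lt_sub_iff_add_lt'.2 key)
  rw [le_div_iff₀ hNpos]
  have b7' := (le_div_iff₀ hNpos).1 b7
  simp only [SF.lossB, SF.ngB, SF.ngBr, ← hue, show exp (-y) = 1 - u by rw [hue]; ring, sub_sub_cancel]
  have hy' : yOf (p + 2) Y = y := rfl
  rw [hy'] at b3 b6
  simp only [sub_div, add_div, neg_div] at b1 b2 b3 b4 b6 b7' ⊢
  linarith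

end Vale.Agent.P237.Cal
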