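import Vale.Agent.P237.Cal.LargeN
import Vale.Agent.P237.Cal.LBInt
import Vale.Agent.P237.Cal.LossTerms

/-!
# P237: the loss terms and the leaf for `n ≥ 128`

The weight of the square of the coefficient is `cPM z`; the negative part has one envelope for all
`y`; the leaf asks that the loss stays below the scalar itself, less the cost of the constant
field `U`.
-/

open MeasureTheory Set Real

namespace Vale.Agent.P237.Cal

/-- The weight of the square of the coefficient. -/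
noncomputable def cPM (z : ℝ) : ℝ := 19 / 50 + z / 200

/-- The weight of the tangent zone of `σ ≥ T`. -/
noncomputable def tanLossM (z : ℝ) : ℝ := 37 / 100 + z / 200

lemma cPM_pos {z : ℝ} (hz : 0 ≤ z) : 0 < cPM z := by unfold cPM; positivity

lemma tanLossM_le (z : ℝ) : tanLossM z ≤ cPM z := by unfold tanLossM cPM; linarith

/-- The `gG` part. -/
noncomputable def gTM (m : ℕ) (ε kap T : ℝ) : ℝ :=
  3 * (pre m T * cPM (((m : ℝ) + 2) * T ^ 2) * gG m ε kap T ^ 2)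

/-- The state part from above. -/
noncomputable def upTM (m : ℕ) (V Y c₀ c₁ T : ℝ) : ℝ :=
  3 / 2 * (pre m T * cPM (((m : ℝ) + 2) * T ^ 2) * stateUp m V Y c₀ c₁ T ^ 2)

/-- The envelope of the negative part. -/
noncomputable def ngTM (m : ℕ) (Y c₀ c₁ T : ℝ) : ℝ :=
  (1 - 9 / 20 * uOf m Y) ^ 2 * shUM m c₀ c₁ ^ 2 * (2 * (Y ^ 2 - 1)) *
    (383 / 1000 * envLo m Y 0 T - 81 / 1000 * envLo m Y 1 T + 1 / 125 * envLo m Y 2 T)

/-- The cost of a negative linear weight. -/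
noncomputable def lowTM (m : ℕ) (ε kap T : ℝ) : ℝ := lowT m ε kap T / 5

/-- The remainder of the tangent zone of `σ ≤ T`. -/
noncomputable def etaM (m : ℕ) (Y T : ℝ) : ℝ :=
  pre m T * (Y ^ 2 - 1) ^ 2 * (25 / 19 * T ^ 2) ^ 8

/-- The loss without the remainder `etaM`. -/
noncomputable def lossTM (m : ℕ) (V Y ε kap c₀ c₁ T : ℝ) : ℝ :=
  gTM m ε kap T + upTM m V Y c₀ c₁ T + ngTM m Y c₀ c₁ T + lowTM m ε kap T

/-- The lower bound of the pointwise form. -/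
noncomputable def midLB (m : ℕ) (q Y ε kap T : ℝ) : ℝ :=
  (ellFlat m ε kap (rr (m + 1)) T + nuFlat m ε kap T) * loD Y T -
    lossTM m (q * semiMom m 1) Y ε kap (LargeN.c0 m ε) (LargeN.c1 m ε) T - etaM m Y T

namespace MidN

variable {m : ℕ}

/-- The pointwise half. -/
def MidPw (m : ℕ) : Prop :=
  ∀ q Y Q ε kap : ℝ, 1 < q → 1 ≤ Y → Y ^ (m + 1) ≤ 2 * ((m : ℝ) + 2) → Q = q / Y ^ (m + 1) →
    Q ≤ rr (m + 1) ^ (m + 1) → hullTan m Y ≤ q * semiMom m 1 → q * semiMom m 1 ≤ capB m →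
    ε = 4 * q ^ (2 / ((m : ℝ) + 2)) / Y ^ 2 → 7 / 2 ≤ ε → ε ≤ 203 / 50 →
    kap = (1 - (Y ^ (m + 1))⁻¹) / 2 →
    ∀ T σ h X, RegC Y T σ h → XBox m (q * semiMom m 1) Y T σ X →
      Exc m (q * semiMom m 1) Y T σ → LargeN.Pw m ε kap (midLB m q Y ε kap) T σ h X

/-- The leaf: the loss stays below the scalar. -/
def Leaf (m : ℕ) : Prop :=
  ∀ q Y Q ε kap : ℝ, 1 < q → 1 ≤ Y → Y ^ (m + 1) ≤ 2 * ((m : ℝ) + 2) → Q = q / Y ^ (m + 1) →
    Q ≤ rr (m + 1) ^ (m + 1) → hullTan m Y ≤ q * semiMom m 1 → q * semiMom m 1 ≤ capB m →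
    ε = 4 * q ^ (2 / ((m : ℝ) + 2)) / Y ^ 2 → 7 / 2 ≤ ε → ε ≤ 203 / 50 →
    kap = (1 - (Y ^ (m + 1))⁻¹) / 2 →
    ∃ LB : ℝ → ℝ, Continuous LB ∧ IntegrableOn LB (Ioi 0) ∧
      (∀ T σ h X, RegC Y T σ h → XBox m (q * semiMom m 1) Y T σ X →
        Exc m (q * semiMom m 1) Y T σ → LargeN.Pw m ε kap LB T σ h X) ∧
      ((∫ T in Ioi (0 : ℝ), ellFlat m ε kap (rr (m + 1)) T * loD Y T) -
          ∫ T in Ioi (0 : ℝ), LB T) / semiMom m 1 <
        scalarLin m ε kap Q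
          ((∫ T in Ioi (0 : ℝ), ellFlat m ε kap (rr (m + 1)) T * loD Y T) / semiMom m 1) -
          22 / ((m : ℝ) + 2) * (Q - 1) ^ 2

/-- **`ProfileCal` from the leaf.** -/
theorem profileCal_of_leaf (hm : 98 ≤ m) (h : Leaf m) : ProfileCal m := by
  refine profileCal_of_coords (fun _ => 4) (fun _ _ => by norm_num)
    fun q Y ρ Q ε hq hcap hY _ hH2 hQ hQr hε hρ hwρ => ?_
  have hYk := Y_pow_le (by omega : 6 ≤ m) hY (by linarith) hcap hH2
  obtain ⟨⟨he1, he2⟩, -, -⟩ := scalar_flat_ge (kap := (1 - (Y ^ (m + 1))⁻¹) / 2) hm hY hYk hq.le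
    hQ hQr hε rfl
  obtain ⟨LB, hLBc, hLBi, hpw, hloss⟩ := h q Y Q ε ((1 - (Y ^ (m + 1))⁻¹) / 2) hq hY hYk hQ hQr
    hH2 (qV_le_capB hcap) hε he1 he2 rfl
  obtain ⟨tP, tS⟩ := shX_tendsto (c₀ := LargeN.c0 m ε) (c₁ := LargeN.c1 m ε) (by omega : 1 ≤ m)
  have hr : 0 < rr (m + 1) := div_pos (mom_zero_pos _) (mom_zero_pos _)
  have hV : 0 < semiMom m 1 := by rw [semiMom_one]; exact mom_zero_pos (m + 2)
  refine isCalY_of_field (Q := Q) (uinf := shU m (LargeN.c0 m ε) (LargeN.c1 m ε) 0) (by omega) hY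
    (by positivity) hwρ ?_ hLBc hLBi continuous_gFlat continuous_shP continuous_const continuous_shS
    (continuous_const : Continuous (shU m (LargeN.c0 m ε) (LargeN.c1 m ε)))
    (fun T _ => hasDerivAt_gFlat T)
    (fun T _ => hasDerivAt_shP T) (fun T _ => hasDerivAt_const T 0)
    (fun T _ => hasDerivAt_shS T) (fun T _ => hasDerivAt_const T _)
    (tendsto_gFlat (by omega)) tP (by simp [tendsto_const_nhds]) tS tendsto_const_nhds
    gFlat_zero.ge shP_zero.ge le_rfl hpw (by rw [hQ]; field_simp) ?_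
  · unfold muT
    exact div_nonneg (mul_nonneg (by positivity) (by linarith)) (by positivity)
  · have hU := mul_le_mul_of_nonneg_right
      (shU_le hm (by linarith : (0 : ℝ) ≤ ε) he2 (c₀ := LargeN.c0 m ε) (c₁ := LargeN.c1 m ε)
        rfl rfl 0) (sq_nonneg (Q - 1))
    rw [sub_div] at hloss
    simp only [scalarLin] at hloss
    linarith

end MidN

end Vale.Agent.P237.Cal
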