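import Vale.Agent.P237.Cal.Mid.Leaf
import Vale.Agent.P237.Cal.MinCert
import Vale.Agent.P237.Cal.LossInt
import Vale.Agent.P237.Cal.UpInt

/-!
# P237: the closed bounds of the loss integrals for `n ≥ 128`

Times `n / V₀`: `gTM ≤ (23/20) u²`, `upTM ≤ (11/50) x + (27/25) x²`, `lowTM ≤ u²/20`,
`etaM ≤ u y/100`, and `ngTM` is at most the polynomial in `u, y` used by `mid_budget`.
-/

open MeasureTheory Set Real

namespace Vale.Agent.P237.Cal.MidN

variable {m : ℕ} {q Y ε kap : ℝ}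

lemma cast_ge (hm : 126 ≤ m) : 128 ≤ (m : ℝ) + 2 := by
  have : (126 : ℝ) ≤ (m : ℝ) := by exact_mod_cast hm
  linarith

lemma u_bounds (hY : 1 ≤ Y) : 0 ≤ uOf m Y ∧ uOf m Y ≤ 1 := by
  have h1 : 1 ≤ Y ^ (m + 1) := one_le_pow₀ hY
  have h2 : (Y ^ (m + 1))⁻¹ ≤ 1 := inv_le_one_of_one_le₀ h1
  have h3 : 0 < (Y ^ (m + 1))⁻¹ := by positivity
  unfold uOf
  constructor <;> linarith

lemma exp_yOf (hY : 1 ≤ Y) : exp (yOf m Y) = Y ^ (m + 1) := by
  rw [yOf, show (m : ℝ) + 1 = ((m + 1 : ℕ) : ℝ) by push_cast; ring, exp_nat_mul,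
    exp_log (one_pos.trans_le hY)]

lemma yOf_nonneg (hY : 1 ≤ Y) : 0 ≤ yOf m Y := mul_nonneg (by positivity) (log_nonneg hY)

/-- `log Y ≤ 45/1000`. -/
lemma log_le_mid (hm : 126 ≤ m) (hY : 1 ≤ Y) (hYk : Y ^ (m + 1) ≤ 2 * ((m : ℝ) + 2)) :
    log Y ≤ 45 / 1000 := by
  have hn := cast_ge hm
  by_contra h
  push Not at h
  have h1 : exp (45 / 1000 * 127) * (45 / 1000 * ((m : ℝ) + 1 - 127) + 1) ≤
      2 * ((m : ℝ) + 2) := by
    refine (mul_le_mul_of_nonneg_left (add_one_le_exp _) (exp_pos _).le).trans ?_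
    rw [← exp_add]
    refine le_trans (exp_le_exp.2 ?_) ((exp_yOf (m := m) hY).le.trans hYk)
    have := mul_le_mul_of_nonneg_left h.le (show (0 : ℝ) ≤ (m : ℝ) + 1 by positivity)
    rw [yOf]
    linarith
  have h2 : 280 ≤ exp (45 / 1000 * 127) := by
    rw [show (45 : ℝ) / 1000 * 127 = ((5 : ℕ) : ℝ) * 1 + 715 / 1000 by norm_num, exp_add,
      exp_nat_mul]
    have a := pow_le_pow_left₀ (by norm_num) (exp_one_gt_d9.le) 5
    have b := quadratic_le_exp_of_nonneg (show (0 : ℝ) ≤ 715 / 1000 by norm_num)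
    refine le_trans ?_ (mul_le_mul a b (by norm_num) (by positivity))
    norm_num
  have h3 := mul_le_mul_of_nonneg_right h2
    (show 0 ≤ 45 / 1000 * ((m : ℝ) + 1 - 127) + 1 by linarith)
  linarith

/-- `n (Y² - 1) ≤ (212/100) y`. -/
lemma d_le_mid (hm : 126 ≤ m) (hY : 1 ≤ Y) (hYk : Y ^ (m + 1) ≤ 2 * ((m : ℝ) + 2)) :
    ((m : ℝ) + 2) * (Y ^ 2 - 1) ≤ 212 / 100 * yOf m Y := by
  have hn := cast_ge hm
  have h0 := log_nonneg hY
  have h1 := log_le_mid hm hY hYk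
  obtain ⟨-, -, -, -, h5⟩ := SF.exp_two_bounds h0 (by linarith)
  rw [two_mul, exp_add, exp_log (one_pos.trans_le hY)] at h5
  have h2 := mul_le_mul_of_nonneg_left h1 h0
  have hd : Y ^ 2 - 1 ≤ 20945 / 10000 * log Y := by linarith
  have h3 := mul_le_mul_of_nonneg_left hd (show (0 : ℝ) ≤ (m : ℝ) + 2 by positivity)
  have h4 := mul_nonneg (show (0 : ℝ) ≤ ((m : ℝ) + 1) * (212 / 100) -
    ((m : ℝ) + 2) * (20945 / 10000) by linarith) h0
  rw [yOf]
  linarith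

lemma UM_nonneg (he : 0 ≤ ε) : 0 ≤ shUM m (LargeN.c0 m ε) (LargeN.c1 m ε) := by
  unfold shUM LargeN.c0 LargeN.c1
  positivity

/-- `√n UM ≤ (4.2 - 4.8/(n+2)) ε`, squared against `n`: `n · 2 UM² ≤ (22332/5000) n`. -/
lemma UM_sq (hm : 126 ≤ m) (he0 : 7 / 2 ≤ ε) (he1 : ε ≤ 203 / 50) :
    shUM m (LargeN.c0 m ε) (LargeN.c1 m ε) ^ 2 ≤ 22332 / 10000 := by
  have hn := cast_ge hm
  have hU := UM_nonneg (m := m) (by linarith : 0 ≤ ε)
  set U := shUM m (LargeN.c0 m ε) (LargeN.c1 m ε) with hUdef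
  set v := √((m : ℝ) + 2) with hv
  have hv0 : 0 < v := by positivity
  have hv2 : v ^ 2 = (m : ℝ) + 2 := sq_sqrt (by positivity)
  have e : U * v = ε * (21 / 5 - 24 / 5 / (((m : ℝ) + 2) + 2)) := by
    rw [hUdef, shUM, LargeN.c0, LargeN.c1, ← hv, show (m : ℝ) + 2 + 2 = v ^ 2 + 2 by rw [hv2],
      show (m : ℝ) + 4 = v ^ 2 + 2 by rw [hv2]; ring]
    field_simp
    ring
  have hbr : 0 ≤ 21 / 5 - 24 / 5 / (((m : ℝ) + 2) + 2) := by
    rw [sub_nonneg, div_le_iff₀ (by positivity)]; linarith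
  have h1 : U * v ≤ 203 / 50 * (21 / 5 - 24 / 5 / (((m : ℝ) + 2) + 2)) := by
    rw [e]; exact mul_le_mul_of_nonneg_right he1 hbr
  have h2 := pow_le_pow_left₀ (mul_nonneg hU hv0.le) h1 2
  rw [mul_pow, hv2] at h2
  refine le_of_mul_le_mul_right ?_ (by linarith : (0 : ℝ) < (m : ℝ) + 2)
  refine h2.trans ?_
  rcases le_or_gt ((m : ℝ) + 2) 131 with h | h
  · have h3 : 24 / 5 / 133 ≤ 24 / 5 / (((m : ℝ) + 2) + 2) :=
      div_le_div_of_nonneg_left (by norm_num) (by positivity) (by linarith)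
    have h4 := pow_le_pow_left₀ (mul_nonneg (by norm_num : (0 : ℝ) ≤ 203 / 50) hbr)
      (mul_le_mul_of_nonneg_left (sub_le_sub_left h3 (21 / 5)) (by norm_num : (0 : ℝ) ≤ 203 / 50)) 2
    linarith
  · have h3 : (0 : ℝ) ≤ 24 / 5 / (((m : ℝ) + 2) + 2) := by positivity
    have h4 := pow_le_pow_left₀ (mul_nonneg (by norm_num : (0 : ℝ) ≤ 203 / 50) hbr)
      (mul_le_mul_of_nonneg_left (sub_le_self (21 / 5 : ℝ) h3) (by norm_num : (0 : ℝ) ≤ 203 / 50)) 2
    linarith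

/-- One step of the moments for `m ≥ 126`. -/
lemma preMom_succM (hm : 126 ≤ m) {j : ℕ} (hj : j ≤ 7) {r : ℝ}
    (hr : (m : ℝ) + 2 ≤ r * ((m : ℝ) - 1 - 2 * j)) :
    preMom m (j + 1) ≤ (2 * (j : ℝ) + 3) * r * preMom m j := by
  have hm' := cast_ge hm
  have hj' : (j : ℝ) ≤ 7 := by exact_mod_cast hj
  have h0 := preMom_mul (m := m) (j := j) (by omega)
  have h1 := preMom_mul (m := m) (j := j + 1) (by omega)
  rw [Finset.prod_range_succ, Finset.prod_range_succ (fun i : ℕ => 2 * (i : ℝ) + 1)] at h1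
  push_cast at h1
  have hD : 0 < ∏ i ∈ Finset.range (j + 1), ((m : ℝ) + 1 - 2 * i) :=
    Finset.prod_pos fun i hi => by
      have : (i : ℝ) ≤ 7 := by exact_mod_cast (Nat.lt_succ_iff.1 (Finset.mem_range.1 hi)).trans hj
      linarith
  have hk : 0 < (m : ℝ) - 1 - 2 * j := by linarith
  have key : ((m : ℝ) - 1 - 2 * j) * preMom m (j + 1) =
      (2 * (j : ℝ) + 3) * ((m : ℝ) + 2) * preMom m j := by
    refine mul_left_cancel₀ hD.ne' ?_
    linear_combination h1 - (2 * (j : ℝ) + 3) * ((m : ℝ) + 2) * h0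
  refine le_of_mul_le_mul_left ?_ hk
  rw [key]
  have := mul_le_mul_of_nonneg_left hr
    (mul_nonneg (show (0 : ℝ) ≤ 2 * (j : ℝ) + 3 by positivity) (preMom_nonneg (m := m) (j := j)))
  linarith

lemma preMom_leM (hm : 126 ≤ m) :
    preMom m 0 = semiMom m 1 ∧ preMom m 1 ≤ 3072 / 1000 * semiMom m 1 ∧
      preMom m 2 ≤ 160 / 10 * semiMom m 1 ∧ preMom m 3 ≤ 119 * semiMom m 1 ∧
      preMom m 8 ≤ 100000000 * semiMom m 1 := by
  have hm' := cast_ge hm
  have hV : 0 ≤ semiMom m 1 := by rw [semiMom_one]; exact mom_nonneg ..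
  have h0 : preMom m 0 = semiMom m 1 := by
    have h := preMom_mul (m := m) (j := 0) (by omega)
    simp at h
    exact h.resolve_right (by positivity : (0 : ℝ) < (m : ℝ) + 1).ne'
  have s1 := preMom_succM (j := 0) hm (by norm_num) (r := 128 / 125) (by push_cast; linarith)
  have s2 := preMom_succM (j := 1) hm (by norm_num) (r := 128 / 123) (by push_cast; linarith)
  have s3 := preMom_succM (j := 2) hm (by norm_num) (r := 128 / 121) (by push_cast; linarith)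
  have s4 := preMom_succM (j := 3) hm (by norm_num) (r := 128 / 119) (by push_cast; linarith)
  have s5 := preMom_succM (j := 4) hm (by norm_num) (r := 128 / 117) (by push_cast; linarith)
  have s6 := preMom_succM (j := 5) hm (by norm_num) (r := 128 / 115) (by push_cast; linarith)
  have s7 := preMom_succM (j := 6) hm (by norm_num) (r := 128 / 113) (by push_cast; linarith)
  have s8 := preMom_succM (j := 7) hm (by norm_num) (r := 128 / 111) (by push_cast; linarith)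
  simp only [show 0 + 1 = 1 from rfl, show 1 + 1 = 2 from rfl, show 2 + 1 = 3 from rfl,
    show 3 + 1 = 4 from rfl, show 4 + 1 = 5 from rfl, show 5 + 1 = 6 from rfl,
    show 6 + 1 = 7 from rfl, show 7 + 1 = 8 from rfl] at s1 s2 s3 s4 s5 s6 s7 s8
  push_cast at s1 s2 s3 s4 s5 s6 s7 s8
  refine ⟨h0, ?_, ?_, ?_, ?_⟩ <;> linarith

/-- **`gTM`.** -/
theorem integral_gTM (hm : 126 ≤ m) (hY : 1 ≤ Y) (he0 : 7 / 2 ≤ ε) (he1 : ε ≤ 203 / 50)
    (hkap : kap = (1 - (Y ^ (m + 1))⁻¹) / 2) :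
    Continuous (gTM m ε kap) ∧ IntegrableOn (gTM m ε kap) (Ioi 0) ∧
      ((m : ℝ) + 2) * ((∫ T in Ioi (0 : ℝ), gTM m ε kap T) / semiMom m 1) ≤
        23 / 20 * uOf m Y ^ 2 := by
  have h : ∀ T : ℝ, √(1 + T ^ 2) ^ (m + 4) ≠ 0 := fun T => (pow_pos (w_pos T) _).ne'
  refine ⟨by unfold gTM pre cPM gG; fun_prop (disch := exact h), ?_⟩
  have hn := cast_ge hm
  set C := 3 * (kap * (1 + ε) / ((m : ℝ) + 2)) ^ 2 with hC
  have ef : gTM m ε kap = fun T =>
      C * (855 / 1000 * (pre m T * (((m : ℝ) + 2) * T ^ 2) ^ 0) +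
        86625 / 100000 * (pre m T * (((m : ℝ) + 2) * T ^ 2) ^ 1) +
        225 / 1000 * (pre m T * (((m : ℝ) + 2) * T ^ 2) ^ 2) +
        28125 / 10000000 * (pre m T * (((m : ℝ) + 2) * T ^ 2) ^ 3)) := funext fun T => by
    simp only [gTM, cPM, gG, hC]
    ring
  have i0 := integrable_preMom (m := m) (j := 0) (by omega)
  have i1 := integrable_preMom (m := m) (j := 1) (by omega)
  have i2 := integrable_preMom (m := m) (j := 2) (by omega)
  have i3 := integrable_preMom (m := m) (j := 3) (by omega)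
  have a0 := i0.const_mul (855 / 1000 : ℝ)
  have a1 := i1.const_mul (86625 / 100000 : ℝ)
  have a2 := i2.const_mul (225 / 1000 : ℝ)
  have a3 := i3.const_mul (28125 / 10000000 : ℝ)
  have b1 := Integrable.fun_add a0 a1
  have b2 := Integrable.fun_add b1 a2
  have b3 := Integrable.fun_add b2 a3
  rw [ef]
  refine ⟨b3.const_mul C, ?_⟩
  rw [MeasureTheory.integral_const_mul, integral_add b2 a3, integral_add b1 a2,
    integral_add a0 a1, MeasureTheory.integral_const_mul, MeasureTheory.integral_const_mul,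
    MeasureTheory.integral_const_mul, MeasureTheory.integral_const_mul]
  have hj : ∀ j, (∫ T in Ioi (0 : ℝ), pre m T * (((m : ℝ) + 2) * T ^ 2) ^ j) = preMom m j :=
    fun _ => rfl
  simp only [hj]
  obtain ⟨h0, h1, h2, h3, -⟩ := preMom_leM hm
  have hV := semiMom_pos' m
  rw [mul_div_assoc', div_le_iff₀ hV]
  set V := semiMom m 1
  obtain ⟨hu0, -⟩ := u_bounds (m := m) hY
  have hC' : C * ((m : ℝ) + 2) ≤ 192027 / 10000 * uOf m Y ^ 2 / 128 := by
    have a : 0 ≤ kap * (1 + ε) ∧ kap * (1 + ε) ≤ 253 / 100 * uOf m Y := by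
      rw [hkap, ← uOf]
      have := mul_le_mul_of_nonneg_left he1 hu0
      exact ⟨mul_nonneg (by linarith) (by linarith), by linarith⟩
    rw [hC, show 3 * (kap * (1 + ε) / ((m : ℝ) + 2)) ^ 2 * ((m : ℝ) + 2) =
      3 * (kap * (1 + ε)) ^ 2 / ((m : ℝ) + 2) by field_simp]
    refine div_le_div₀ (by positivity) ?_ (by norm_num) hn
    linarith [pow_le_pow_left₀ a.1 a.2 2, sq_nonneg (uOf m Y)]
  have hs : 855 / 1000 * preMom m 0 + 86625 / 100000 * preMom m 1 + 225 / 1000 * preMom m 2 +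
      28125 / 10000000 * preMom m 3 ≤ 7452 / 1000 * V := by linarith
  have hs0 : 0 ≤ 855 / 1000 * preMom m 0 + 86625 / 100000 * preMom m 1 +
      225 / 1000 * preMom m 2 + 28125 / 10000000 * preMom m 3 := by
    linarith [preMom_nonneg (m := m) (j := 0), preMom_nonneg (m := m) (j := 1),
      preMom_nonneg (m := m) (j := 2), preMom_nonneg (m := m) (j := 3)]
  have := mul_le_mul hC' hs hs0 (by positivity)
  linarith [mul_nonneg (sq_nonneg (uOf m Y)) hV.le]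

/-- **`lowTM`.** -/
theorem integral_lowTM (hm : 126 ≤ m) (hY : 1 ≤ Y) (he0 : 7 / 2 ≤ ε) (he1 : ε ≤ 203 / 50)
    (hkap : kap = (1 - (Y ^ (m + 1))⁻¹) / 2) :
    Continuous (lowTM m ε kap) ∧ IntegrableOn (lowTM m ε kap) (Ioi 0) ∧
      ((m : ℝ) + 2) * ((∫ T in Ioi (0 : ℝ), lowTM m ε kap T) / semiMom m 1) ≤
        1 / 20 * uOf m Y ^ 2 := by
  have h : ∀ T : ℝ, √(1 + T ^ 2) ^ (m + 4) ≠ 0 := fun T => (pow_pos (w_pos T) _).ne'
  refine ⟨by unfold lowTM lowT; fun_prop (disch := exact h), ?_⟩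
  have hn := cast_ge hm
  obtain ⟨hu0, -⟩ := u_bounds (m := m) hY
  have hi : IntegrableOn (fun T : ℝ => 1 / √(1 + T ^ 2) ^ (m + 4)) (Ioi 0) := by
    simpa using mom_integrable (a := 0) (m := m + 4) (by omega)
  refine ⟨(hi.const_mul _).div_const 5, ?_⟩
  unfold lowTM lowT
  rw [integral_div, MeasureTheory.integral_const_mul,
    show (∫ T in Ioi (0 : ℝ), 1 / √(1 + T ^ 2) ^ (m + 4)) = semiMom m 1 by simp [semiMom_one, mom],
    div_div, mul_comm (5 : ℝ), ← div_div, mul_div_cancel_right₀ _ (semiMom_pos' m).ne']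
  have he : 0 < ε := by linarith
  set N := (m : ℝ) + 2 with hN
  have hA : 25 / (4 * ε) * (kap * (1 + ε)) ^ 2 ≤ 9859 / 1000 * uOf m Y ^ 2 := by
    have a : (1 + ε) ^ 2 / ε ≤ 6307 / 1000 := by
      rw [div_le_iff₀ he]
      linarith [mul_nonneg (sub_nonneg.2 he0) (sub_nonneg.2 he1), he1]
    rw [hkap, ← uOf, show 25 / (4 * ε) * (uOf m Y / 2 * (1 + ε)) ^ 2 =
      25 / 16 * uOf m Y ^ 2 * ((1 + ε) ^ 2 / ε) by field_simp; ring]
    refine (mul_le_mul_of_nonneg_left a (show 0 ≤ 25 / 16 * uOf m Y ^ 2 by positivity)).trans ?_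
    linarith [sq_nonneg (uOf m Y)]
  have hB : N * (404 * ((m : ℝ) + 1) / N ^ 4) ≤ 404 / 128 ^ 2 := by
    rw [mul_div_assoc', div_le_div_iff₀ (by positivity) (by norm_num)]
    have h1 := mul_le_mul hn hn (by norm_num) (by linarith)
    have h2 := mul_le_mul_of_nonneg_left h1 (show 0 ≤ 404 * N * N by positivity)
    have h3 : 0 ≤ 404 * N * (128 : ℝ) ^ 2 := by positivity
    linarith
  have := mul_le_mul hA hB (by positivity) (by positivity)
  refine le_trans (le_of_eq ?_) ((div_le_div_of_nonneg_right this (by norm_num : (0 : ℝ) ≤ 5)).trans ?_)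
  · ring
  · linarith [sq_nonneg (uOf m Y)]

/-- `yw ≤ u` and `y² w ≤ 2 u`. -/
lemma y_w_le (hY : 1 ≤ Y) :
    yOf m Y * (1 - uOf m Y) ≤ uOf m Y ∧ yOf m Y ^ 2 * (1 - uOf m Y) ≤ 2 * uOf m Y := by
  have hy0 := yOf_nonneg (m := m) hY
  obtain ⟨hu0, hu1⟩ := u_bounds (m := m) hY
  have hey : exp (yOf m Y) * (1 - uOf m Y) = 1 := by
    rw [exp_yOf hY, uOf, sub_sub_cancel, mul_inv_cancel₀]
    positivity
  have h2 := quadratic_le_exp_of_nonneg hy0
  have h3 := mul_le_mul_of_nonneg_right h2 (sub_nonneg.2 hu1)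
  rw [hey] at h3
  have h4 := mul_nonneg hy0 (sub_nonneg.2 hu1)
  have h5 := mul_nonneg (sq_nonneg (yOf m Y)) (sub_nonneg.2 hu1)
  constructor <;> linarith

/-- **`etaM`.** -/
theorem integral_etaM (hm : 126 ≤ m) (hY : 1 ≤ Y) (hYk : Y ^ (m + 1) ≤ 2 * ((m : ℝ) + 2)) :
    Continuous (etaM m Y) ∧ IntegrableOn (etaM m Y) (Ioi 0) ∧
      ((m : ℝ) + 2) * ((∫ T in Ioi (0 : ℝ), etaM m Y T) / semiMom m 1) ≤
        1 / 100 * uOf m Y * yOf m Y := by
  have h : ∀ T : ℝ, √(1 + T ^ 2) ^ (m + 4) ≠ 0 := fun T => (pow_pos (w_pos T) _).ne'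
  refine ⟨by unfold etaM pre; fun_prop (disch := exact h), ?_⟩
  have hn := cast_ge hm
  set N := (m : ℝ) + 2 with hN
  have hN0 : 0 < N := by linarith
  have ef : etaM m Y = fun T =>
      (Y ^ 2 - 1) ^ 2 * (25 / 19) ^ 8 / N ^ 8 * (pre m T * (N * T ^ 2) ^ 8) := funext fun T => by
    simp only [etaM]
    field_simp
  rw [ef]
  refine ⟨(integrable_preMom (j := 8) (by omega)).const_mul _, ?_⟩
  rw [MeasureTheory.integral_const_mul]
  have hj : (∫ T in Ioi (0 : ℝ), pre m T * (N * T ^ 2) ^ 8) = preMom m 8 := rfl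
  rw [hj]
  obtain ⟨-, -, -, -, h8⟩ := preMom_leM hm
  have hV := semiMom_pos' m
  rw [mul_div_assoc', div_le_iff₀ hV]
  set V := semiMom m 1
  have hd0 : 0 ≤ Y ^ 2 - 1 := by linarith [one_le_pow₀ (n := 2) hY]
  have hd := d_le_mid hm hY hYk
  have hy0 := yOf_nonneg (m := m) hY
  obtain ⟨hu0, hu1⟩ := u_bounds (m := m) hY
  obtain ⟨hyw, -⟩ := y_w_le (m := m) hY
  have hy2 : yOf m Y ≤ (1 + yOf m Y) * uOf m Y := by linarith
  have hyN : yOf m Y ≤ N := by
    have h1 := log_le_mid hm hY hYk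
    have := mul_le_mul_of_nonneg_left h1 (show (0 : ℝ) ≤ (m : ℝ) + 1 by positivity)
    rw [yOf, hN]
    linarith [log_nonneg hY]
  set d := Y ^ 2 - 1
  set y := yOf m Y
  set u := uOf m Y
  have e : N * (d ^ 2 * (25 / 19) ^ 8 / N ^ 8 * preMom m 8) =
      (25 / 19) ^ 8 * ((N * d) ^ 2 * preMom m 8) / N ^ 9 := by field_simp
  rw [e, div_le_iff₀ (pow_pos hN0 _)]
  have a := mul_le_mul (pow_le_pow_left₀ (mul_nonneg hN0.le hd0) hd 2) h8 preMom_nonneg
    (sq_nonneg _)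
  have b : y ^ 2 ≤ 2 * N * (u * y) := by
    have h1 := mul_le_mul_of_nonneg_left hy2 hy0
    have h2 := mul_le_mul_of_nonneg_left (show 1 + y ≤ 2 * N by linarith) (mul_nonneg hu0 hy0)
    linarith
  have c := pow_le_pow_left₀ (by norm_num) hn 8
  have k1 := mul_le_mul_of_nonneg_left a (show (0 : ℝ) ≤ (25 / 19) ^ 8 by positivity)
  refine k1.trans ?_
  have k2 := mul_le_mul_of_nonneg_left b
    (show (0 : ℝ) ≤ (25 / 19) ^ 8 * (212 / 100) ^ 2 * 100000000 * V by positivity)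
  have k3 := mul_le_mul_of_nonneg_left c
    (show 0 ≤ 1 / 100 * u * y * N * V by positivity)
  have k4 : 0 ≤ u * y * N * V := by positivity
  norm_num at k2 k3 ⊢
  linarith

/-- **`ngTM`.** -/
theorem integral_ngTM (hm : 126 ≤ m) (hY : 1 ≤ Y) (hYk : Y ^ (m + 1) ≤ 2 * ((m : ℝ) + 2))
    (he0 : 7 / 2 ≤ ε) (he1 : ε ≤ 203 / 50) :
    Continuous (ngTM m Y (LargeN.c0 m ε) (LargeN.c1 m ε)) ∧
      IntegrableOn (ngTM m Y (LargeN.c0 m ε) (LargeN.c1 m ε)) (Ioi 0) ∧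
      ((m : ℝ) + 2) * ((∫ T in Ioi (0 : ℝ), ngTM m Y (LargeN.c0 m ε) (LargeN.c1 m ε) T) /
        semiMom m 1) ≤
        (1 - 9 / 20 * uOf m Y) ^ 2 * (yOf m Y * (369 / 100 * uOf m Y -
          78 / 100 * (3 * uOf m Y - 22 / 10 * yOf m Y * (1 - uOf m Y)) +
          802 / 10000 * (15 * uOf m Y -
            (12 * yOf m Y + 399 / 100 * yOf m Y ^ 2) * (1 - uOf m Y)))) := by
  have hd := d_le_mid hm hY hYk
  have hU := UM_sq hm he0 he1
  have hUM := UM_nonneg (m := m) (by linarith : 0 ≤ ε)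
  obtain ⟨hyw, hyyw⟩ := y_w_le (m := m) hY
  obtain ⟨hu0, hu1⟩ := u_bounds (m := m) hY
  have hy0 := yOf_nonneg (m := m) hY
  have hn := cast_ge hm
  obtain ⟨p, rfl⟩ : ∃ p, m = p + 4 := ⟨m - 4, by omega⟩
  have h : ∀ T : ℝ, √(1 + T ^ 2) ^ (p + 4 + 4) ≠ 0 := fun T => (pow_pos (w_pos T) _).ne'
  refine ⟨by unfold ngTM envLo muX loD; fun_prop (disch := exact h), ?_⟩
  obtain ⟨⟨j0, j1, j2⟩, -⟩ := integral_envLo (p := p) (Y := Y) hY
  obtain ⟨b0, -, b2⟩ := envLo_bounds (p := p) (by omega) hY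
  have b1 := envLo_one (p := p) hY
  have a0 := j0.const_mul (383 / 1000 : ℝ)
  have a1 := j1.const_mul (81 / 1000 : ℝ)
  have a2 := j2.const_mul (1 / 125 : ℝ)
  have a01 : IntegrableOn
      (fun T => 383 / 1000 * envLo (p + 4) Y 0 T - 81 / 1000 * envLo (p + 4) Y 1 T) (Ioi 0) :=
    a0.sub a1
  have a012 : IntegrableOn (fun T => 383 / 1000 * envLo (p + 4) Y 0 T -
      81 / 1000 * envLo (p + 4) Y 1 T + 1 / 125 * envLo (p + 4) Y 2 T) (Ioi 0) := a01.add a2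
  refine ⟨a012.const_mul _, ?_⟩
  set c₀ := LargeN.c0 (p + 4) ε
  set c₁ := LargeN.c1 (p + 4) ε
  unfold ngTM
  rw [MeasureTheory.integral_const_mul, integral_add a01 a2, integral_sub a0 a1,
    MeasureTheory.integral_const_mul, MeasureTheory.integral_const_mul,
    MeasureTheory.integral_const_mul, mul_div_assoc, add_div, sub_div, mul_div_assoc,
    mul_div_assoc, mul_div_assoc, b0, b1]
  generalize (∫ T in Ioi (0 : ℝ), envLo (p + 4) Y 2 T) / semiMom (p + 4) 1 = E2 at b2 ⊢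
  simp only [uOf, yOf, show p + 4 + 1 = p + 5 from rfl] at hu0 hu1 hyw hyyw hy0 hd ⊢
  push_cast at hyw hyyw hy0 hd hn ⊢
  rw [show (p : ℝ) + 4 + 1 = (p : ℝ) + 5 by ring] at hyw hyyw hy0 hd ⊢
  rw [show (p : ℝ) + 4 + 2 = (p : ℝ) + 6 by ring] at hd hn ⊢
  set N := (p : ℝ) + 6 with hN
  set d := Y ^ 2 - 1 with hddef
  set y := ((p : ℝ) + 5) * log Y
  set w := (Y ^ (p + 5))⁻¹
  rw [sub_sub_cancel] at hyw hyyw ⊢
  set u := 1 - w with hu
  have hw0 : 0 ≤ w := by linarith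
  have hd0 : 0 ≤ d := by rw [hddef]; linarith [one_le_pow₀ (n := 2) hY]
  have hr1 : 1 ≤ N / ((p : ℝ) + 3) := by rw [one_le_div (by positivity)]; linarith
  have hdw : N * d * w ≤ 212 / 100 * (y * w) := by
    have := mul_le_mul_of_nonneg_right hd hw0; linarith
  have hB1 : 3 * u - 212 / 100 * (y * w) ≤ N / ((p : ℝ) + 3) * (3 * u - N * d * w) :=
    le_trans (by linarith) (le_mul_of_one_le_left (by linarith) hr1)
  have hyw0 : 0 ≤ y * w := mul_nonneg hy0 hw0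
  have hyyw0 : 0 ≤ y ^ 2 * w := mul_nonneg (sq_nonneg y) hw0
  have hA2 : 0 ≤ 15 * u - (12 * y + 399 / 100 * y ^ 2) * w := by
    -- `y w + y² w/2 ≤ u`
    have hey : exp y * w = 1 := by
      have e := exp_yOf (m := p + 4) hY
      simp only [yOf] at e
      push_cast at e
      rw [show (p : ℝ) + 4 + 1 = (p : ℝ) + 5 by ring, show p + 4 + 1 = p + 5 from rfl] at e
      rw [show exp y = Y ^ (p + 5) from e]
      exact mul_inv_cancel₀ (pow_ne_zero _ (by linarith))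
    have h3 := mul_le_mul_of_nonneg_right (quadratic_le_exp_of_nonneg hy0) hw0
    rw [hey] at h3
    linarith
  have hr2 : N ^ 2 / (((p : ℝ) + 3) * ((p : ℝ) + 1)) ≤ 1065627 / 1000000 := by
    have hp : 0 ≤ (p : ℝ) - 122 := by linarith
    have := mul_nonneg hp (by linarith : (0 : ℝ) ≤ (p : ℝ))
    rw [div_le_iff₀ (by positivity), hN]
    linarith
  have hE : E2 ≤ 1065627 / 1000000 * (15 * u - (12 * y + 399 / 100 * y ^ 2) * w) :=
    b2.trans (mul_le_mul_of_nonneg_right hr2 hA2)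
  set A2 := 15 * u - (12 * y + 399 / 100 * y ^ 2) * w with hA2def
  set B := 383 / 1000 * u - 81 / 1000 * (3 * u - 212 / 100 * (y * w)) +
    1 / 125 * (1065627 / 1000000 * A2) with hB
  have hB0 : 0 ≤ B := by rw [hB, hA2def]; linarith
  have hbr : 383 / 1000 * u - 81 / 1000 * (N / ((p : ℝ) + 3) * (3 * u - N * d * w)) +
      1 / 125 * E2 ≤ B := by rw [hB]; linarith
  have hX : shUM (p + 4) c₀ c₁ ^ 2 * (2 * d) * N ≤ 9469 / 1000 * y := by
    have h1 := mul_le_mul hU hd (mul_nonneg (by linarith) hd0) (by norm_num)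
    linarith
  have hK : 0 ≤ shUM (p + 4) c₀ c₁ ^ 2 * (2 * d) * N :=
    mul_nonneg (mul_nonneg (sq_nonneg _) (by linarith)) (by linarith)
  have hθ : 0 ≤ (1 - 9 / 20 * u) ^ 2 := sq_nonneg _
  have hfin : 9469 / 1000 * B ≤ 369 / 100 * u - 78 / 100 * (3 * u - 22 / 10 * y * w) +
      802 / 10000 * A2 := by
    rw [hB, hA2def]; linarith
  have k1 := mul_le_mul_of_nonneg_left hbr (mul_nonneg hθ hK)
  have k2 := mul_le_mul_of_nonneg_left (mul_le_mul_of_nonneg_right hX hB0) hθ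
  have k3 := mul_le_mul_of_nonneg_left (mul_le_mul_of_nonneg_left hfin hy0) hθ
  linarith

/-- **`upTM`.** -/
theorem integral_upTM (hm : 126 ≤ m) (hY : 1 ≤ Y) (hq : 1 ≤ q)
    (hx : (q - 1) / Y ^ (m + 1) ≤ 83 / 50) (he0 : 7 / 2 ≤ ε) (he1 : ε ≤ 203 / 50) :
    Continuous (upTM m (q * semiMom m 1) Y (LargeN.c0 m ε) (LargeN.c1 m ε)) ∧
      IntegrableOn (upTM m (q * semiMom m 1) Y (LargeN.c0 m ε) (LargeN.c1 m ε)) (Ioi 0) ∧
      ((m : ℝ) + 2) * ((∫ T in Ioi (0 : ℝ),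
        upTM m (q * semiMom m 1) Y (LargeN.c0 m ε) (LargeN.c1 m ε) T) / semiMom m 1) ≤
        11 / 50 * ((q - 1) / Y ^ (m + 1)) + 27 / 25 * ((q - 1) / Y ^ (m + 1)) ^ 2 := by
  have hV := semiMom_pos' m
  have hn := cast_ge hm
  have hY0 : 0 < Y := by linarith
  have hVq : semiMom m 1 ≤ q * semiMom m 1 := le_mul_of_one_le_left hV.le hq
  set x := (q - 1) / Y ^ (m + 1) with hxdef
  have hx0 : 0 ≤ x := div_nonneg (by linarith) (pow_nonneg hY0.le _)
  set A := 2 * (x * semiMom m 1) / ((m : ℝ) + 1) with hA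
  set UM := shUM m (LargeN.c0 m ε) (LargeN.c1 m ε) with hUM
  obtain ⟨i0, h0⟩ := minUp_sq0 (m := m) (by omega) hx0 hx hA (by norm_num) (by norm_num) cert0
  obtain ⟨i1, h1⟩ := minUp_sq1 (m := m) (by omega) hx0 hx hA (by norm_num) (by norm_num) cert1
  set f0 := fun T : ℝ => pre m T * (1 + T ^ 2) ^ 2 * min (T / 3) (A / T ^ 2) ^ 2 with hf0
  set f1 := fun T : ℝ => pre m T * (1 + T ^ 2) ^ 2 * (((m : ℝ) + 2) * T ^ 2) *
    min (T / 3) (A / T ^ 2) ^ 2 with hf1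
  have hB : 0 ≤ 2 * ((q * semiMom m 1 - semiMom m 1) / Y ^ (m + 1)) / ((m : ℝ) + 1) :=
    div_nonneg (mul_nonneg (by norm_num) (div_nonneg (sub_nonneg.2 hVq) (pow_nonneg hY0.le _)))
      (by positivity)
  have hc : Continuous (upTM m (q * semiMom m 1) Y (LargeN.c0 m ε) (LargeN.c1 m ε)) := by
    have hM := continuous_minUp hB
    have hp : Continuous (pre m) := by
      unfold pre
      exact Continuous.div (by fun_prop) (by fun_prop) fun T => pow_ne_zero _ (w_pos T).ne'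
    have hcp : Continuous fun T : ℝ => cPM (((m : ℝ) + 2) * T ^ 2) := by unfold cPM; fun_prop
    have hs : Continuous (stateUp m (q * semiMom m 1) Y (LargeN.c0 m ε) (LargeN.c1 m ε)) := by
      refine ((Continuous.mul (by fun_prop) hM) : Continuous fun T : ℝ =>
        UM * (1 + T ^ 2) * min (T / 3) (2 * ((q * semiMom m 1 - semiMom m 1) / Y ^ (m + 1)) /
          ((m : ℝ) + 1) / T ^ 2)).congr fun T => ?_
      simp only [stateUp, div_div, Pi.mul_apply, ← hUM]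
    exact ((hp.mul hcp).mul (hs.pow 2)).const_mul _
  have ef : ∀ T : ℝ, upTM m (q * semiMom m 1) Y (LargeN.c0 m ε) (LargeN.c1 m ε) T =
      3 / 2 * UM ^ 2 * (19 / 50) * f0 T + 3 / 2 * UM ^ 2 * (1 / 200) * f1 T := fun T => by
    have e : 2 * ((q * semiMom m 1 - semiMom m 1) / Y ^ (m + 1)) / (((m : ℝ) + 1) * T ^ 2) =
        A / T ^ 2 := by
      rw [hA, hxdef, ← div_div]
      congr 2
      ring
    simp only [upTM, cPM, stateUp, e, ← hUM, hf0, hf1]
    ring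
  have j0 := i0.const_mul (3 / 2 * UM ^ 2 * (19 / 50))
  have j1 := i1.const_mul (3 / 2 * UM ^ 2 * (1 / 200))
  rw [funext ef]
  refine ⟨(funext ef) ▸ hc, Integrable.fun_add j0 j1, ?_⟩
  rw [integral_add j0 j1, MeasureTheory.integral_const_mul, MeasureTheory.integral_const_mul]
  have hU := UM_sq hm he0 he1
  rw [← hUM] at hU
  set J0 := (∫ T in Ioi (0 : ℝ), f0 T) with hJ0
  set J1 := (∫ T in Ioi (0 : ℝ), f1 T) with hJ1
  have p0 : 0 ≤ J0 := setIntegral_nonneg measurableSet_Ioi fun T _ => by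
    simp only [hf0]; unfold pre; positivity
  have p1 : 0 ≤ J1 := setIntegral_nonneg measurableSet_Ioi fun T _ => by
    simp only [hf1]; unfold pre; positivity
  have e : ((m : ℝ) + 2) * ((3 / 2 * UM ^ 2 * (19 / 50) * J0 + 3 / 2 * UM ^ 2 * (1 / 200) * J1) /
      semiMom m 1) = 3 / 2 * UM ^ 2 * (19 / 50 * (((m : ℝ) + 2) * (J0 / semiMom m 1)) +
        1 / 200 * (((m : ℝ) + 2) * (J1 / semiMom m 1))) := by ring
  rw [e]
  have hs : 19 / 50 * (((m : ℝ) + 2) * (J0 / semiMom m 1)) +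
      1 / 200 * (((m : ℝ) + 2) * (J1 / semiMom m 1)) ≤
      64257 / 1000000 * x + 3065 / 10000 * x ^ 2 := by linarith
  have hs0 : 0 ≤ 19 / 50 * (((m : ℝ) + 2) * (J0 / semiMom m 1)) +
      1 / 200 * (((m : ℝ) + 2) * (J1 / semiMom m 1)) := by positivity
  refine (mul_le_mul (mul_le_mul_of_nonneg_left hU (by norm_num)) hs hs0 (by norm_num)).trans ?_
  linarith [sq_nonneg x]

/-- **All five.** -/
theorem midInt (hm : 126 ≤ m) : MidInt m := by
  intro q Y Q ε kap hq hY hYk hQ hQr _ he0 he1 hkap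
  have hx : (q - 1) / Y ^ (m + 1) ≤ 83 / 50 := by
    refine le_trans ?_ (hQr.trans (rr_pow_le m))
    rw [hQ]
    exact div_le_div_of_nonneg_right (by linarith) (pow_nonneg (by linarith) _)
  exact ⟨integral_gTM hm hY he0 he1 hkap, integral_upTM hm hY hq.le hx he0 he1,
    integral_ngTM hm hY hYk he0 he1, integral_lowTM hm hY he0 he1 hkap,
    integral_etaM hm hY hYk⟩

end Vale.Agent.P237.Cal.MidN
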