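import Vale.Agent.P237.Cal.NegSplit
import Vale.Agent.P237.Cal.PosTan

/-!
# P237: slope elimination with the larger denominator `min (3 A + B) (A + 3 B)`

`2 √(A B) - (A + B) = -(B - A)²/(√A + √B)²` and `(√A + √B)² ≥ A + B + 2 min A B`, so the price of the
slope has the denominator `min (3 A + B) (A + 3 B)` in place of `A + B`. The lemmas of `NegX`,
`NegSplit`, `PosTan` and `PosVertex` are restated with it.
-/

open Real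

namespace Vale.Agent.P237.Cal

/-- `2 √(A B) - (A + B) ≥ -(B - A)²/N` for `N ≤ min (3 A + B) (A + 3 B)`. -/
lemma two_sqrt_sub_geN {A B N : ℝ} (hA : 0 ≤ A) (hB : 0 ≤ B) (hN0 : 0 < N)
    (hNA : N ≤ 3 * A + B) (hNB : N ≤ A + 3 * B) :
    -((B - A) ^ 2 / N) ≤ 2 * √(A * B) - (A + B) := by
  rw [neg_le, le_div_iff₀ hN0, sqrt_mul hA]
  have ha := sq_sqrt hA
  have hb := sq_sqrt hB
  have hu := sqrt_nonneg A
  have hv := sqrt_nonneg B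
  generalize √A = u at ha hu ⊢
  generalize √B = v at hb hv ⊢
  subst ha hb
  have hN : N ≤ (u + v) ^ 2 := by
    rcases le_total u v with h | h
    · nlinarith [mul_nonneg hu (sub_nonneg.2 h)]
    · nlinarith [mul_nonneg hv (sub_nonneg.2 h)]
  nlinarith [mul_le_mul_of_nonneg_left hN (sq_nonneg (u - v))]

/-- **Slope elimination, larger denominator.** -/
theorem valQ_sharpN {T σ h ε G N : ℝ} (hh : 0 < h) (hA : 0 ≤ 1 - ε * σ ^ 2)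
    (hB : 0 ≤ 1 - ε * T ^ 2 + G) (hN0 : 0 < N)
    (hNA : N ≤ 3 * (1 - ε * σ ^ 2) + (1 - ε * T ^ 2 + G))
    (hNB : N ≤ (1 - ε * σ ^ 2) + 3 * (1 - ε * T ^ 2 + G)) :
    -(ε * (σ - T) ^ 2) - (ε * (σ - T) * (σ + T) + G) ^ 2 / N ≤
      valQ ε T σ h + G * (h - 1) := by
  have e : valQ ε T σ h + G * (h - 1) = (1 - ε * σ ^ 2) / h + (1 - ε * T ^ 2 + G) * h -
      ((1 - ε * σ ^ 2) + (1 - ε * T ^ 2 + G)) - ε * (σ - T) ^ 2 := by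
    unfold valQ; ring
  rw [e, show ε * (σ - T) * (σ + T) + G = (1 - ε * T ^ 2 + G) - (1 - ε * σ ^ 2) by ring]
  have h1 := two_sqrt_mul_le hA hB hh
  have h2 := two_sqrt_sub_geN hA hB hN0 hNA hNB
  linarith

/-- **The split with the larger denominator.** -/
theorem valQ_ge_splitN {T σ h ε p G₂ M N κ : ℝ} (hh : 0 < h) (hκ : 1 < κ)
    (hA : 0 ≤ 1 - ε * σ ^ 2) (hB : 0 ≤ 1 - ε * T ^ 2 + (2 * p * (σ - T) + G₂))
    (hN0 : 0 < N)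
    (hNA : N ≤ 3 * (1 - ε * σ ^ 2) + (1 - ε * T ^ 2 + (2 * p * (σ - T) + G₂)))
    (hNB : N ≤ (1 - ε * σ ^ 2) + 3 * (1 - ε * T ^ 2 + (2 * p * (σ - T) + G₂)))
    (hM : |ε * (σ + T) + 2 * p| ≤ M) :
    -((ε + κ * M ^ 2 / N) * (σ - T) ^ 2) - κ / (κ - 1) * G₂ ^ 2 / N ≤
      valQ ε T σ h + (2 * p * (σ - T) + G₂) * (h - 1) := by
  refine le_trans ?_ (valQ_sharpN hh hA hB hN0 hNA hNB)
  have h1 : (ε * (σ - T) * (σ + T) + (2 * p * (σ - T) + G₂)) ^ 2 ≤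
      κ * M ^ 2 * (σ - T) ^ 2 + κ / (κ - 1) * G₂ ^ 2 := by
    rw [show ε * (σ - T) * (σ + T) + (2 * p * (σ - T) + G₂) =
      (ε * (σ + T) + 2 * p) * (σ - T) + G₂ by ring]
    refine (add_sq_le_split hκ).trans (add_le_add_left ?_ _)
    rw [mul_pow, mul_assoc]
    refine mul_le_mul_of_nonneg_left (mul_le_mul_of_nonneg_right ?_ (sq_nonneg _)) (by linarith)
    exact sq_le_sq' (abs_le.1 hM).1 (abs_le.1 hM).2
  have h2 := div_le_div_of_nonneg_right h1 hN0.le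
  have e : (κ * M ^ 2 * (σ - T) ^ 2 + κ / (κ - 1) * G₂ ^ 2) / N =
      κ * M ^ 2 / N * (σ - T) ^ 2 + κ / (κ - 1) * G₂ ^ 2 / N := by
    field_simp
  linarith

/-- **Zone `ε T² ≤ θ` of the side `σ ≤ T`, one-sided.** -/
theorem negX_zoneN {π' l ν C R ε T σ h p G₂ κ Pl Ph gl M N lo : ℝ}
    (hπ : 0 ≤ π') (hh : 0 < h) (hε : 0 ≤ ε) (hκ : 1 < κ) (hσ0 : 0 ≤ σ) (hσ : σ ≤ T)
    (hlo : lo ≤ σ - T) (_hθ : ε * T ^ 2 ≤ 1) (hp1 : p ≤ -Pl) (hPl : 0 ≤ Pl) (hp2 : -Ph ≤ p)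
    (hg : -gl ≤ G₂) (hM1 : 2 * ε * T - 2 * Pl ≤ M) (hM2 : 2 * Ph - ε * T ≤ M) (hN0 : 0 < N)
    (hN : N ≤ 4 - 4 * (ε * T ^ 2) - 3 * gl) (hgl : 0 ≤ gl) (hB : ε * T ^ 2 + gl ≤ 1) (hν : 0 ≤ ν) (hl : 0 ≤ l + ν)
    (hR : 0 ≤ R) (hC : π' * (ε + κ * M ^ 2 / N) ≤ C + R) :
    ∃ L, L ≤ valQ ε T σ h + (2 * p * (σ - T) + G₂) * (h - 1) ∧
      -(π' * (κ / (κ - 1) * G₂ ^ 2 / N)) - R * lo ^ 2 + lo * (l + ν) ≤
        π' * L + (σ - T) * l + (σ - T) ^ 2 * C := by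
  have hD : σ - T ≤ 0 := sub_nonpos.2 hσ
  have hpD : 0 ≤ 2 * p * (σ - T) := mul_nonneg_of_nonpos_of_nonpos (by linarith) hD
  have hσ2 : ε * σ ^ 2 ≤ ε * T ^ 2 :=
    mul_le_mul_of_nonneg_left (pow_le_pow_left₀ hσ0 hσ 2) hε
  have hM : |ε * (σ + T) + 2 * p| ≤ M := by
    rw [abs_le]
    have h1 := mul_le_mul_of_nonneg_left hσ hε
    have h2 : 0 ≤ ε * σ := mul_nonneg hε hσ0
    constructor <;> linarith
  have hL := valQ_ge_splitN (T := T) (σ := σ) (p := p) (G₂ := G₂) (M := M) (N := N) (κ := κ) hh hκ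
    (by linarith : (0 : ℝ) ≤ 1 - ε * σ ^ 2) (by linarith) hN0 (by linarith) (by linarith) hM
  refine ⟨_, hL, ?_⟩
  have hq := deficit_sq_le hlo hD hC hR
  have hlin : lo * (l + ν) ≤ (σ - T) * l := by
    nlinarith [mul_le_mul_of_nonneg_right hlo hl, mul_nonpos_of_nonpos_of_nonneg hD hν]
  linarith

/-- The slope-free bound after the multiplier. -/
lemma valQ_tangent_splitN {Y T σ h ε p G₂ b e κ M N : ℝ} (hκ : 1 < κ) (hY : 1 ≤ Y)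
    (hR : RegC Y T σ h) (hb : 0 ≤ b) (he : e = (ε - b) / (1 + b))
    (hA : 0 ≤ 1 - e * σ ^ 2)
    (hB : 0 ≤ 1 - e * T ^ 2 + (2 * (p / (1 + b)) * (σ - T) +
      (G₂ - b * (Y ^ 2 - 1) * (2 + 1 / T ^ 2)) / (1 + b)))
    (hN0 : 0 < N) (hNA : N ≤ 3 * (1 - e * σ ^ 2) + (1 - e * T ^ 2 + (2 * (p / (1 + b)) * (σ - T) +
      (G₂ - b * (Y ^ 2 - 1) * (2 + 1 / T ^ 2)) / (1 + b))))
    (hNB : N ≤ (1 - e * σ ^ 2) + 3 * (1 - e * T ^ 2 + (2 * (p / (1 + b)) * (σ - T) +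
      (G₂ - b * (Y ^ 2 - 1) * (2 + 1 / T ^ 2)) / (1 + b))))
    (hM : |e * (σ + T) + 2 * (p / (1 + b))| ≤ M) :
    (1 + b) * (-((e + κ * M ^ 2 / N) * (σ - T) ^ 2) -
      κ / (κ - 1) * ((G₂ - b * (Y ^ 2 - 1) * (2 + 1 / T ^ 2)) / (1 + b)) ^ 2 / N) -
      2 * b * (σ - T) / T - b * (Y ^ 2 - 1) / T ^ 2 ≤
      valQ ε T σ h + (2 * p * (σ - T) + G₂) * (h - 1) := by
  have hT := hR.T_pos
  have hh := hR.h_pos
  have hb1 : 0 < 1 + b := by linarith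
  set η := b * (Y ^ 2 - 1) * (2 + 1 / T ^ 2) with hηdef
  have h1 := valQ_tangentC (ε := ε) hb hR
  rw [← he] at h1
  have h2 := mul_le_mul_of_nonneg_left (valQ_ge_splitN (T := T) (σ := σ) (ε := e)
    (p := p / (1 + b)) (G₂ := (G₂ - η) / (1 + b)) (M := M) (N := N) (κ := κ) hh hκ
    hA hB hN0 hNA hNB hM) hb1.le
  have hη0 : 0 ≤ b * (Y ^ 2 - 1) := mul_nonneg hb (by nlinarith)
  have h3 : 0 ≤ b * (Y ^ 2 - 1) * ((h - 1) ^ 2 / h) := mul_nonneg hη0 (by positivity)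
  have e1 : (1 + b) * (valQ e T σ h +
      (2 * (p / (1 + b)) * (σ - T) + (G₂ - η) / (1 + b)) * (h - 1)) =
      (1 + b) * valQ e T σ h + (2 * p * (σ - T) + G₂) * (h - 1) - η * (h - 1) := by
    field_simp
    ring
  have e2 : b * (Y ^ 2 - 1) * ((1 + T ^ 2) * h - T ^ 2 / h) / T ^ 2 =
      η * (h - 1) + b * (Y ^ 2 - 1) / T ^ 2 - b * (Y ^ 2 - 1) * ((h - 1) ^ 2 / h) := by
    simp only [hηdef]
    field_simp
    ring
  linarith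

/-- **The tangent zone `ε T² ≥ θ`, one-sided.** -/
theorem negX_tangentN {π' l ν C R ε θ Y T σ h p G₂ b κ Pl Ph gl M N lo : ℝ}
    (hπ : 0 ≤ π') (hθ0 : 0 ≤ θ) (hκ : 1 < κ) (hY : 1 ≤ Y)
    (hd : Y ^ 2 - 1 ≤ 2 * T ^ 2) (hR' : RegC Y T σ h) (hσ : σ ≤ T)
    (hlo : lo = √(max (T ^ 2 - (Y ^ 2 - 1)) 0) - T)
    (hb : b = (ε * T ^ 2 - θ) / (T ^ 2 + θ)) (hb0 : 0 ≤ b)
    (hp1 : p ≤ -(Pl * (1 + b))) (hPl : 0 ≤ Pl) (hp2 : -(Ph * (1 + b)) ≤ p)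
    (hg : -(gl * (1 + b)) ≤ G₂ - b * (Y ^ 2 - 1) * (2 + 1 / T ^ 2))
    (hM1 : 2 * θ / T - 2 * Pl ≤ M) (hM2 : 2 * Ph - θ / T ≤ M) (hN0 : 0 < N)
    (hN : N ≤ 4 - 4 * θ - 3 * gl) (hgl : 0 ≤ gl) (hB : θ + gl ≤ 1) (hν : 0 ≤ ν) (hl : 2 * b * π' / T ≤ l + ν)
    (hR : 0 ≤ R) (hC : π' * ((1 + b) * (θ / T ^ 2 + κ * M ^ 2 / N)) ≤ C + R) :
    ∃ L, L ≤ valQ ε T σ h + (2 * p * (σ - T) + G₂) * (h - 1) ∧
      -(π' * (κ / (κ - 1) * (G₂ - b * (Y ^ 2 - 1) * (2 + 1 / T ^ 2)) ^ 2 / N)) - R * lo ^ 2 +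
          lo * (l + ν) ≤
        π' * L + (σ - T) * l + (σ - T) ^ 2 * C := by
  have hT : 0 < T := hR'.T_pos
  have hσ0 : 0 < σ := hR'.σ_pos
  have hb1 : 0 < 1 + b := by linarith
  have hD : σ - T ≤ 0 := sub_nonpos.2 hσ
  have hlD : lo ≤ σ - T := hR'.lo_le hlo
  have he : θ / T ^ 2 = (ε - b) / (1 + b) := by
    rw [div_eq_div_iff (by positivity) hb1.ne']
    have : b * (T ^ 2 + θ) = ε * T ^ 2 - θ := by
      rw [hb, div_mul_cancel₀ _ (by positivity : T ^ 2 + θ ≠ 0)]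
    linarith
  set η := b * (Y ^ 2 - 1) * (2 + 1 / T ^ 2) with hηdef
  have eT : θ / T ^ 2 * T ^ 2 = θ := by field_simp
  have hA' : θ / T ^ 2 * σ ^ 2 ≤ θ := by
    have := mul_le_mul_of_nonneg_left (pow_le_pow_left₀ hσ0.le hσ 2)
      (div_nonneg hθ0 (sq_nonneg T))
    rwa [eT] at this
  have hG : -gl ≤ (G₂ - η) / (1 + b) := by rw [le_div_iff₀ hb1]; linarith
  have hp' : p / (1 + b) ≤ -Pl := by rw [div_le_iff₀ hb1]; linarith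
  have hp'' : -Ph ≤ p / (1 + b) := by rw [le_div_iff₀ hb1]; linarith
  have hpD' : 0 ≤ 2 * (p / (1 + b)) * (σ - T) :=
    mul_nonneg_of_nonpos_of_nonpos (by linarith) hD
  have hM : |θ / T ^ 2 * (σ + T) + 2 * (p / (1 + b))| ≤ M := by
    have h0 : 0 ≤ θ / T ^ 2 := div_nonneg hθ0 (sq_nonneg T)
    have h1 := mul_le_mul_of_nonneg_left hσ h0
    have h2 := mul_nonneg h0 hσ0.le
    have e : θ / T ^ 2 * T = θ / T := by field_simp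
    have e2 : 2 * θ / T = 2 * (θ / T) := mul_div_assoc ..
    rw [abs_le]
    constructor <;> linarith
  have hL := valQ_tangent_splitN (M := M) (N := N) (G₂ := G₂) (p := p) hκ hY hR' hb0 he
    (by linarith) (by rw [eT, ← hηdef]; linarith) hN0 (by rw [eT, ← hηdef]; linarith) (by rw [eT, ← hηdef]; linarith) hM
  refine ⟨_, hL, ?_⟩
  rw [← hηdef]
  have hsq : π' * ((1 + b) * (κ / (κ - 1) * ((G₂ - η) / (1 + b)) ^ 2 / N)) ≤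
      π' * (κ / (κ - 1) * (G₂ - η) ^ 2 / N) := by
    refine mul_le_mul_of_nonneg_left ?_ hπ
    rw [show (1 + b) * (κ / (κ - 1) * ((G₂ - η) / (1 + b)) ^ 2 / N) =
      κ / (κ - 1) * (G₂ - η) ^ 2 / N / (1 + b) by field_simp]
    exact div_le_self (div_nonneg (mul_nonneg (div_nonneg (by linarith) (by linarith))
      (sq_nonneg _)) hN0.le) (by linarith)
  have hq := deficit_sq_le hlD hD hC hR
  have hlo0 : 0 ≤ -2 * lo / T - (Y ^ 2 - 1) / T ^ 2 := lo_price_nonneg hT hd hlo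
  have e2 : 2 * b * (σ - T) / T + b * (Y ^ 2 - 1) / T ^ 2 =
      2 * b / T * (σ - T - lo) - b * (-2 * lo / T - (Y ^ 2 - 1) / T ^ 2) := by ring
  have h4 : 0 ≤ b * (-2 * lo / T - (Y ^ 2 - 1) / T ^ 2) := mul_nonneg hb0 hlo0
  have h5 : π' * (2 * b / T * (σ - T - lo)) ≤ (σ - T - lo) * (l + ν) := by
    have := mul_le_mul_of_nonneg_right hl (sub_nonneg.2 hlD)
    rw [show π' * (2 * b / T * (σ - T - lo)) = 2 * b * π' / T * (σ - T - lo) by ring]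
    linarith
  have h6 := mul_nonneg hπ h4
  have h7 := mul_nonpos_of_nonpos_of_nonneg hD hν
  have e3 := congrArg (fun x => π' * x) e2
  linarith

/-- The vertex expression with `N = 3 A + B`. -/
noncomputable def vtxNA (ε T C ω gl D P : ℝ) : ℝ :=
  C * (3 * (1 - ε * (T + D) ^ 2) + (1 - ε * T ^ 2 - 2 * P * D - gl) - ω) -
    (ε * (2 * T + D) - 2 * P) ^ 2

/-- The vertex expression with `N = A + 3 B`. -/
noncomputable def vtxNB (ε T C ω gl D P : ℝ) : ℝ :=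
  C * ((1 - ε * (T + D) ^ 2) + 3 * (1 - ε * T ^ 2 - 2 * P * D - gl) - ω) -
    (ε * (2 * T + D) - 2 * P) ^ 2

/-- The vertex expression is concave in `P`. -/
lemma vtxNA_ge_P {ε T C ω gl D P Pl Ph r : ℝ} (hl : Pl ≤ P) (hh : P ≤ Ph)
    (h1 : r ≤ vtxNA ε T C ω gl D Pl) (h2 : r ≤ vtxNA ε T C ω gl D Ph) :
    r ≤ vtxNA ε T C ω gl D P := by
  rcases eq_or_lt_of_le (hl.trans hh) with e | hlt
  · rwa [le_antisymm (hh.trans e.ge) hl]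
  · have hd : 0 < Ph - Pl := sub_pos.2 hlt
    have e : (Ph - Pl) * vtxNA ε T C ω gl D P = (Ph - P) * vtxNA ε T C ω gl D Pl +
        (P - Pl) * vtxNA ε T C ω gl D Ph + 4 * ((Ph - Pl) * ((Ph - P) * (P - Pl))) := by
      simp only [vtxNA]; ring
    refine le_of_mul_le_mul_left ?_ hd
    rw [e]
    nlinarith [mul_nonneg (sub_nonneg.2 hh) (sub_nonneg.2 h1),
      mul_nonneg (sub_nonneg.2 hl) (sub_nonneg.2 h2),
      mul_nonneg hd.le (mul_nonneg (sub_nonneg.2 hh) (sub_nonneg.2 hl))]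

/-- The vertex expression is concave in `D`. -/
lemma vtxNA_ge_D {ε T C ω gl D Dm P r : ℝ} (hε : 0 ≤ ε) (hC : 0 ≤ C) (hl : 0 ≤ D) (hh : D ≤ Dm)
    (h1 : r ≤ vtxNA ε T C ω gl 0 P) (h2 : r ≤ vtxNA ε T C ω gl Dm P) :
    r ≤ vtxNA ε T C ω gl D P := by
  rcases eq_or_lt_of_le (hl.trans hh) with e | hlt
  · rwa [le_antisymm (hh.trans e.ge) hl]
  · have e : Dm * vtxNA ε T C ω gl D P = (Dm - D) * vtxNA ε T C ω gl 0 P +
        D * vtxNA ε T C ω gl Dm P + (3 * (C * ε) + ε ^ 2) * (Dm * ((Dm - D) * D)) := by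
      simp only [vtxNA]; ring
    refine le_of_mul_le_mul_left ?_ hlt
    rw [e]
    nlinarith [mul_nonneg (sub_nonneg.2 hh) (sub_nonneg.2 h1),
      mul_nonneg hl (sub_nonneg.2 h2),
      mul_nonneg (add_nonneg (mul_nonneg (by norm_num : (0 : ℝ) ≤ 3) (mul_nonneg hC hε)) (sq_nonneg ε))
        (mul_nonneg hlt.le (mul_nonneg (sub_nonneg.2 hh) hl))]

/-- The vertex expression is concave in `P`. -/
lemma vtxNB_ge_P {ε T C ω gl D P Pl Ph r : ℝ} (hl : Pl ≤ P) (hh : P ≤ Ph)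
    (h1 : r ≤ vtxNB ε T C ω gl D Pl) (h2 : r ≤ vtxNB ε T C ω gl D Ph) :
    r ≤ vtxNB ε T C ω gl D P := by
  rcases eq_or_lt_of_le (hl.trans hh) with e | hlt
  · rwa [le_antisymm (hh.trans e.ge) hl]
  · have hd : 0 < Ph - Pl := sub_pos.2 hlt
    have e : (Ph - Pl) * vtxNB ε T C ω gl D P = (Ph - P) * vtxNB ε T C ω gl D Pl +
        (P - Pl) * vtxNB ε T C ω gl D Ph + 4 * ((Ph - Pl) * ((Ph - P) * (P - Pl))) := by
      simp only [vtxNB]; ring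
    refine le_of_mul_le_mul_left ?_ hd
    rw [e]
    nlinarith [mul_nonneg (sub_nonneg.2 hh) (sub_nonneg.2 h1),
      mul_nonneg (sub_nonneg.2 hl) (sub_nonneg.2 h2),
      mul_nonneg hd.le (mul_nonneg (sub_nonneg.2 hh) (sub_nonneg.2 hl))]

/-- The vertex expression is concave in `D`. -/
lemma vtxNB_ge_D {ε T C ω gl D Dm P r : ℝ} (hε : 0 ≤ ε) (hC : 0 ≤ C) (hl : 0 ≤ D) (hh : D ≤ Dm)
    (h1 : r ≤ vtxNB ε T C ω gl 0 P) (h2 : r ≤ vtxNB ε T C ω gl Dm P) :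
    r ≤ vtxNB ε T C ω gl D P := by
  rcases eq_or_lt_of_le (hl.trans hh) with e | hlt
  · rwa [le_antisymm (hh.trans e.ge) hl]
  · have e : Dm * vtxNB ε T C ω gl D P = (Dm - D) * vtxNB ε T C ω gl 0 P +
        D * vtxNB ε T C ω gl Dm P + (C * ε + ε ^ 2) * (Dm * ((Dm - D) * D)) := by
      simp only [vtxNB]; ring
    refine le_of_mul_le_mul_left ?_ hlt
    rw [e]
    nlinarith [mul_nonneg (sub_nonneg.2 hh) (sub_nonneg.2 h1),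
      mul_nonneg hl (sub_nonneg.2 h2),
      mul_nonneg (add_nonneg (mul_nonneg hC hε) (sq_nonneg ε))
        (mul_nonneg hlt.le (mul_nonneg (sub_nonneg.2 hh) hl))]

/-- **Slope-free bound with the exact split, larger denominator.** -/
theorem valQ_ge_vertexN {T σ h ε p G₂ C ω gl Dm Pl Ph : ℝ} (hh : 0 < h) (hε : 0 ≤ ε) (hC : 0 < C)
    (hω : 0 < ω) (hT : 0 ≤ T) (hσ : T ≤ σ) (hD : σ - T ≤ Dm) (hp1 : p ≤ -Pl) (hp2 : -Ph ≤ p)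
    (hg : -gl ≤ G₂) (hA : ε * (T + Dm) ^ 2 ≤ 1) (hB0 : 0 ≤ 1 - ε * T ^ 2 - gl)
    (hB : 0 ≤ 1 - ε * T ^ 2 - 2 * Ph * Dm - gl)
    (a00 : 0 ≤ vtxNA ε T C ω gl 0 Pl) (a01 : 0 ≤ vtxNA ε T C ω gl 0 Ph)
    (a10 : 0 ≤ vtxNA ε T C ω gl Dm Pl) (a11 : 0 ≤ vtxNA ε T C ω gl Dm Ph)
    (b00 : 0 ≤ vtxNB ε T C ω gl 0 Pl) (b01 : 0 ≤ vtxNB ε T C ω gl 0 Ph)
    (b10 : 0 ≤ vtxNB ε T C ω gl Dm Pl) (b11 : 0 ≤ vtxNB ε T C ω gl Dm Ph) :
    -((ε + C) * (σ - T) ^ 2) - G₂ ^ 2 / ω ≤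
      valQ ε T σ h + (2 * p * (σ - T) + G₂) * (h - 1) := by
  obtain ⟨D, rfl⟩ : ∃ D, σ = T + D := ⟨σ - T, by ring⟩
  rw [add_sub_cancel_left] at hD ⊢
  have hD0 : 0 ≤ D := by linarith
  have hpD : -(1 - ε * T ^ 2 - gl) ≤ 2 * p * D := by
    rcases le_total 0 Ph with hP | hP
    · linarith [mul_le_mul_of_nonneg_right hp2 hD0, mul_le_mul_of_nonneg_left hD hP]
    · linarith [mul_le_mul_of_nonneg_right hp2 hD0,
        mul_nonpos_of_nonpos_of_nonneg hP hD0]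
  have hA' : 0 ≤ 1 - ε * (T + D) ^ 2 := by
    have h1 := mul_le_mul_of_nonneg_left
      (pow_le_pow_left₀ (hT.trans hσ) (add_le_add_right hD T : T + D ≤ T + Dm) 2) hε
    linarith
  have hva : 0 ≤ vtxNA ε T C ω gl D (-p) :=
    vtxNA_ge_P (le_neg.1 hp1) (neg_le.1 hp2) (vtxNA_ge_D hε hC.le hD0 hD a00 a10)
      (vtxNA_ge_D hε hC.le hD0 hD a01 a11)
  have hvb : 0 ≤ vtxNB ε T C ω gl D (-p) :=
    vtxNB_ge_P (le_neg.1 hp1) (neg_le.1 hp2) (vtxNB_ge_D hε hC.le hD0 hD b00 b10)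
      (vtxNB_ge_D hε hC.le hD0 hD b01 b11)
  set NA := 3 * (1 - ε * (T + D) ^ 2) + (1 - ε * T ^ 2 + (2 * p * D + G₂)) with hNA
  set NB := (1 - ε * (T + D) ^ 2) + 3 * (1 - ε * T ^ 2 + (2 * p * D + G₂)) with hNB
  have hg' : 0 ≤ C * (G₂ + gl) := mul_nonneg hC.le (by linarith)
  have ea : (ε * (T + D + T) + 2 * p) ^ 2 ≤ C * (NA - ω) := by
    have e : vtxNA ε T C ω gl D (-p) = C * (NA - ω) - C * (G₂ + gl) -
        (ε * (T + D + T) + 2 * p) ^ 2 := by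
      simp only [vtxNA, hNA]; ring
    linarith
  have eb : (ε * (T + D + T) + 2 * p) ^ 2 ≤ C * (NB - ω) := by
    have e : vtxNB ε T C ω gl D (-p) = C * (NB - ω) - 3 * (C * (G₂ + gl)) -
        (ε * (T + D + T) + 2 * p) ^ 2 := by
      simp only [vtxNB, hNB]; ring
    linarith
  have em : (ε * (T + D + T) + 2 * p) ^ 2 ≤ C * (min NA NB - ω) := by
    rcases min_choice NA NB with h | h <;> rw [h] <;> assumption
  have hS : 0 ≤ min NA NB - ω := nonneg_of_mul_nonneg_right ((sq_nonneg _).trans em) hC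
  refine le_trans ?_ (valQ_sharpN hh hA' (by linarith) (N := min NA NB) (by linarith)
    (min_le_left _ _) (min_le_right _ _))
  rw [add_sub_cancel_left, show ε * D * (T + D + T) + (2 * p * D + G₂) =
    (ε * (T + D + T) + 2 * p) * D + G₂ by ring]
  have key := engel_split (D := D) (G := G₂) hC.le hω (by linarith) em
  linarith

/-- **One point of the side `σ ≥ T`, larger denominator**: the four vertices and one linear inequality at the largest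
`D`; the conclusion feeds `core_of_boundX`. -/
theorem posX_vertexN {π' l Cw T σ h ε p G₂ C ω gl Dm Pl Ph : ℝ} (hl : 0 ≤ l)
    (hend : 0 ≤ l + Dm * (Cw - π' * (ε + C))) (hh : 0 < h) (hε : 0 ≤ ε) (hC : 0 < C)
    (hω : 0 < ω) (hT : 0 ≤ T) (hσ : T ≤ σ) (hD : σ - T ≤ Dm) (hp1 : p ≤ -Pl) (hp2 : -Ph ≤ p)
    (hg : -gl ≤ G₂) (hA : ε * (T + Dm) ^ 2 ≤ 1) (hB0 : 0 ≤ 1 - ε * T ^ 2 - gl)
    (hB : 0 ≤ 1 - ε * T ^ 2 - 2 * Ph * Dm - gl)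
    (a00 : 0 ≤ vtxNA ε T C ω gl 0 Pl) (a01 : 0 ≤ vtxNA ε T C ω gl 0 Ph)
    (a10 : 0 ≤ vtxNA ε T C ω gl Dm Pl) (a11 : 0 ≤ vtxNA ε T C ω gl Dm Ph)
    (b00 : 0 ≤ vtxNB ε T C ω gl 0 Pl) (b01 : 0 ≤ vtxNB ε T C ω gl 0 Ph)
    (b10 : 0 ≤ vtxNB ε T C ω gl Dm Pl) (b11 : 0 ≤ vtxNB ε T C ω gl Dm Ph) :
    ∃ L, L ≤ valQ ε T σ h + (2 * p * (σ - T) + G₂) * (h - 1) ∧
      -(π' * (G₂ ^ 2 / ω)) ≤ π' * L + (σ - T) * l + (σ - T) ^ 2 * Cw := by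
  refine ⟨_, valQ_ge_vertexN hh hε hC hω hT hσ hD hp1 hp2 hg hA hB0 hB
    a00 a01 a10 a11 b00 b01 b10 b11, ?_⟩
  linarith [endpoint_nonneg hl (sub_nonneg.2 hσ) hD hend]

/-- **Slope-free bound behind the multiplier, larger denominator.** -/
theorem valQ_ge_tanN {Y T σ h ε b G N : ℝ} (hb : 0 ≤ b) (hR : RegC Y T σ h)
    (hA : 0 ≤ tanA ε b (Y ^ 2 - 1) σ) (hB : 0 ≤ tanB ε b (Y ^ 2 - 1) T G)
    (hN0 : 0 < N) (hNA : N ≤ 3 * tanA ε b (Y ^ 2 - 1) σ + tanB ε b (Y ^ 2 - 1) T G)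
    (hNB : N ≤ tanA ε b (Y ^ 2 - 1) σ + 3 * tanB ε b (Y ^ 2 - 1) T G) :
    -((ε - b) * (σ - T) ^ 2) - 2 * b * (σ - T) / T - b * (Y ^ 2 - 1) / T ^ 2 -
        (tanB ε b (Y ^ 2 - 1) T G - tanA ε b (Y ^ 2 - 1) σ) ^ 2 / N ≤
      valQ ε T σ h + G * (h - 1) := by
  have hh := hR.h_pos
  have hT := hR.T_pos
  have h1b : 0 < 1 + b := by linarith
  have h1 := valQ_tangentC (ε := ε) hb hR
  generalize hA' : tanA ε b (Y ^ 2 - 1) σ = A at hA hNA hNB ⊢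
  generalize hB' : tanB ε b (Y ^ 2 - 1) T G = B at hB hNA hNB ⊢
  have e : (1 + b) * valQ ((ε - b) / (1 + b)) T σ h - 2 * b * (σ - T) / T -
      b * (Y ^ 2 - 1) * ((1 + T ^ 2) * h - T ^ 2 / h) / T ^ 2 + G * (h - 1) =
      A / h + B * h - (A + B) - (ε - b) * (σ - T) ^ 2 - 2 * b * (σ - T) / T -
        b * (Y ^ 2 - 1) / T ^ 2 := by
    simp only [← hA', ← hB', tanA, tanB, valQ]
    field_simp
    ring
  have h2 : 2 * √(A * B) ≤ A / h + B * h := two_sqrt_mul_le hA hB hh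
  have h3 := two_sqrt_sub_geN hA hB hN0 hNA hNB
  linarith

/-- **One point behind the multiplier**: `a` is the coefficient of `σ - T` in `B - A`. -/
theorem posX_tanN {π' l Cw Sl Y T σ h ε b p G₂ C ω a N : ℝ} (hπ : 0 ≤ π') (hb : 0 ≤ b)
    (hR : RegC Y T σ h) (hω : 0 < ω) (hC : 0 ≤ C) (hD : 0 < σ - T)
    (hA : 0 ≤ tanA ε b (Y ^ 2 - 1) σ)
    (hB : 0 ≤ tanB ε b (Y ^ 2 - 1) T (2 * p * (σ - T) + G₂))
    (ha : a = (ε - b) * (σ + T) + 2 * p - b * (Y ^ 2 - 1) * (2 + 1 / T ^ 2) / (σ - T))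
    (hN : ω ≤ N) (hNA : N ≤ 3 * tanA ε b (Y ^ 2 - 1) σ + tanB ε b (Y ^ 2 - 1) T (2 * p * (σ - T) + G₂))
    (hNB : N ≤ tanA ε b (Y ^ 2 - 1) σ + 3 * tanB ε b (Y ^ 2 - 1) T (2 * p * (σ - T) + G₂))
    (hsq : a ^ 2 ≤ C * (N - ω))
    (hend : π' * (((ε - b) + C) * (σ - T) ^ 2 + 2 * b * (σ - T) / T +
      b * (Y ^ 2 - 1) / T ^ 2) ≤ (σ - T) * l + (σ - T) ^ 2 * Cw + Sl) :
    ∃ L, L ≤ valQ ε T σ h + (2 * p * (σ - T) + G₂) * (h - 1) ∧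
      -(π' * (G₂ ^ 2 / ω)) ≤ π' * L + (σ - T) * l + (σ - T) ^ 2 * Cw + Sl := by
  refine ⟨_, valQ_ge_tanN hb hR hA hB (hω.trans_le hN) hNA hNB, ?_⟩
  have e : tanB ε b (Y ^ 2 - 1) T (2 * p * (σ - T) + G₂) - tanA ε b (Y ^ 2 - 1) σ =
      a * (σ - T) + G₂ := by
    rw [ha]; simp only [tanA, tanB]
    field_simp
    ring
  rw [e]
  have key := mul_le_mul_of_nonneg_left (engel_split (D := σ - T) (G := G₂) hC hω hN hsq) hπ
  linarith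

end Vale.Agent.P237.Cal
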