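import Vale.Agent.P237.Cal.Mid.Pay
import Vale.Agent.P237.Cal.Mid.Sharp
import Vale.Agent.P237.Cal.NegMain

/-!
# P237: the side `σ ≤ T` for `128 ≤ n < 384`, zone `ε T² ≤ 1/3`

With `τ = √n T`, `r = ε/n ≤ 203/6400` and `r τ² ≤ 1/3` the weight of `D²` carries an exact `κ`, so
the loss is the square of the coefficient over `W`, where `r τ X² ≤ D (4 - 4 r τ² - 3 gl - W)`.
-/

open Real

namespace Vale.Agent.P237.Cal.MidN

variable {m : ℕ} {V Y T σ h ε kap c₀ c₁ G : ℝ}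

lemma pAa {τ : ℝ} (ha : 0 ≤ τ) (hb : τ ≤ 21 / 10) :
    203 / 6400 * (τ * (66 / 10 - τ) ^ 2 + (9 / 5 + 1158 / 1000 * τ ^ 2 - τ) * (4 * τ ^ 2 + 87 / 10 * τ)) ≤
      (9 / 5 + 1158 / 1000 * τ ^ 2 - τ) * (4 - (50 / 19 - 326 / 10000 * τ ^ 2)) := by
  nlinarith [mul_nonneg (sub_nonneg.2 ha) (sub_nonneg.2 hb), mul_nonneg (mul_nonneg (sub_nonneg.2 ha) (sub_nonneg.2 hb)) (sq_nonneg τ), mul_nonneg (mul_nonneg (sub_nonneg.2 ha) (sub_nonneg.2 hb)) (sub_nonneg.2 ha), sq_nonneg τ, sq_nonneg (τ - 1), sq_nonneg (τ - 2)]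

lemma pBa {τ : ℝ} (ha : 21 / 10 ≤ τ) (hb : τ ≤ 13 / 4) :
    203 / 6400 * (τ * (66 / 10 - τ) ^ 2 + (9 / 5 + 10857 / 10000 * τ ^ 2 - τ) * (4 * τ ^ 2 + 672 / 100 * τ)) ≤
      (9 / 5 + 10857 / 10000 * τ ^ 2 - τ) * (4 - 5 / 7 * (2875 / 1000 - 173 / 1000 * τ)) := by
  nlinarith [mul_nonneg (sub_nonneg.2 ha) (sub_nonneg.2 hb), mul_nonneg (mul_nonneg (sub_nonneg.2 ha) (sub_nonneg.2 hb)) (sq_nonneg τ), mul_nonneg (mul_nonneg (sub_nonneg.2 ha) (sub_nonneg.2 hb)) (sub_nonneg.2 ha), sq_nonneg τ, sq_nonneg (τ - 1), sq_nonneg (τ - 2)]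

lemma pCa {τ : ℝ} (ha : 13 / 4 ≤ τ) (hb : τ ≤ 61 / 10) :
    (τ * (66 / 10 - τ) ^ 2 + (9 / 5 + 10857 / 10000 * τ ^ 2 - τ) * (4 * τ ^ 2 + 672 / 100 * τ)) ≤
      3 * τ ^ 2 * (9 / 5 + 10857 / 10000 * τ ^ 2 - τ) * (4 - 5 / 7 * (2875 / 1000 - 173 / 1000 * τ)) := by
  nlinarith [mul_nonneg (sub_nonneg.2 ha) (sub_nonneg.2 hb), mul_nonneg (mul_nonneg (sub_nonneg.2 ha) (sub_nonneg.2 hb)) (sq_nonneg τ), mul_nonneg (mul_nonneg (sub_nonneg.2 ha) (sub_nonneg.2 hb)) (sub_nonneg.2 ha), sq_nonneg τ, sq_nonneg (τ - 1), sq_nonneg (τ - 2)]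

lemma pDa {τ : ℝ} (ha : 21 / 10 ≤ τ) (hb : τ ≤ 13 / 4) :
    203 / 6400 * (τ ^ 2 * (τ + 1) * (66 / 10 - τ) ^ 2 + (9 / 5 + 10857 / 10000 * τ ^ 2 - τ) * (4 * τ ^ 3 * (τ + 1) + 276 / 5)) ≤
      τ * (τ + 1) * (9 / 5 + 10857 / 10000 * τ ^ 2 - τ) * (4 - (2875 / 1000 - 173 / 1000 * τ)) := by
  nlinarith [mul_nonneg (sub_nonneg.2 ha) (sub_nonneg.2 hb), mul_nonneg (mul_nonneg (sub_nonneg.2 ha) (sub_nonneg.2 hb)) (sq_nonneg τ), mul_nonneg (mul_nonneg (sub_nonneg.2 ha) (sub_nonneg.2 hb)) (sub_nonneg.2 ha), sq_nonneg τ, sq_nonneg (τ - 1), sq_nonneg (τ - 2)]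

lemma pEa {τ : ℝ} (ha : 13 / 4 ≤ τ) (hb : τ ≤ 61 / 10) :
    (τ * (66 / 10 - τ) ^ 2 + (9 / 5 + 10857 / 10000 * τ ^ 2 - τ) * (4 * τ ^ 2 + 4)) ≤
      3 * τ ^ 2 * (9 / 5 + 10857 / 10000 * τ ^ 2 - τ) * (4 - (2875 / 1000 - 173 / 1000 * τ)) := by
  nlinarith [mul_nonneg (sub_nonneg.2 ha) (sub_nonneg.2 hb), mul_nonneg (mul_nonneg (sub_nonneg.2 ha) (sub_nonneg.2 hb)) (sq_nonneg τ), mul_nonneg (mul_nonneg (sub_nonneg.2 ha) (sub_nonneg.2 hb)) (sub_nonneg.2 ha), sq_nonneg τ, sq_nonneg (τ - 1), sq_nonneg (τ - 2)]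

lemma pAb {τ : ℝ} (ha : 0 ≤ τ) (hb : τ ≤ 21 / 10) :
    203 / 6400 * (τ * (2 * τ - 256 / 100) ^ 2 + (9 / 5 + 1158 / 1000 * τ ^ 2 - τ) * (4 * τ ^ 2 + 87 / 10 * τ)) ≤
      (9 / 5 + 1158 / 1000 * τ ^ 2 - τ) * (4 - (50 / 19 - 326 / 10000 * τ ^ 2)) := by
  nlinarith [mul_nonneg (sub_nonneg.2 ha) (sub_nonneg.2 hb), mul_nonneg (mul_nonneg (sub_nonneg.2 ha) (sub_nonneg.2 hb)) (sq_nonneg τ), mul_nonneg (mul_nonneg (sub_nonneg.2 ha) (sub_nonneg.2 hb)) (sub_nonneg.2 ha), sq_nonneg τ, sq_nonneg (τ - 1), sq_nonneg (τ - 2)]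

lemma pBb {τ : ℝ} (ha : 21 / 10 ≤ τ) (hb : τ ≤ 13 / 4) :
    203 / 6400 * (τ * (2 * τ - 256 / 100) ^ 2 + (9 / 5 + 10857 / 10000 * τ ^ 2 - τ) * (4 * τ ^ 2 + 672 / 100 * τ)) ≤
      (9 / 5 + 10857 / 10000 * τ ^ 2 - τ) * (4 - 5 / 7 * (2875 / 1000 - 173 / 1000 * τ)) := by
  nlinarith [mul_nonneg (sub_nonneg.2 ha) (sub_nonneg.2 hb), mul_nonneg (mul_nonneg (sub_nonneg.2 ha) (sub_nonneg.2 hb)) (sq_nonneg τ), mul_nonneg (mul_nonneg (sub_nonneg.2 ha) (sub_nonneg.2 hb)) (sub_nonneg.2 ha), sq_nonneg τ, sq_nonneg (τ - 1), sq_nonneg (τ - 2)]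

lemma pCb {τ : ℝ} (ha : 13 / 4 ≤ τ) (hb : τ ≤ 61 / 10) :
    (τ * (2 * τ - 256 / 100) ^ 2 + (9 / 5 + 10857 / 10000 * τ ^ 2 - τ) * (4 * τ ^ 2 + 672 / 100 * τ)) ≤
      3 * τ ^ 2 * (9 / 5 + 10857 / 10000 * τ ^ 2 - τ) * (4 - 5 / 7 * (2875 / 1000 - 173 / 1000 * τ)) := by
  nlinarith [mul_nonneg (sub_nonneg.2 ha) (sub_nonneg.2 hb), mul_nonneg (mul_nonneg (sub_nonneg.2 ha) (sub_nonneg.2 hb)) (sq_nonneg τ), mul_nonneg (mul_nonneg (sub_nonneg.2 ha) (sub_nonneg.2 hb)) (sub_nonneg.2 ha), sq_nonneg τ, sq_nonneg (τ - 1), sq_nonneg (τ - 2)]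

lemma pDb {τ : ℝ} (ha : 21 / 10 ≤ τ) (hb : τ ≤ 13 / 4) :
    203 / 6400 * (τ ^ 2 * (τ + 1) * (2 * τ - 256 / 100) ^ 2 + (9 / 5 + 10857 / 10000 * τ ^ 2 - τ) * (4 * τ ^ 3 * (τ + 1) + 276 / 5)) ≤
      τ * (τ + 1) * (9 / 5 + 10857 / 10000 * τ ^ 2 - τ) * (4 - (2875 / 1000 - 173 / 1000 * τ)) := by
  nlinarith [mul_nonneg (sub_nonneg.2 ha) (sub_nonneg.2 hb), mul_nonneg (mul_nonneg (sub_nonneg.2 ha) (sub_nonneg.2 hb)) (sq_nonneg τ), mul_nonneg (mul_nonneg (sub_nonneg.2 ha) (sub_nonneg.2 hb)) (sub_nonneg.2 ha), sq_nonneg τ, sq_nonneg (τ - 1), sq_nonneg (τ - 2)]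

lemma pEb {τ : ℝ} (ha : 13 / 4 ≤ τ) (hb : τ ≤ 61 / 10) :
    (τ * (2 * τ - 256 / 100) ^ 2 + (9 / 5 + 10857 / 10000 * τ ^ 2 - τ) * (4 * τ ^ 2 + 4)) ≤
      3 * τ ^ 2 * (9 / 5 + 10857 / 10000 * τ ^ 2 - τ) * (4 - (2875 / 1000 - 173 / 1000 * τ)) := by
  nlinarith [mul_nonneg (sub_nonneg.2 ha) (sub_nonneg.2 hb), mul_nonneg (mul_nonneg (sub_nonneg.2 ha) (sub_nonneg.2 hb)) (sq_nonneg τ), mul_nonneg (mul_nonneg (sub_nonneg.2 ha) (sub_nonneg.2 hb)) (sub_nonneg.2 ha), sq_nonneg τ, sq_nonneg (τ - 1), sq_nonneg (τ - 2)]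

/-- `r A ≤ B` from the end of the range of `r`. -/
lemma plain_lin {r A B : ℝ} (hr : r ≤ 203 / 6400) (hA : 0 ≤ A) (h : 203 / 6400 * A ≤ B) :
    r * A ≤ B :=
  (mul_le_mul_of_nonneg_right hr hA).trans h

/-- `r A ≤ B` from the end `r τ² = 1/3`. -/
lemma plain_lin' {r τ A B : ℝ} (hr : r * τ ^ 2 ≤ 1 / 3) (hτ : 0 < τ) (hA : 0 ≤ A)
    (h : A ≤ 3 * τ ^ 2 * B) : r * A ≤ B := by
  refine le_of_mul_le_mul_left ?_ (show 0 < τ ^ 2 by positivity)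
  linarith [mul_le_mul_of_nonneg_right hr hA]

/-- **The plain zone with the weight `1/W`.** -/
theorem negPlain_core {l ν lo a gl W τ : ℝ} (hm : 126 ≤ m) (hε : 0 < ε)
    (h₀ : c₀ = 9 / 5 * ε / √((m : ℝ) + 2)) (h₁ : c₁ = 6 / 5 * ε * √((m : ℝ) + 2)) (hT : 0 < T)
    (hh : 0 < h) (hσ0 : 0 ≤ σ) (hσ : σ ≤ T) (hlo : lo ≤ σ - T)
    (hτ : τ = √((m : ℝ) + 2) * T) (hz : τ ^ 2 ≤ 366 / 10) (hgl : 0 ≤ gl) (hG : -gl ≤ G)
    (hB : ε * T ^ 2 + gl ≤ 1) (hν : 0 ≤ ν) (hl : 0 ≤ l + ν) (ha : 1 ≤ a)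
    (has : a * (1 + T ^ 2) ≤ 6 / 5) (hW : 0 < W)
    (k1 : ε / ((m : ℝ) + 2) * τ * (66 / 10 - τ) ^ 2 ≤ (9 / 5 + a * τ ^ 2 - τ) *
      (4 - 4 * (ε / ((m : ℝ) + 2) * τ ^ 2) - 3 * gl - W))
    (k2 : ε / ((m : ℝ) + 2) * τ * (2 * τ - 256 / 100) ^ 2 ≤ (9 / 5 + a * τ ^ 2 - τ) *
      (4 - 4 * (ε / ((m : ℝ) + 2) * τ ^ 2) - 3 * gl - W)) :
    ∃ L, L ≤ valQ ε T σ h + (2 * (shP m c₀ c₁ T / pre m T) * (σ - T) + G) * (h - 1) ∧
      -(pre m T * (G ^ 2 / W)) + lo * (l + ν) ≤ pre m T * L + (σ - T) * l +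
        (σ - T) ^ 2 * (shP' m c₀ c₁ T + 2 * muX m T * shS m c₀ c₁ T) := by
  have hm' : (126 : ℝ) ≤ (m : ℝ) := by exact_mod_cast hm
  set v := √((m : ℝ) + 2) with hvdef
  have hv10 : 10 ≤ v := by
    rw [hvdef, le_sqrt (by norm_num) (by linarith)]; norm_num; linarith
  have hv2 : v ^ 2 = (m : ℝ) + 2 := sq_sqrt (by linarith)
  have hv0 : 0 < v := by linarith
  have hτ0 : 0 < τ := hτ ▸ mul_pos hv0 hT
  have hpre : 0 < pre m T := by unfold pre; positivity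
  have hx : ε / ((m : ℝ) + 2) * τ ^ 2 = ε * T ^ 2 := by
    rw [← hv2, hτ]; field_simp
  rw [hx] at k1 k2
  set r := ε / ((m : ℝ) + 2) with hr
  have hr0 : 0 < r := by rw [hr]; positivity
  set X := max (2 * τ - 256 / 100) (66 / 10 - τ) with hX
  have hX0 : 0 < X := by
    linarith [le_max_left (2 * τ - 256 / 100) (66 / 10 - τ),
      le_max_right (2 * τ - 256 / 100) (66 / 10 - τ)]
  set N := 4 - 4 * (ε * T ^ 2) - 3 * gl with hN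
  set D := 9 / 5 + a * τ ^ 2 - τ with hD
  have hD0 : 0 < D := by
    linarith [mul_le_mul_of_nonneg_right ha (sq_nonneg τ), sq_nonneg (τ - 1 / 2)]
  have hk : r * τ * X ^ 2 ≤ D * (N - W) := by
    rcases max_choice (2 * τ - 256 / 100) (66 / 10 - τ) with e | e <;> rw [hX, e] <;> assumption
  have hp : 0 < r * τ * X ^ 2 := by positivity
  have hNW : 0 < N - W := pos_of_mul_pos_right (hp.trans_le hk) hD0.le
  have hN0 : 0 < N := by linarith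
  set κ := D * N / (r * τ * X ^ 2) with hκdef
  have hκ : 1 < κ := by
    rw [hκdef, one_lt_div hp]
    linarith [mul_pos hD0 hW]
  set Pl := ε * (128 / 100) / v with hPl
  set Ph := 33 / 10 * ε / v with hPh
  have hp2 := zone0_P (m := m) (T := T) hε.le hv10 hv2 h₀ h₁ hpre
  have hp1 : shP m c₀ c₁ T / pre m T ≤ -Pl := by
    refine (low_P (m := m) (T := T) (z1 := 366 / 10) hε.le hv10 hv2 h₀ h₁ hpre ?_).trans
      (neg_le_neg (div_le_div_of_nonneg_right ?_ hv0.le))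
    · rw [← mul_pow, ← hτ]; exact hz
    · exact mul_le_mul_of_nonneg_left (by norm_num) hε.le
  have hsc : ∀ w : ℝ, ε / v * w = w * (ε / v) := fun w => mul_comm _ _
  have eM1 : 2 * ε * T - 2 * Pl = ε / v * (2 * τ - 256 / 100) := by
    rw [hPl, hτ]; field_simp; ring
  have eM2 : 2 * Ph - ε * T = ε / v * (66 / 10 - τ) := by
    rw [hPh, hτ]; field_simp; ring
  set M := ε / v * X with hMdef
  have hM1 : 2 * ε * T - 2 * Pl ≤ M := by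
    rw [eM1]; exact mul_le_mul_of_nonneg_left (le_max_left _ _) (by positivity)
  have hM2 : 2 * Ph - ε * T ≤ M := by
    rw [eM2]; exact mul_le_mul_of_nonneg_left (le_max_right _ _) (by positivity)
  have hC : pre m T * (ε + κ * M ^ 2 / N) ≤
      shP' m c₀ c₁ T + 2 * muX m T * shS m c₀ c₁ T + 0 := by
    rw [add_zero, shP'_add]
    have hmu : muX m T * (c₀ + c₁ * (T ^ 2 / √(1 + T ^ 2) ^ 2)) =
        pre m T * ((c₀ + c₁ * (T ^ 2 / √(1 + T ^ 2) ^ 2)) / T) := by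
      simp only [muX, pre]; field_simp
    rw [hmu]
    refine mul_le_mul_of_nonneg_left ?_ hpre.le
    have e1 : ε + κ * M ^ 2 / N = ε * (1 + D / τ) := by
      rw [hκdef, hMdef, hr, ← hv2]
      field_simp
    have e2 : (c₀ + c₁ * (T ^ 2 / √(1 + T ^ 2) ^ 2)) / T =
        ε * (9 / (5 * τ) + 6 / 5 / (1 + T ^ 2) * τ) := by
      rw [w_sq, h₀, h₁, hτ]; field_simp
    rw [e1, e2]
    refine mul_le_mul_of_nonneg_left ?_ hε.le
    have h3 : a ≤ 6 / 5 / (1 + T ^ 2) := by rw [le_div_iff₀ (by positivity)]; exact has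
    have e3 : 1 + D / τ = 9 / (5 * τ) + a * τ := by rw [hD]; field_simp; ring
    linarith [mul_le_mul_of_nonneg_right h3 hτ0.le]
  obtain ⟨L, hL, hle⟩ := negX_zoneN (κ := κ) (Pl := Pl) (Ph := Ph) (gl := gl) (M := M) (N := N)
    (R := 0) hpre.le hh hε.le hκ hσ0 hσ hlo (by linarith) hp1 (by positivity) hp2 hG hM1 hM2
    hN0 le_rfl hgl hB hν hl le_rfl hC
  refine ⟨L, hL, le_trans ?_ hle⟩
  have hw : κ / (κ - 1) * G ^ 2 / N ≤ G ^ 2 / W := by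
    have h1 : W * κ ≤ N * (κ - 1) := by
      have := mul_le_mul_of_nonneg_left hk hN0.le
      have e : κ * (r * τ * X ^ 2) = D * N := by rw [hκdef]; field_simp
      refine le_of_mul_le_mul_right ?_ hp
      linear_combination this + (W - N) * e
    rw [div_mul_eq_mul_div, div_div, div_le_div_iff₀ (by
      exact mul_pos (by linarith) hN0) hW]
    linarith [mul_le_mul_of_nonneg_left h1 (sq_nonneg G)]
  linarith [mul_le_mul_of_nonneg_left hw hpre.le]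

/-- `n (Y² - 1) ≤ 2` for `u < 3/5`. -/
lemma nd_le_small (hm : 126 ≤ m) (hY : 1 ≤ Y) (hu : uOf m Y < 3 / 5) :
    ((m : ℝ) + 2) * (Y ^ 2 - 1) ≤ 2 := by
  have hm' : (126 : ℝ) ≤ (m : ℝ) := by exact_mod_cast hm
  have hp : 0 < Y ^ (m + 1) := pow_pos (one_pos.trans_le hY) _
  have h5 : Y ^ (m + 1) ≤ 5 / 2 := by
    rw [uOf, sub_lt_comm, lt_inv_comm₀ (by norm_num) hp] at hu
    linarith [show ((1 : ℝ) - 3 / 5)⁻¹ = 5 / 2 by norm_num]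
  have hey : exp (((m : ℝ) + 1) * Real.log Y) = Y ^ (m + 1) := by
    rw [show (m : ℝ) + 1 = ((m + 1 : ℕ) : ℝ) by push_cast; ring, exp_nat_mul,
      exp_log (one_pos.trans_le hY)]
  have hy : ((m : ℝ) + 1) * Real.log Y ≤ 92 / 100 := by
    refine exp_le_exp.1 (hey.le.trans (h5.trans ?_))
    have h := mul_le_mul exp_one_gt_d9.le (add_one_le_exp (-(8 / 100 : ℝ))) (by norm_num)
      (exp_pos 1).le
    rw [← exp_add] at h
    norm_num at h ⊢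
    linarith
  have h0 := Real.log_nonneg hY
  have hL : Real.log Y ≤ 8 / 1000 := by
    refine le_of_mul_le_mul_left (a := (m : ℝ) + 1) ?_ (by linarith)
    linarith
  obtain ⟨-, -, -, -, h5'⟩ := SF.exp_two_bounds h0 (by linarith)
  rw [two_mul, exp_add, exp_log (one_pos.trans_le hY)] at h5'
  have h2 := mul_le_mul_of_nonneg_left hL h0
  have hd : Y ^ 2 - 1 ≤ 212 / 100 * Real.log Y := by linarith
  have h3 := mul_le_mul_of_nonneg_left hd (show (0 : ℝ) ≤ (m : ℝ) + 2 by positivity)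
  linarith

/-- `1 ≤ cPM · W` below `τ = 21/10`. -/
lemma plain_W1 {τ : ℝ} (h0 : 0 ≤ τ) (h : τ ≤ 21 / 10) :
    0 < 50 / 19 - 326 / 10000 * τ ^ 2 ∧
      1 ≤ cPM (τ ^ 2) * (50 / 19 - 326 / 10000 * τ ^ 2) := by
  have h2 : τ ^ 2 ≤ 441 / 100 := (pow_le_pow_left₀ h0 h 2).trans_eq (by norm_num)
  refine ⟨by linarith, ?_⟩
  rw [cPM]
  nlinarith [sq_nonneg τ]

/-- `1 ≤ cPM · W` above. -/
lemma plain_W2 {τ : ℝ} (h0 : 21 / 10 ≤ τ) (h : τ ≤ 61 / 10) :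
    0 < 2875 / 1000 - 173 / 1000 * τ ∧
      1 ≤ cPM (τ ^ 2) * (2875 / 1000 - 173 / 1000 * τ) := by
  refine ⟨by linarith, ?_⟩
  rw [cPM]
  nlinarith [mul_nonneg (sub_nonneg.2 h0) (sub_nonneg.2 h),
    mul_nonneg (mul_nonneg (sub_nonneg.2 h0) (sub_nonneg.2 h)) (sub_nonneg.2 h0),
    sq_nonneg (τ - 3)]

/-- The key inequality for `τ ≤ 21/10`. -/
lemma plain_keyA {r τ : ℝ} (hr : r ≤ 203 / 6400) (hτ : 0 ≤ τ) (h : τ ≤ 21 / 10) :
    r * τ * (66 / 10 - τ) ^ 2 ≤ (9 / 5 + (1158 / 1000) * τ ^ 2 - τ) *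
      (4 - 4 * (r * τ ^ 2) - 3 * (29 / 10 * (r * τ)) - (50 / 19 - 326 / 10000 * τ ^ 2)) ∧
    r * τ * (2 * τ - 256 / 100) ^ 2 ≤ (9 / 5 + (1158 / 1000) * τ ^ 2 - τ) *
      (4 - 4 * (r * τ ^ 2) - 3 * (29 / 10 * (r * τ)) - (50 / 19 - 326 / 10000 * τ ^ 2)) := by
  have hD : 0 ≤ 9 / 5 + 1158 / 1000 * τ ^ 2 - τ := by
    linarith [sq_nonneg (τ - 1 / 2), sq_nonneg τ]
  constructor
  · linarith [plain_lin hr (by positivity) (pAa hτ h)]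
  · linarith [plain_lin hr (by positivity) (pAb hτ h)]

/-- The key inequality for `u ≥ 3/5`. -/
lemma plain_keyB {r τ : ℝ} (hr : r ≤ 203 / 6400) (hx : r * τ ^ 2 ≤ 1 / 3)
    (h : 21 / 10 ≤ τ) (h' : τ ≤ 61 / 10) :
    r * τ * (66 / 10 - τ) ^ 2 ≤ (9 / 5 + (10857 / 10000) * τ ^ 2 - τ) *
      (4 - 4 * (r * τ ^ 2) - 3 * (56 / 25 * (r * τ)) - (5 / 7 * (2875 / 1000 - 173 / 1000 * τ))) ∧
    r * τ * (2 * τ - 256 / 100) ^ 2 ≤ (9 / 5 + (10857 / 10000) * τ ^ 2 - τ) *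
      (4 - 4 * (r * τ ^ 2) - 3 * (56 / 25 * (r * τ)) - (5 / 7 * (2875 / 1000 - 173 / 1000 * τ))) := by
  have hτ : 0 < τ := by linarith
  have hD : 0 ≤ 9 / 5 + 10857 / 10000 * τ ^ 2 - τ := by
    linarith [sq_nonneg (τ - 1 / 2), sq_nonneg τ]
  rcases le_or_gt τ (13 / 4) with h2 | h2
  · constructor
    · linarith [plain_lin hr (by positivity) (pBa h h2)]
    · linarith [plain_lin hr (by positivity) (pBb h h2)]
  · constructor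
    · linarith [plain_lin' hx hτ (by positivity) ((pCa h2.le h').trans_eq (mul_assoc _ _ _))]
    · linarith [plain_lin' hx hτ (by positivity) ((pCb h2.le h').trans_eq (mul_assoc _ _ _))]

/-- The key inequality for `u < 3/5` or a nonnegative coefficient. -/
lemma plain_keyD {r τ : ℝ} (hr0 : 0 ≤ r) (hr : r ≤ 203 / 6400) (hx : r * τ ^ 2 ≤ 1 / 3)
    (h : 21 / 10 ≤ τ) (h' : τ ≤ 61 / 10) :
    ∃ gl, 0 ≤ gl ∧ 92 / 5 * r / (τ * (τ + 1)) ≤ gl ∧ gl ≤ 1 / 10 ∧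
      r * τ * (66 / 10 - τ) ^ 2 ≤ (9 / 5 + (10857 / 10000) * τ ^ 2 - τ) *
      (4 - 4 * (r * τ ^ 2) - 3 * (gl) - (2875 / 1000 - 173 / 1000 * τ)) ∧
      r * τ * (2 * τ - 256 / 100) ^ 2 ≤ (9 / 5 + (10857 / 10000) * τ ^ 2 - τ) *
      (4 - 4 * (r * τ ^ 2) - 3 * (gl) - (2875 / 1000 - 173 / 1000 * τ)) := by
  have hτ : 0 < τ := by linarith
  have hD : 0 ≤ 9 / 5 + 10857 / 10000 * τ ^ 2 - τ := by
    linarith [sq_nonneg (τ - 1 / 2), sq_nonneg τ]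
  rcases le_or_gt τ (13 / 4) with h2 | h2
  · have hτ1 : 65 / 10 ≤ τ * (τ + 1) := by
      linarith [mul_le_mul h (show 31 / 10 ≤ τ + 1 by linarith) (by norm_num) hτ.le]
    refine ⟨92 / 5 * r / (τ * (τ + 1)), by positivity, le_rfl, ?_, ?_, ?_⟩
    · rw [div_le_iff₀ (by positivity)]; linarith
    · refine le_of_mul_le_mul_left ?_ (show 0 < τ * (τ + 1) by positivity)
      have := plain_lin hr (by positivity) (pDa h h2)
      field_simp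
      linarith
    · refine le_of_mul_le_mul_left ?_ (show 0 < τ * (τ + 1) by positivity)
      have := plain_lin hr (by positivity) (pDb h h2)
      field_simp
      linarith
  · refine ⟨4 / 3 * r, by positivity, ?_, by linarith, ?_, ?_⟩
    · rw [div_le_iff₀ (by positivity)]
      have h138 : 92 / 5 ≤ 4 / 3 * (τ * (τ + 1)) := by
        linarith [mul_le_mul h2.le (show 17 / 4 ≤ τ + 1 by linarith) (by norm_num) hτ.le]
      linarith [mul_le_mul_of_nonneg_left h138 hr0]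
    · linarith [plain_lin' hx hτ (by positivity) ((pEa h2.le h').trans_eq (mul_assoc _ _ _))]
    · linarith [plain_lin' hx hτ (by positivity) ((pEb h2.le h').trans_eq (mul_assoc _ _ _))]

/-- `negE` through the cap `2T/3`. -/
lemma negE_le_capM {b : ℝ} (he : 0 ≤ ε) (h₀ : c₀ = 9 / 5 * ε / √((m : ℝ) + 2))
    (h₁ : c₁ = 6 / 5 * ε * √((m : ℝ) + 2)) (hY : 1 ≤ Y) (hT : 0 < T)
    (hb : 21 / 5 * (1 + T ^ 2) * (2 / 3) ≤ b) :
    negE m Y c₀ c₁ T ≤ b * (ε / ((m : ℝ) + 2) * (√((m : ℝ) + 2) * T)) := by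
  obtain ⟨-, hU⟩ := UM_bounds (m := m) he h₀ h₁
  have hd : 0 ≤ Y ^ 2 - 1 := by linarith [one_le_pow₀ (n := 2) hY]
  set v := √((m : ℝ) + 2) with hvdef
  have hv0 : 0 < v := by rw [hvdef]; positivity
  have hv2 : v ^ 2 = (m : ℝ) + 2 := sq_sqrt (by positivity)
  refine le_trans (mul_le_mul (mul_le_mul_of_nonneg_right hU (by positivity))
    (min_le_right _ _) (le_min (by positivity) (by positivity)) (by positivity)) ?_
  refine le_trans (le_of_eq ?_) (mul_le_mul_of_nonneg_right hb (by positivity))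
  rw [← hv2]; field_simp

/-- `negE` through the drop, for `n (Y² - 1) ≤ 2`. -/
lemma negE_le_dropM (he : 0 ≤ ε) (h₀ : c₀ = 9 / 5 * ε / √((m : ℝ) + 2))
    (h₁ : c₁ = 6 / 5 * ε * √((m : ℝ) + 2)) (hY : 1 ≤ Y) (hT : 0 < T) (hs : T ^ 2 ≤ 2 / 21)
    (hnd : ((m : ℝ) + 2) * (Y ^ 2 - 1) ≤ 2) :
    negE m Y c₀ c₁ T ≤ 92 / 5 * (ε / ((m : ℝ) + 2)) /
      (√((m : ℝ) + 2) * T * (√((m : ℝ) + 2) * T + 1)) := by
  obtain ⟨-, hU⟩ := UM_bounds (m := m) he h₀ h₁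
  have hd : 0 ≤ Y ^ 2 - 1 := by linarith [one_le_pow₀ (n := 2) hY]
  set v := √((m : ℝ) + 2) with hvdef
  have hv0 : 0 < v := by rw [hvdef]; positivity
  have hv2 : v ^ 2 = (m : ℝ) + 2 := sq_sqrt (by positivity)
  have hR : (v * T + 1) / 2 ≤ √(1 + ((m : ℝ) + 2) * T ^ 2 / 3) := by
    refine le_sqrt_of_sq_le ?_
    rw [← hv2]; linarith [sq_nonneg (v * T - 3)]
  refine le_trans (mul_le_mul (mul_le_mul hU (add_le_add_right hs 1) (by positivity)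
    (by positivity)) ((min_le_left _ _).trans (div_le_div₀ (by positivity)
      ((le_div_iff₀' (show (0 : ℝ) < (m : ℝ) + 2 by positivity)).2 hnd) (by positivity)
      (mul_le_mul_of_nonneg_left hR hT.le))) (le_min (by positivity) (by positivity))
    (by positivity)) (le_of_eq ?_)
  rw [← hv2]; field_simp; ring

/-- A coefficient below zero for `u ≥ 3/5` is paid at `7/5` of the weight. -/
lemma neg_payM (hm : 126 ≤ m) (hm2 : m ≤ 381) (he1 : 7 / 2 ≤ ε) (he2 : ε ≤ 203 / 50)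
    (h₀ : c₀ = 9 / 5 * ε / √((m : ℝ) + 2)) (h₁ : c₁ = 6 / 5 * ε * √((m : ℝ) + 2))
    (hY : 1 ≤ Y) (hYk : Y ^ (m + 1) ≤ 2 * ((m : ℝ) + 2)) (hkap : kap = uOf m Y / 2) (hT : 0 < T)
    (hu : 3 / 5 ≤ uOf m Y) (hG0 : G < 0) (h1 : gG m ε kap T - negE m Y c₀ c₁ T ≤ G) :
    -((1 - 9 / 20 * uOf m Y) * negE m Y c₀ c₁ T) ≤ G ∧
      pre m T * (7 / 5 * cPM (((m : ℝ) + 2) * T ^ 2) * G ^ 2) ≤
        gTM m ε kap T + upTM m V Y c₀ c₁ T + ngTM m Y c₀ c₁ T := by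
  have hu1 : uOf m Y ≤ 1 :=
    sub_le_self _ (inv_nonneg.2 (pow_nonneg (zero_le_one.trans hY) _))
  have hE := negE_nonnegM (m := m) (show 0 ≤ ε by linarith) h₀ h₁ hY hT.le
  have hth := theta_leM hm hm2 he1 he2 h₀ h₁ hY hYk hkap hT
  have hng := ng_leM hm hm2 he1 he2 h₀ h₁ hY hYk hkap hT
  have hpre : 0 < pre m T := by unfold pre; positivity
  have hup : 0 ≤ upTM m V Y c₀ c₁ T := by unfold upTM cPM; positivity
  have hM : max (negE m Y c₀ c₁ T - gG m ε kap T) 0 ≤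
      (1 - 9 / 20 * uOf m Y) * negE m Y c₀ c₁ T :=
    max_le (by linarith) (mul_nonneg (by linarith) hE)
  refine ⟨by linarith [le_max_left (negE m Y c₀ c₁ T - gG m ε kap T) 0], ?_⟩
  have hcz := (cPM_pos (show 0 ≤ ((m : ℝ) + 2) * T ^ 2 by positivity)).le
  set c := cPM (((m : ℝ) + 2) * T ^ 2)
  set M0 := max (negE m Y c₀ c₁ T - gG m ε kap T) 0 with hM0
  have hM00 : 0 ≤ M0 := le_max_right _ _
  have h5 : G ^ 2 ≤ M0 ^ 2 := by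
    have := pow_le_pow_left₀ (show 0 ≤ -G by linarith)
      (show -G ≤ M0 from le_trans (by linarith) (le_max_left _ _)) 2
    rwa [neg_sq] at this
  have h6 : 27 / 73 * M0 ≤ gG m ε kap T := by
    have h7 := mul_le_mul_of_nonneg_right hu hE
    linarith
  have h8 : 2 / 5 * M0 ^ 2 ≤ 3 * gG m ε kap T ^ 2 := by
    linarith [pow_le_pow_left₀ (by positivity) h6 2, sq_nonneg M0]
  have h9 := mul_le_mul_of_nonneg_left (mul_le_mul_of_nonneg_left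
    (show 7 / 5 * G ^ 2 ≤ 3 * gG m ε kap T ^ 2 + M0 ^ 2 by linarith) hcz) hpre.le
  simp only [gTM]
  linarith

/-- `negPlain_core` against the loss. -/
lemma negPlain_run {a gl W c : ℝ} (hm : 126 ≤ m) (hm2 : m ≤ 381) (he1 : 7 / 2 ≤ ε)
    (h₀ : c₀ = 9 / 5 * ε / √((m : ℝ) + 2)) (h₁ : c₁ = 6 / 5 * ε * √((m : ℝ) + 2))
    (hY : 1 ≤ Y) (hkap : kap = uOf m Y / 2) (hR : RegC Y T σ h) (hσ : σ ≤ T)
    (hz : ε * T ^ 2 ≤ 1 / 3) (hgl : 0 ≤ gl) (hgl2 : gl ≤ 1 / 2) (hG : -gl ≤ G) (ha : 1 ≤ a)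
    (has : a * (1 + T ^ 2) ≤ 6 / 5) (hW : 0 < W) (hcW : 1 ≤ c * W)
    (hc : pre m T * (c * G ^ 2) ≤ gTM m ε kap T + upTM m V Y c₀ c₁ T + ngTM m Y c₀ c₁ T)
    (k : ∀ r τ, r = ε / ((m : ℝ) + 2) → τ = √((m : ℝ) + 2) * T →
      r * τ * (66 / 10 - τ) ^ 2 ≤ (9 / 5 + a * τ ^ 2 - τ) * (4 - 4 * (r * τ ^ 2) - 3 * gl - W) ∧
      r * τ * (2 * τ - 256 / 100) ^ 2 ≤
        (9 / 5 + a * τ ^ 2 - τ) * (4 - 4 * (r * τ ^ 2) - 3 * gl - W)) :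
    ∃ L, L ≤ valQ ε T σ h + (2 * (shP m c₀ c₁ T / pre m T) * (σ - T) + G) * (h - 1) ∧
      loD Y T * (ellFlat m ε kap (rr (m + 1)) T + nuFlat m ε kap T) -
          (gTM m ε kap T + upTM m V Y c₀ c₁ T + ngTM m Y c₀ c₁ T) - etaM m Y T ≤
        pre m T * L + (σ - T) * ellFlat m ε kap (rr (m + 1)) T +
          (σ - T) ^ 2 * (shP' m c₀ c₁ T + 2 * muX m T * shS m c₀ c₁ T) := by
  obtain ⟨hn, hn2⟩ := n_bounds hm hm2
  have hT : 0 < T := hR.T_pos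
  have he : 0 < ε := by linarith
  have hpre : 0 < pre m T := by unfold pre; positivity
  have hu1 : uOf m Y ≤ 1 :=
    sub_le_self _ (inv_nonneg.2 (pow_nonneg (zero_le_one.trans hY) _))
  have hu0 : 0 ≤ uOf m Y := sub_nonneg.2 (inv_le_one_of_one_le₀ (one_le_pow₀ hY))
  have hk0 : 0 ≤ kap := by linarith
  have hν := nuFlat_nonneg (m := m) (ε := ε) (kap := kap) (by linarith) hk0 hT.le
  have hl : 0 ≤ ellFlat m ε kap (rr (m + 1)) T + nuFlat m ε kap T := by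
    have h := ellFlat_ge (m := m) (ε := ε) (by omega) (by linarith) hk0 (by linarith) hT.le
    rw [nuFlat]; linarith
  have hlo : loD Y T ≤ σ - T := by
    have h := (sqrt_le_left hR.σ_pos.le).2 hR.σ_low
    rw [loD, show T ^ 2 + 1 - Y ^ 2 = 1 + T ^ 2 - Y ^ 2 by ring]
    linarith
  have hs : T ^ 2 ≤ 2 / 21 := by linarith [mul_le_mul_of_nonneg_right he1 (sq_nonneg T)]
  have hz366 : (√((m : ℝ) + 2) * T) ^ 2 ≤ 366 / 10 := by
    rw [mul_pow, sq_sqrt (by positivity)]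
    linarith [mul_le_mul hn2 hs (sq_nonneg T) (by norm_num)]
  obtain ⟨k1, k2⟩ := k _ _ rfl rfl
  obtain ⟨L, hL, hle⟩ := negPlain_core hm he h₀ h₁ hT hR.h_pos hR.σ_pos.le hσ hlo rfl hz366
    hgl hG (by linarith) hν hl ha has hW k1 k2
  refine ⟨L, hL, le_trans ?_ hle⟩
  have heta : 0 ≤ etaM m Y T := by unfold etaM; positivity
  have h3 : G ^ 2 / W ≤ c * G ^ 2 := by
    rw [div_le_iff₀ hW]; linarith [mul_le_mul_of_nonneg_left hcW (sq_nonneg G)]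
  linarith [mul_le_mul_of_nonneg_left h3 hpre.le]

/-- **The side `σ ≤ T` for `ε T² ≤ 1/3`.** -/
theorem negX_plainM (hm : 126 ≤ m) (hm2 : m ≤ 381) (he1 : 7 / 2 ≤ ε) (he2 : ε ≤ 203 / 50)
    (h₀ : c₀ = 9 / 5 * ε / √((m : ℝ) + 2)) (h₁ : c₁ = 6 / 5 * ε * √((m : ℝ) + 2))
    (hY : 1 ≤ Y) (hYk : Y ^ (m + 1) ≤ 2 * ((m : ℝ) + 2)) (hkap : kap = uOf m Y / 2)
    (hR : RegC Y T σ h) (hσ : σ ≤ T) (hz : ε * T ^ 2 ≤ 1 / 3)
    (h1 : gG m ε kap T - negE m Y c₀ c₁ T ≤ G)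
    (h2 : G ≤ gG m ε kap T + stateUp m V Y c₀ c₁ T) :
    ∃ L, L ≤ valQ ε T σ h + (2 * (shP m c₀ c₁ T / pre m T) * (σ - T) + G) * (h - 1) ∧
      loD Y T * (ellFlat m ε kap (rr (m + 1)) T + nuFlat m ε kap T) -
          (gTM m ε kap T + upTM m V Y c₀ c₁ T + ngTM m Y c₀ c₁ T) - etaM m Y T ≤
        pre m T * L + (σ - T) * ellFlat m ε kap (rr (m + 1)) T +
          (σ - T) ^ 2 * (shP' m c₀ c₁ T + 2 * muX m T * shS m c₀ c₁ T) := by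
  obtain ⟨hn, hn2⟩ := n_bounds hm hm2
  have hT : 0 < T := hR.T_pos
  have he : 0 ≤ ε := by linarith
  have hE := negE_nonnegM (m := m) he h₀ h₁ hY hT.le
  have hu0 : 0 ≤ uOf m Y := sub_nonneg.2 (inv_le_one_of_one_le₀ (one_le_pow₀ hY))
  have hg := gG_nonneg (m := m) (T := T) (show 0 ≤ 1 + ε by linarith) (show 0 ≤ kap by linarith)
  have hpay := sq_payM (V := V) hm hm2 he1 he2 h₀ h₁ hY hYk hkap hT h1 h2
  set r := ε / ((m : ℝ) + 2) with hr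
  set τ := √((m : ℝ) + 2) * T with hτ
  have hτ0 : 0 < τ := by rw [hτ]; positivity
  have hτ2 : τ ^ 2 = ((m : ℝ) + 2) * T ^ 2 := by rw [hτ, mul_pow, sq_sqrt (by positivity)]
  have hr0 : 0 ≤ r := by rw [hr]; positivity
  have hr1 : r ≤ 203 / 6400 := by rw [hr, div_le_iff₀ (by positivity)]; linarith
  have hrx : r * τ ^ 2 ≤ 1 / 3 := by
    refine le_of_eq_of_le ?_ hz
    rw [hτ2, hr]; field_simp
  have hs : T ^ 2 ≤ 2 / 21 := by linarith [mul_le_mul_of_nonneg_right he1 (sq_nonneg T)]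
  have hτ61 : τ ≤ 61 / 10 := le_of_pow_le_pow_left₀ two_ne_zero (by norm_num)
    (by rw [hτ2]; linarith [mul_le_mul hn2 hs (sq_nonneg T) (by norm_num)])
  rcases le_or_gt τ (21 / 10) with h21 | h21
  · have hT2 : T ^ 2 ≤ 441 / 12800 := by
      rw [le_div_iff₀ (by norm_num)]
      linarith [mul_le_mul_of_nonneg_right hn (sq_nonneg T), pow_le_pow_left₀ hτ0.le h21 2]
    obtain ⟨hW, hcW⟩ := plain_W1 hτ0.le h21
    have hE' := negE_le_capM (m := m) (b := 29 / 10) he h₀ h₁ hY hT (by linarith)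
    have hrt : r * τ ≤ 203 / 6400 * (21 / 10) := mul_le_mul hr1 h21 hτ0.le (by norm_num)
    refine negPlain_run (a := 1158 / 1000) (gl := 29 / 10 * (r * τ)) (c := cPM (τ ^ 2)) hm hm2 he1
      h₀ h₁ hY hkap hR hσ hz (by positivity) (by linarith) (by rw [hr, hτ]; linarith) (by norm_num)
      (by linarith) hW hcW (by rw [hτ2]; exact hpay) ?_
    rintro _ _ rfl rfl
    exact plain_keyA hr1 hτ0.le h21
  obtain ⟨hW, hcW⟩ := plain_W2 h21.le hτ61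
  by_cases hc : uOf m Y < 3 / 5 ∨ 0 ≤ G
  · obtain ⟨gl, hgl0, hgl, hgl1, k⟩ := plain_keyD hr0 hr1 hrx h21.le hτ61
    have hG : -gl ≤ G := by
      rcases hc with hu | hG0
      · have h3 := negE_le_dropM he h₀ h₁ hY hT hs (nd_le_small hm hY hu)
        rw [← hr, ← hτ] at h3
        linarith
      · linarith
    refine negPlain_run (a := 10857 / 10000) (gl := gl) (c := cPM (τ ^ 2)) hm hm2 he1
      h₀ h₁ hY hkap hR hσ hz hgl0 (by linarith) hG (by norm_num) (by linarith) hW hcW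
      (by rw [hτ2]; exact hpay) ?_
    rintro _ _ rfl rfl
    exact k
  · rw [not_or, not_lt, not_le] at hc
    obtain ⟨hu, hG0⟩ := hc
    obtain ⟨hGl, hc7⟩ := neg_payM (V := V) hm hm2 he1 he2 h₀ h₁ hY hYk hkap hT hu hG0 h1
    have hEc := negE_le_capM (m := m) (b := 224 / 73) he h₀ h₁ hY hT (by linarith)
    rw [← hr, ← hτ] at hEc
    have h4 := mul_le_mul_of_nonneg_right
      (show 1 - 9 / 20 * uOf m Y ≤ 73 / 100 by linarith) hE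
    have hrt : r * τ ≤ 10 / 63 := by
      refine le_of_mul_le_mul_right ?_ hτ0
      linarith
    refine negPlain_run (a := 10857 / 10000) (gl := 56 / 25 * (r * τ))
      (W := 5 / 7 * (2875 / 1000 - 173 / 1000 * τ)) (c := 7 / 5 * cPM (τ ^ 2)) hm hm2 he1
      h₀ h₁ hY hkap hR hσ hz (by positivity) (by linarith) (by linarith) (by norm_num)
      (by linarith) (by linarith) (by linarith) (by rw [hτ2]; exact hc7) ?_
    rintro _ _ rfl rfl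
    exact plain_keyB hr1 hrx h21.le hτ61

end Vale.Agent.P237.Cal.MidN
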