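import Vale.Agent.P237.Cal.Mid.Ints
import Vale.Agent.P237.Cal.Mid.NegTanPoly
import Vale.Agent.P237.Cal.EllTan

/-!
# P237: the flattened weight, the weight of `D²` and the state bounds for `εT² ≥ 1/3`, `n ≥ 128`

The slope bound is affine in `ε` and in `1/√n` against an affine weight, so by Cauchy its four
corners suffice; the bounds of the state are affine in `ε` and in `1/n`.
-/

open Real

namespace Vale.Agent.P237.Cal.MidN

variable {m : ℕ} {Y T ε kap b : ℝ}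

/-- The flattened weight against its share of `N` on `1.04 ≤ W ≤ 2.93`. -/
lemma flat_PM {W N : ℝ} (hN : 128 ≤ N) (hW : 104 / 100 ≤ W) (hW3 : W ≤ 293 / 100) :
    W ^ 2 * (387 / 100 * (W ^ 2 - 1 - 82 / 1000)) ≤
      N * (98 / 100 * ((W - 1004 / 1000) ^ 2 * (2 * W + 1)) - 3 / 8 * (W ^ 2 - 1) ^ 2 +
        (W ^ 2 - 1) ^ 3 / 20) := by
  have hpoly : 387 / 100 * (W ^ 2 - 1 - 82 / 1000) * W ^ 2 / 128 ≤
      98 / 100 * ((W - 1004 / 1000) ^ 2 * (2 * W + 1)) - 3 / 8 * (W ^ 2 - 1) ^ 2 +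
        (W ^ 2 - 1) ^ 3 / 20 := by
    have := flat_tan_polyM (W := W) (by linarith) (by linarith)
    linarith
  have hWs := pow_le_pow_left₀ (by norm_num : (0 : ℝ) ≤ 104 / 100) hW 2
  have hs0 : 0 ≤ W ^ 2 - 1 := by linarith
  rcases le_or_gt (W ^ 2 - 1) (82 / 1000) with h6 | h6
  · have hb : (104 / 100 - 1004 / 1000) ^ 2 ≤ (W - 1004 / 1000) ^ 2 :=
      pow_le_pow_left₀ (by norm_num) (by linarith) 2
    have hc := mul_le_mul hb (show (308 : ℝ) / 100 ≤ 2 * W + 1 by linarith) (by norm_num)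
      (sq_nonneg _)
    have hd := pow_le_pow_left₀ hs0 h6 2
    have he := pow_nonneg hs0 3
    refine le_trans (mul_nonpos_of_nonneg_of_nonpos (sq_nonneg W) (by linarith))
      (mul_nonneg (by linarith) ?_)
    generalize (W - 1004 / 1000) ^ 2 * (2 * W + 1) = M at hc ⊢
    generalize (W ^ 2 - 1) ^ 3 = C at he ⊢
    generalize (W ^ 2 - 1) ^ 2 = B at hd ⊢
    linarith
  · have h0 : 0 ≤ 387 / 100 * (W ^ 2 - 1 - 82 / 1000) * W ^ 2 / 128 :=
      div_nonneg (mul_nonneg (by linarith) (sq_nonneg W)) (by norm_num)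
    refine le_trans (le_of_eq ?_) (mul_le_mul hN hpoly h0 (by linarith))
    ring

/-- The real inequality of the flattened weight. -/
lemma flat_tanM {W r N kap : ℝ} (hN : 128 ≤ N) (hW : 104 / 100 ≤ W) (hr1 : 1 ≤ r)
    (hr2 : r ≤ 1004 / 1000) (hk0 : 0 ≤ kap) (hk : kap ≤ 1 / 2) :
    W ^ 2 * min (387 / 100 * (W ^ 2 - 1 - 82 / 1000)) (161 / 100) ≤
      (N + 2) * ((W - r) ^ 2 * (2 * W + r) / r ^ 3) +
        kap / N * (-(3 / 4) * (N * (W ^ 2 - 1) - 1) ^ 2 +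
          (W ^ 2 - 1) * (3 / 2 * (N * (W ^ 2 - 1)) - 15 / 4)) +
        kap * (5 / 2 * W ^ 2 / N ^ 2 + N * (W ^ 2 - 1) ^ 3 / 10) := by
  have hN0 : 0 < N := by linarith
  have hr0 : 0 < r := by linarith
  have hWs := pow_le_pow_left₀ (by norm_num : (0 : ℝ) ≤ 104 / 100) hW 2
  set s := W ^ 2 - 1 with hs
  have hs0 : 81 / 1000 ≤ s := by rw [hs]; linarith
  have hr3 : r ^ 3 ≤ (1004 / 1000) ^ 3 := pow_le_pow_left₀ hr0.le hr2 3
  have hWr : 0 ≤ W - 1004 / 1000 := by linarith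
  have hmain : N * (98 / 100 * ((W - 1004 / 1000) ^ 2 * (2 * W + 1))) ≤
      (N + 2) * ((W - r) ^ 2 * (2 * W + r) / r ^ 3) := by
    have h1 : (W - 1004 / 1000) ^ 2 * (2 * W + 1) ≤ (W - r) ^ 2 * (2 * W + r) :=
      mul_le_mul (pow_le_pow_left₀ hWr (by linarith) 2) (by linarith) (by linarith) (sq_nonneg _)
    have h2 : 98 / 100 * ((W - r) ^ 2 * (2 * W + r)) ≤ (W - r) ^ 2 * (2 * W + r) / r ^ 3 := by
      rw [le_div_iff₀ (by positivity)]
      have h3 : 0 ≤ (W - r) ^ 2 * (2 * W + r) := mul_nonneg (sq_nonneg _) (by linarith)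
      have h4 := mul_le_mul_of_nonneg_left hr3 h3
      linarith
    refine mul_le_mul (by linarith) (by linarith) (by
      have : 0 ≤ 2 * W + 1 := by linarith
      positivity) (by linarith)
  have h1 : 0 ≤ (3 / 2 * s ^ 2) / N +
      (3 / 2 * s - 3 / (4 * N) - 15 / 4 * s / N + 5 / 2 * W ^ 2 / N ^ 2) / N := by
    have a1 : 3 / (4 * N) ≤ 3 / 512 := by rw [div_le_div_iff₀] <;> linarith
    have a2 : 15 / 4 * s / N ≤ s / 2 := by
      rw [div_le_iff₀ hN0]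
      linarith [mul_le_mul_of_nonneg_left hN (show 0 ≤ s / 2 by linarith)]
    have a3 : 0 ≤ 5 / 2 * W ^ 2 / N ^ 2 := by positivity
    have a4 : 0 ≤ 3 / 2 * s - 3 / (4 * N) - 15 / 4 * s / N + 5 / 2 * W ^ 2 / N ^ 2 := by linarith
    have : 0 ≤ (3 / 2 * s ^ 2) / N := by positivity
    linarith [div_nonneg a4 hN0.le]
  have e : kap / N * (-(3 / 4) * (N * s - 1) ^ 2 + s * (3 / 2 * (N * s) - 15 / 4)) +
      kap * (5 / 2 * W ^ 2 / N ^ 2 + N * s ^ 3 / 10) =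
      kap * N * (-(3 / 4) * s ^ 2 + s ^ 3 / 10 + (3 / 2 * s ^ 2) / N +
        (3 / 2 * s - 3 / (4 * N) - 15 / 4 * s / N + 5 / 2 * W ^ 2 / N ^ 2) / N) := by
    field_simp
    ring
  rw [add_assoc, e]
  set G := -(3 / 4) * s ^ 2 + s ^ 3 / 10 + (3 / 2 * s ^ 2) / N +
    (3 / 2 * s - 3 / (4 * N) - 15 / 4 * s / N + 5 / 2 * W ^ 2 / N ^ 2) / N with hG
  have hmain0 : 0 ≤ 98 / 100 * ((W - 1004 / 1000) ^ 2 * (2 * W + 1)) :=
    mul_nonneg (by norm_num) (mul_nonneg (sq_nonneg _) (by linarith))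
  rcases le_or_gt s (15 / 2) with h | h
  · have h3 : -(3 / 4) * s ^ 2 + s ^ 3 / 10 ≤ 0 := by
      nlinarith [mul_le_mul_of_nonneg_left h (sq_nonneg s)]
    have h4 := mul_le_mul_of_nonpos_right hk h3
    have h5 := mul_le_mul_of_nonneg_left
      (show -(3 / 8) * s ^ 2 + s ^ 3 / 20 ≤ kap * G by
        rw [hG]; linarith [mul_nonneg hk0 h1]) hN0.le
    have hW3 : W ≤ 293 / 100 := by
      refine le_of_pow_le_pow_left₀ two_ne_zero (by norm_num) ?_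
      norm_num
      linarith
    have h6 := flat_PM hN hW hW3
    rw [← hs] at h6
    refine le_trans (mul_le_mul_of_nonneg_left (min_le_left _ _) (sq_nonneg W)) ?_
    generalize W ^ 2 * (387 / 100 * (s - 82 / 1000)) = L at h6 ⊢
    generalize 98 / 100 * ((W - 1004 / 1000) ^ 2 * (2 * W + 1)) = M at h6 hmain
    generalize (N + 2) * ((W - r) ^ 2 * (2 * W + r) / r ^ 3) = MM at hmain ⊢
    linarith
  · have h3 : 0 ≤ -(3 / 4) * s ^ 2 + s ^ 3 / 10 := by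
      nlinarith [mul_le_mul_of_nonneg_left h.le (sq_nonneg s)]
    have h5 : 0 ≤ kap * N * G :=
      mul_nonneg (mul_nonneg hk0 hN0.le) (by rw [hG]; linarith)
    have hW3 : 29 / 10 ≤ W := by
      refine le_of_pow_le_pow_left₀ two_ne_zero (by linarith) ?_
      norm_num
      linarith
    refine le_trans (mul_le_mul_of_nonneg_left (min_le_right _ _) (sq_nonneg W)) ?_
    have h9 : W ^ 2 * (161 / 100) ≤ 128 * (98 / 100 * ((W - 1004 / 1000) ^ 2 * (2 * W + 1))) := by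
      have a := mul_le_mul (pow_le_pow_left₀ (by linarith : 0 ≤ W / 2)
          (by linarith : W / 2 ≤ W - 1004 / 1000) 2)
        (show (1 : ℝ) ≤ 2 * W + 1 by linarith) zero_le_one (sq_nonneg _)
      linarith [sq_nonneg W]
    have h11 := mul_le_mul_of_nonneg_right hN hmain0
    exact h9.trans (h11.trans (hmain.trans (le_add_of_nonneg_right h5)))

/-- `1/12.19 ≤ T²` in the zone. -/
lemma tanT_ge (hT : 0 < T) (he2 : ε ≤ 203 / 50) (hz : 1 / 3 ≤ ε * T ^ 2) :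
    50 / 609 ≤ T ^ 2 ∧ 286 / 1000 ≤ T := by
  have := mul_le_mul_of_nonneg_right he2 (sq_nonneg T)
  refine ⟨by linarith, le_of_pow_le_pow_left₀ two_ne_zero hT.le ?_⟩
  norm_num
  linarith

/-- **The weight in the tangent zone.** -/
theorem ellFlat_tanM (hm : 126 ≤ m) (hε1 : 7 / 2 ≤ ε) (hε2 : ε ≤ 203 / 50) (hk0 : 0 ≤ kap)
    (hk : kap ≤ 1 / 2) (hT : 0 < T) (hz : 1 / 3 ≤ ε * T ^ 2)
    (hb : b = (ε * T ^ 2 - 1 / 3) / (T ^ 2 + 1 / 3)) :
    2 * b * pre m T / T ≤ ellFlat m ε kap (rr (m + 1)) T + nuFlat m ε kap T := by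
  have hm' := cast_ge hm
  have hr1 := (one_lt_rr (k := m + 1) (by omega)).le
  have hr0 : 0 < rr (m + 1) := one_pos.trans_le hr1
  have hr2 : rr (m + 1) ≤ 1004 / 1000 := by
    have h := rr_le (k := m + 1) (by omega)
    push_cast at h
    have h5 : (250 : ℝ) ≤ 2 * ((m : ℝ) + 1) + 1 := by linarith
    have := one_div_le_one_div_of_le (by norm_num : (0 : ℝ) < 250) h5
    linarith
  obtain ⟨hs, -⟩ := tanT_ge hT hε2 hz
  have hW : 104 / 100 ≤ √(1 + T ^ 2) := by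
    rw [le_sqrt (by norm_num) (by positivity)]; norm_num; linarith
  have h := flat_tanM (N := (m : ℝ) + 2) hm' hW hr1 hr2 hk0 hk
  rw [show (m : ℝ) + 2 + 2 = (m : ℝ) + 4 by ring, w_sq, add_sub_cancel_left] at h
  set s := T ^ 2 with hsdef
  set φ := min (387 / 100 * (s - 82 / 1000)) (161 / 100) with hφ
  -- `2 b ≤ (1 + ε) φ`
  have h1 : 2 * b ≤ (1 + ε) * φ := by
    have hsp : 0 < s + 1 / 3 := by linarith
    have hb' : 2 * b = 2 * (ε * s - 1 / 3) / (s + 1 / 3) := by rw [hb]; ring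
    rw [hb', div_le_iff₀ hsp, hφ, mul_min_of_nonneg _ _ (by linarith : 0 ≤ 1 + ε),
      min_mul_of_nonneg _ _ hsp.le]
    have h82 : 0 ≤ s - 82 / 1000 := by linarith
    refine le_min ?_ ?_
    · have hq := sq_nonneg (s - 50 / 609)
      have hq' := mul_nonneg h82 hsp.le
      rcases le_or_gt (2 * s) (387 / 100 * ((s - 82 / 1000) * (s + 1 / 3))) with c | c
      · have := mul_le_mul_of_nonneg_left c (by linarith : 0 ≤ ε)
        linarith
      · have := mul_nonneg (sub_nonneg.2 hε2) (sub_nonneg.2 c.le)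
        linarith
    · have := mul_le_mul_of_nonneg_left hε2 (show 0 ≤ 2 * s - 161 / 100 * (s + 1 / 3) + 1 by linarith)
      linarith
  have hq : 0 ≤ ((m : ℝ) + 1) * (T / √(1 + s) ^ (m + 6)) := by positivity
  have h2 := mul_le_mul_of_nonneg_left h1 (mul_nonneg hq (sq_nonneg √(1 + s)))
  have h3 := mul_le_mul_of_nonneg_left h (mul_nonneg hq (by linarith : 0 ≤ 1 + ε))
  have hw := w_pos T
  rw [← hsdef] at hw
  have e1 : 2 * b * pre m T / T =
      ((m : ℝ) + 1) * (T / √(1 + s) ^ (m + 6)) * √(1 + s) ^ 2 * (2 * b) := by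
    rw [pre, ← hsdef, show m + 6 = m + 4 + 2 from rfl, pow_add]
    field_simp
    rw [hsdef]
    ring
  have e2 : nuFlat m ε kap T = ((m : ℝ) + 1) * (T / √(1 + s) ^ (m + 6)) * (1 + ε) *
      (kap * (5 / 2 * (1 + s) / ((m : ℝ) + 2) ^ 2 + ((m : ℝ) + 2) * s ^ 3 / 10)) := by
    have e : √(1 + s) ^ (m + 6) = √(1 + s) ^ (m + 4) * (1 + s) := by
      rw [show m + 6 = m + 4 + 2 from rfl, pow_add, sq_sqrt (by linarith : (0 : ℝ) ≤ 1 + s)]
    simp only [nuFlat, muX, ← hsdef, e]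
    field_simp
    rw [hsdef]
    ring
  rw [e1, ellFlat_eq hr0.ne' T, ← hsdef, e2]
  rw [sq_sqrt (by linarith : (0 : ℝ) ≤ 1 + s)] at h2 ⊢
  simp only [flatB, ← hsdef]
  linarith

/-- A square over an affine weight against an affine function: the corners suffice. -/
lemma engel_mix {c l μ a₀ a₁ p₀ p₁ r₀ r₁ : ℝ} (hc : 0 ≤ c) (hl : 0 ≤ l) (hμ : 0 ≤ μ)
    (hp₀ : 0 < p₀) (hp₁ : 0 < p₁) (h₀ : c * a₀ ^ 2 ≤ p₀ * r₀) (h₁ : c * a₁ ^ 2 ≤ p₁ * r₁) :
    c * (l * a₀ + μ * a₁) ^ 2 ≤ (l * p₀ + μ * p₁) * (l * r₀ + μ * r₁) := by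
  have hr₀ : 0 ≤ r₀ := nonneg_of_mul_nonneg_right ((mul_nonneg hc (sq_nonneg _)).trans h₀) hp₀
  have hr₁ : 0 ≤ r₁ := nonneg_of_mul_nonneg_right ((mul_nonneg hc (sq_nonneg _)).trans h₁) hp₁
  have hx : 2 * c * a₀ * a₁ ≤ p₀ * r₁ + p₁ * r₀ := by
    refine (abs_le_of_sq_le_sq' ?_ (by positivity)).2
    have := mul_le_mul h₀ h₁ (by positivity) (mul_nonneg hp₀.le hr₀)
    nlinarith [sq_nonneg (p₀ * r₁ - p₁ * r₀)]
  linarith [mul_le_mul_of_nonneg_left h₀ (sq_nonneg l), mul_le_mul_of_nonneg_left h₁ (sq_nonneg μ),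
    mul_le_mul_of_nonneg_left hx (mul_nonneg hl hμ)]

/-- `1 + b`. -/
noncomputable def tB (e T : ℝ) : ℝ := (1 + e) * T ^ 2 / (T ^ 2 + 1 / 3)

/-- The room for the slope, with the linear bound of `√n`. -/
noncomputable def tR (ρ e w T : ℝ) : ℝ :=
  e * (6 / 5 * (29 - 841 / 4 * w)) * T ^ 3 / (1 + T ^ 2) + 9 / 5 * e * w * T + ρ * T ^ 4 - tB e T / 3

/-- The slope at the lower end of the field, times `T (1+b)`. -/
noncomputable def tX0 (e w T : ℝ) : ℝ := 2 / 3 * tB e T - 47 / 20 * e * w * T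

/-- The slope at the upper end of the field, times `T (1+b)`. -/
noncomputable def tX1 (e w T : ℝ) : ℝ := 817 / 250 * e * w * T - tB e T / 3

/-- The two inequalities of the weight of `D²`. -/
def TanW (ρ e w T : ℝ) : Prop :=
  40 / 9 * tX0 e w T ^ 2 ≤ tB e T * tR ρ e w T ∧ 40 / 9 * tX1 e w T ^ 2 ≤ tB e T * tR ρ e w T

lemma tanW_of_poly {ρ e w T : ℝ}
    (h0 : 0 ≤ (tB e T * tR ρ e w T - 40 / 9 * tX0 e w T ^ 2) * ((T ^ 2 + 1 / 3) ^ 2 * (1 + T ^ 2)))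
    (h1 : 0 ≤ (tB e T * tR ρ e w T - 40 / 9 * tX1 e w T ^ 2) * ((T ^ 2 + 1 / 3) ^ 2 * (1 + T ^ 2))) :
    TanW ρ e w T :=
  ⟨sub_nonneg.1 (nonneg_of_mul_nonneg_left h0 (by positivity)),
    sub_nonneg.1 (nonneg_of_mul_nonneg_left h1 (by positivity))⟩

lemma tanW_corners (h0 : 286 / 1000 ≤ T) {ρ : ℝ}
    (hρ : ρ = 0 ∧ T ≤ 22 / 25 ∨ ρ = 1 ∧ 22 / 25 ≤ T) :
    (TanW ρ (7 / 2) (884 / 10000) T ∧ TanW ρ (7 / 2) (51 / 1000) T) ∧
      (TanW ρ (203 / 50) (884 / 10000) T ∧ TanW ρ (203 / 50) (51 / 1000) T) := by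
  have h0' : (143 : ℝ) / 500 ≤ T := by linarith
  rcases hρ with ⟨rfl, hT⟩ | ⟨rfl, hT⟩
  · refine ⟨⟨?_, ?_⟩, ?_, ?_⟩ <;> refine tanW_of_poly ?_ ?_ <;> simp only [tB, tR, tX0, tX1]
    · refine (tanC000 h0' hT).trans_eq ?_; field_simp; ring
    · refine (tanC100 h0' hT).trans_eq ?_; field_simp; ring
    · refine (tanC001 h0' hT).trans_eq ?_; field_simp; ring
    · refine (tanC101 h0' hT).trans_eq ?_; field_simp; ring
    · refine (tanC010 h0' hT).trans_eq ?_; field_simp; ring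
    · refine (tanC110 h0' hT).trans_eq ?_; field_simp; ring
    · refine (tanC011 h0' hT).trans_eq ?_; field_simp; ring
    · refine (tanC111 h0' hT).trans_eq ?_; field_simp; ring
  · refine ⟨⟨?_, ?_⟩, ?_, ?_⟩ <;> refine tanW_of_poly ?_ ?_ <;> simp only [tB, tR, tX0, tX1]
    · refine (tanC000R hT).trans_eq ?_; field_simp; ring
    · refine (tanC100R hT).trans_eq ?_; field_simp; ring
    · refine (tanC001R hT).trans_eq ?_; field_simp; ring
    · refine (tanC101R hT).trans_eq ?_; field_simp; ring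
    · refine (tanC010R hT).trans_eq ?_; field_simp; ring
    · refine (tanC110R hT).trans_eq ?_; field_simp; ring
    · refine (tanC011R hT).trans_eq ?_; field_simp; ring
    · refine (tanC111R hT).trans_eq ?_; field_simp; ring

/-- **The weight of `D²`**, `ρ = 1` from `T = 22/25` on. -/
theorem tanW {ρ w : ℝ} (h0 : 286 / 1000 ≤ T) (hρ : ρ = 0 ∧ T ≤ 22 / 25 ∨ ρ = 1 ∧ 22 / 25 ≤ T)
    (he1 : 7 / 2 ≤ ε) (he2 : ε ≤ 203 / 50) (hw1 : 51 / 1000 ≤ w) (hw2 : w ≤ 884 / 10000) :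
    TanW ρ ε w T := by
  have hT : 0 < T := by linarith
  obtain ⟨⟨a00, a01⟩, a10, a11⟩ := tanW_corners h0 hρ
  obtain ⟨l, hl, hl1, rfl⟩ : ∃ l, 0 ≤ l ∧ 0 ≤ 1 - l ∧
      w = l * (884 / 10000) + (1 - l) * (51 / 1000) :=
    ⟨(w - 51 / 1000) / (374 / 10000), div_nonneg (by linarith) (by norm_num),
      by rw [sub_nonneg, div_le_one (by norm_num)]; linarith, by ring⟩
  obtain ⟨r, hr, hr1, rfl⟩ : ∃ r, 0 ≤ r ∧ 0 ≤ 1 - r ∧
      ε = r * (7 / 2) + (1 - r) * (203 / 50) :=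
    ⟨(203 / 50 - ε) / (28 / 50), div_nonneg (by linarith) (by norm_num),
      by rw [sub_nonneg, div_le_one (by norm_num)]; linarith, by ring⟩
  have hc : (0 : ℝ) ≤ 40 / 9 := by norm_num
  have hB : ∀ e : ℝ, 0 ≤ e → 0 < tB e T := fun e he => by unfold tB; positivity
  have hp : ∀ e : ℝ, 0 ≤ e → 0 < l * tB e T + (1 - l) * tB e T := fun e he => by
    rw [← add_mul, add_sub_cancel, one_mul]; exact hB e he
  constructor
  · have u0 := engel_mix hc hl hl1 (hB _ (by norm_num)) (hB _ (by norm_num)) a00.1 a01.1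
    have u1 := engel_mix hc hl hl1 (hB _ (by norm_num)) (hB _ (by norm_num)) a10.1 a11.1
    have := engel_mix hc hr hr1 (hp (7 / 2) (by norm_num))
      (hp (203 / 50) (by norm_num)) u0 u1
    refine le_of_eq_of_le ?_ (this.trans_eq ?_) <;> simp only [tX0, tB, tR] <;> ring
  · have u0 := engel_mix hc hl hl1 (hB _ (by norm_num)) (hB _ (by norm_num)) a00.2 a01.2
    have u1 := engel_mix hc hl hl1 (hB _ (by norm_num)) (hB _ (by norm_num)) a10.2 a11.2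
    have := engel_mix hc hr hr1 (hp (7 / 2) (by norm_num))
      (hp (203 / 50) (by norm_num)) u0 u1
    refine le_of_eq_of_le ?_ (this.trans_eq ?_) <;> simp only [tX1, tB, tR] <;> ring

/-- `n (Y² - 1) ≤ u (1657/100000 n + 11756/1000)`. -/
lemma d_u_le (hm : 126 ≤ m) (hY : 1 ≤ Y) (hYk : Y ^ (m + 1) ≤ 2 * ((m : ℝ) + 2)) :
    ((m : ℝ) + 2) * (Y ^ 2 - 1) ≤
      uOf m Y * (1657 / 100000 * ((m : ℝ) + 2) + 11756 / 1000) := by
  have hn := cast_ge hm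
  have hd := d_le_mid hm hY hYk
  obtain ⟨hyw, -⟩ := y_w_le (m := m) hY
  obtain ⟨hu0, -⟩ := u_bounds (m := m) hY
  have hy : yOf m Y ≤ 55452 / 10000 + (((m : ℝ) + 2) / 128 - 1) := by
    have h1 : yOf m Y ≤ log (2 * ((m : ℝ) + 2)) := by
      rw [le_log_iff_exp_le (by linarith), exp_yOf hY]; exact hYk
    refine h1.trans ?_
    rw [show 2 * ((m : ℝ) + 2) = 256 * (((m : ℝ) + 2) / 128) by ring,
      log_mul (by norm_num) (by linarith), show (256 : ℝ) = 2 ^ 8 by norm_num, log_pow]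
    have h2 := log_two_lt_d9
    have h3 := log_le_sub_one_of_pos (show (0 : ℝ) < ((m : ℝ) + 2) / 128 by linarith)
    push_cast
    linarith
  have h4 := mul_le_mul_of_nonneg_left hy hu0
  have h5 : yOf m Y ≤ uOf m Y * (1 + yOf m Y) := by linarith
  linarith [mul_nonneg hu0 (show (0 : ℝ) ≤ (m : ℝ) + 2 by linarith)]

/-- The two lower inequalities at `r = 1/n`, affine in `ε` and `r`. -/
lemma tanP (hs : 82 / 1000 ≤ T ^ 2) (he1 : 7 / 2 ≤ ε) (he2 : ε ≤ 203 / 50) {r : ℝ} (hr0 : 0 ≤ r)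
    (hr1 : r ≤ 1 / 128) :
    (728 / 100 * (10845 / 100000) * ε * r * (1 + T ^ 2) * (T ^ 2 + 1 / 3) +
        (1657 / 100000 + 11756 / 1000 * r) * ((ε * T ^ 2 - 1 / 3) * (2 * T ^ 2 + 1)) ≤
      242 / 100 * ((1 + ε) * (3 / 8 * T ^ 2 + 3 / 4 * r) * T ^ 2 * (T ^ 2 + 1 / 3))) ∧
    (728 / 100 * (10845 / 100000) * ε * r * (1 + T ^ 2) * (T ^ 2 + 1 / 3) +
        (1657 / 100000 + 11756 / 1000 * r) * ((ε * T ^ 2 - 1 / 3) * (2 * T ^ 2 + 1)) ≤
      (1 + ε) * (3 / 8 * T ^ 2 + 3 / 4 * r) * T ^ 2 * (T ^ 2 + 1 / 3) +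
        288 / 1000 * (1 + ε) * (T ^ 2) ^ 2) := by
  have h : (41 : ℝ) / 500 ≤ T ^ 2 := by linarith
  generalize T ^ 2 = s at h ⊢
  have w00 := mul_nonneg (show 0 ≤ 203 / 50 - ε by linarith) (show 0 ≤ 1 / 128 - r by linarith)
  have w01 := mul_nonneg (show 0 ≤ 203 / 50 - ε by linarith) hr0
  have w10 := mul_nonneg (show 0 ≤ ε - 7 / 2 by linarith) (show 0 ≤ 1 / 128 - r by linarith)
  have w11 := mul_nonneg (show 0 ≤ ε - 7 / 2 by linarith) hr0
  constructor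
  · linarith [mul_nonneg w00 (tanP000 h), mul_nonneg w01 (tanP001 h), mul_nonneg w10 (tanP010 h),
      mul_nonneg w11 (tanP011 h)]
  · linarith [mul_nonneg w00 (tanP100 h), mul_nonneg w01 (tanP101 h), mul_nonneg w10 (tanP110 h),
      mul_nonneg w11 (tanP111 h)]

end Vale.Agent.P237.Cal.MidN
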