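import Vale.Agent.P237.Cal.Mid.Sharp
import Vale.Agent.P237.Cal.Mid.Pay
import Vale.Agent.P237.Cal.Mid.NegTanFacts

/-!
# P237: the side `σ ≤ T` in the tangent zone `ε T² ≥ 1/3`, `128 ≤ n < 384`

The tangent multiplier with `b = (ε T² - 1/3)/(T² + 1/3)`; the slope is split with `κ = 8`.
-/

open Real

namespace Vale.Agent.P237.Cal.MidN

variable {m : ℕ} {Y T ε kap c₀ c₁ : ℝ}

/-- The weight of `D²` against the slope. -/
lemma tan_coefM {ρ v w B M N : ℝ} (hT : 0 < T) (hε : 0 ≤ ε) (hB : B = tB ε T) (hB0 : 0 < B)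
    (hw : w = 1 / v) (hv : 0 < v) (hN : 9 / 5 ≤ N)
    (hM : M * B * T = tX0 ε w T ∨ M * B * T = tX1 ε w T) (hW : TanW ρ ε w T) :
    B * (1 / 3 / T ^ 2 + 8 * M ^ 2 / N) ≤
      (9 / 5 * ε / v + 6 / 5 * ε * v * (T ^ 2 / (1 + T ^ 2))) / T + ρ * T ^ 2 := by
  have hsq : 40 / 9 * (M * B * T) ^ 2 ≤ B * tR ρ ε w T := by
    rcases hM with h | h <;> rw [h, hB]
    · exact hW.1
    · exact hW.2
  have h2 : 40 / 9 * (B * (M * T) ^ 2) ≤ tR ρ ε w T :=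
    le_of_mul_le_mul_left (by linarith) hB0
  have hv' : 29 - 841 / 4 * w ≤ v := by
    rw [hw, sub_le_iff_le_add, ← sub_nonneg]
    have e : v + 841 / 4 * (1 / v) - 29 = (v - 29 / 2) ^ 2 / v := by field_simp; ring
    rw [e]
    positivity
  have h3 : tR ρ ε w T ≤
      ε * (6 / 5 * v) * T ^ 3 / (1 + T ^ 2) + 9 / 5 * ε * w * T + ρ * T ^ 4 - B / 3 := by
    rw [tR, hB]
    gcongr
  have h4 : 8 / N ≤ 40 / 9 := by rw [div_le_iff₀ (by linarith)]; linarith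
  have h5 := mul_le_mul_of_nonneg_left h4 (show 0 ≤ B * (M * T) ^ 2 by positivity)
  refine le_of_mul_le_mul_right ?_ (pow_pos hT 2)
  rw [show B * (1 / 3 / T ^ 2 + 8 * M ^ 2 / N) * T ^ 2 = B / 3 + B * (M * T) ^ 2 * (8 / N) by
      field_simp,
    show ((9 / 5 * ε / v + 6 / 5 * ε * v * (T ^ 2 / (1 + T ^ 2))) / T + ρ * T ^ 2) * T ^ 2 =
      ε * (6 / 5 * v) * T ^ 3 / (1 + T ^ 2) + 9 / 5 * ε * w * T + ρ * T ^ 4 by
      rw [hw]; field_simp; ring]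
  linarith

/-- The state from below and the shift against `gG`. -/
lemma negE_eta_leM (hm : 126 ≤ m) (he1 : 7 / 2 ≤ ε) (he2 : ε ≤ 203 / 50)
    (h₀ : c₀ = 9 / 5 * ε / √((m : ℝ) + 2)) (h₁ : c₁ = 6 / 5 * ε * √((m : ℝ) + 2))
    (hY : 1 ≤ Y) (hYk : Y ^ (m + 1) ≤ 2 * ((m : ℝ) + 2)) (hkap : kap = uOf m Y / 2) (hT : 0 < T)
    (hz : 1 / 3 ≤ ε * T ^ 2) :
    negE m Y c₀ c₁ T + (ε * T ^ 2 - 1 / 3) / (T ^ 2 + 1 / 3) * (Y ^ 2 - 1) * (2 + 1 / T ^ 2) ≤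
        242 / 100 * gG m ε kap T ∧
      negE m Y c₀ c₁ T + (ε * T ^ 2 - 1 / 3) / (T ^ 2 + 1 / 3) * (Y ^ 2 - 1) * (2 + 1 / T ^ 2) ≤
        gG m ε kap T + 288 / 1000 * tB ε T := by
  obtain ⟨hU0, hU⟩ := UM_bounds (m := m) (show 0 ≤ ε by linarith) h₀ h₁
  have hn := cast_ge hm
  obtain ⟨hu0, hu1⟩ := u_bounds (m := m) hY
  have hd0 : 0 ≤ Y ^ 2 - 1 := by linarith [one_le_pow₀ (n := 2) hY]
  obtain ⟨hs, -⟩ := tanT_ge hT he2 hz
  set d := Y ^ 2 - 1 with hddef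
  set r := 1 / ((m : ℝ) + 2) with hr
  have hr0 : 0 ≤ r := by rw [hr]; positivity
  have hr1 : r ≤ 1 / 128 := one_div_le_one_div_of_le (by norm_num) hn
  have hdq : d ≤ uOf m Y * (1657 / 100000 + 11756 / 1000 * r) := by
    refine le_of_mul_le_mul_left ((d_u_le hm hY hYk).trans_eq ?_) (by linarith : (0 : ℝ) < (m : ℝ) + 2)
    rw [hr]; field_simp
  set v := √((m : ℝ) + 2) with hv
  have hv0 : 0 < v := by rw [hv]; positivity
  have hv2 : v ^ 2 = (m : ℝ) + 2 := sq_sqrt (by positivity)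
  have hQ : 577 / 1000 * (v * T) ≤ √(1 + ((m : ℝ) + 2) * T ^ 2 / 3) := by
    refine le_sqrt_of_sq_le ?_
    rw [mul_pow, mul_pow, hv2]
    linarith [mul_nonneg (show (0 : ℝ) ≤ (m : ℝ) + 2 by positivity) (sq_nonneg T)]
  have hneg : negE m Y c₀ c₁ T ≤ 728 / 100 * ε * (1 + T ^ 2) * (r * d) / T ^ 2 := by
    have hb : min (d / (T * √(1 + ((m : ℝ) + 2) * T ^ 2 / 3))) (2 * T / 3) ≤
        d / (T * (577 / 1000 * (v * T))) :=
      (min_le_left _ _).trans (div_le_div_of_nonneg_left hd0 (by positivity)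
        (mul_le_mul_of_nonneg_left hQ hT.le))
    have h1 := mul_le_mul_of_nonneg_left hb (show 0 ≤ 21 / 5 * ε / v * (1 + T ^ 2) by
      have : 0 ≤ ε := by linarith
      positivity)
    have h2 : negE m Y c₀ c₁ T ≤ 21 / 5 * ε / v * (1 + T ^ 2) *
        min (d / (T * √(1 + ((m : ℝ) + 2) * T ^ 2 / 3))) (2 * T / 3) := by
      rw [negE, ← hddef]
      gcongr
    refine h2.trans (h1.trans ?_)
    have h3 : (0 : ℝ) ≤ ε * (1 + T ^ 2) * (r * d) / T ^ 2 := by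
      have : 0 ≤ ε := by linarith
      positivity
    rw [show 21 / 5 * ε / v * (1 + T ^ 2) * (d / (T * (577 / 1000 * (v * T)))) =
      4200 / 577 * (ε * (1 + T ^ 2) * (r * d) / T ^ 2) by
        rw [hr, ← hv2]; field_simp; ring,
      show 728 / 100 * ε * (1 + T ^ 2) * (r * d) / T ^ 2 =
      728 / 100 * (ε * (1 + T ^ 2) * (r * d) / T ^ 2) by ring]
    exact mul_le_mul_of_nonneg_right (by norm_num) h3
  have hrd : r * d ≤ uOf m Y * (10845 / 100000) * r := by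
    have h := mul_le_mul_of_nonneg_left (hdq.trans (mul_le_mul_of_nonneg_left
      (show 1657 / 100000 + 11756 / 1000 * r ≤ 10845 / 100000 by linarith) hu0)) hr0
    linarith
  set A := 728 / 100 * (10845 / 100000) * ε * r * (1 + T ^ 2) * (T ^ 2 + 1 / 3) +
    (1657 / 100000 + 11756 / 1000 * r) * ((ε * T ^ 2 - 1 / 3) * (2 * T ^ 2 + 1)) with hA
  have hD : 0 < T ^ 2 * (T ^ 2 + 1 / 3) := by positivity
  have hsum : negE m Y c₀ c₁ T + (ε * T ^ 2 - 1 / 3) / (T ^ 2 + 1 / 3) * d * (2 + 1 / T ^ 2) ≤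
      uOf m Y * A / (T ^ 2 * (T ^ 2 + 1 / 3)) := by
    have h1 := hneg.trans (div_le_div_of_nonneg_right (mul_le_mul_of_nonneg_left hrd
      (show 0 ≤ 728 / 100 * ε * (1 + T ^ 2) by
        have : 0 ≤ ε := by linarith
        positivity)) (sq_nonneg T))
    have h2 := div_le_div_of_nonneg_right (mul_le_mul_of_nonneg_left hdq
      (show 0 ≤ (ε * T ^ 2 - 1 / 3) * (2 * T ^ 2 + 1) from
        mul_nonneg (by linarith) (by positivity))) hD.le
    refine (add_le_add h1 (le_of_eq_of_le ?_ h2)).trans_eq ?_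
    · field_simp
    · rw [hA]; field_simp
  have hg : gG m ε kap T = uOf m Y * ((1 + ε) * (3 / 8 * T ^ 2 + 3 / 4 * r)) := by
    rw [gG, hkap, hr]; field_simp; ring
  obtain ⟨p1, p2⟩ := tanP (T := T) (by linarith) he1 he2 hr0 hr1
  refine ⟨hsum.trans ?_, hsum.trans ?_⟩
  · rw [div_le_iff₀ hD, hg]
    exact (mul_le_mul_of_nonneg_left p1 hu0).trans_eq (by ring)
  · rw [div_le_iff₀ hD]
    refine (mul_le_mul_of_nonneg_left p2 hu0).trans ?_
    have h : 0 ≤ 288 / 1000 * (1 + ε) * (T ^ 2) ^ 2 :=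
      mul_nonneg (mul_nonneg (by norm_num) (by linarith)) (sq_nonneg _)
    have e : (gG m ε kap T + 288 / 1000 * tB ε T) * (T ^ 2 * (T ^ 2 + 1 / 3)) =
        uOf m Y * ((1 + ε) * (3 / 8 * T ^ 2 + 3 / 4 * r) * T ^ 2 * (T ^ 2 + 1 / 3)) +
          288 / 1000 * (1 + ε) * (T ^ 2) ^ 2 := by
      rw [hg, tB]; field_simp
    rw [e]
    linarith [mul_le_mul_of_nonneg_right hu1 h]

/-- The bounds of the slope of the field over the prefactor. -/
lemma shP_boundsM (hm : 126 ≤ m) (hε : 0 ≤ ε) (h₀ : c₀ = 9 / 5 * ε / √((m : ℝ) + 2))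
    (h₁ : c₁ = 6 / 5 * ε * √((m : ℝ) + 2)) (hT : 0 < T) (hs : 50 / 609 ≤ T ^ 2) :
    shP m c₀ c₁ T / pre m T ≤ -(1175 / 1000 * (ε / √((m : ℝ) + 2))) ∧
      -(817 / 500 * (ε / √((m : ℝ) + 2))) ≤ shP m c₀ c₁ T / pre m T := by
  have hn := cast_ge hm
  obtain ⟨hU0, hU⟩ := UM_bounds (m := m) hε h₀ h₁
  have hc0 : 0 ≤ c₀ := by rw [h₀]; positivity
  have hc1 : 0 ≤ c₁ := by rw [h₁]; positivity
  have hpre : 0 < pre m T := by unfold pre; positivity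
  have hlo := neg_shP_ge (m := m) hc0 hc1 T
  have hhi := neg_shP_le' (m := m) hc0 hc1 hT
  set v := √((m : ℝ) + 2) with hv
  have hv0 : 0 < v := by rw [hv]; positivity
  have hv2 : v ^ 2 = (m : ℝ) + 2 := sq_sqrt (by positivity)
  set a := ε / v with ha
  have ha0 : 0 ≤ a := by rw [ha]; positivity
  have hc : c₁ = 6 / 5 * a * ((m : ℝ) + 2) := by rw [h₁, ha, ← hv2]; field_simp
  have hcl : 1175 / 1000 * a ≤ c₁ / ((m : ℝ) + 4) := by
    rw [le_div_iff₀ (by positivity), hc]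
    linarith [mul_le_mul_of_nonneg_left hn ha0]
  have hch : c₁ / ((m : ℝ) + 4) ≤ 6 / 5 * a := by
    rw [div_le_iff₀ (by positivity), hc]
    linarith
  have hq : (1 + T ^ 2) / (((m : ℝ) + 2) * T ^ 2) ≤ 103 / 1000 := by
    rw [div_le_iff₀ (by positivity)]
    have h1 := mul_le_mul_of_nonneg_right hn (sq_nonneg T)
    linarith
  have hUa : shUM m c₀ c₁ ≤ 21 / 5 * a := by rw [ha, ← mul_div_assoc]; exact hU
  have hst : shUM m c₀ c₁ * (1 + T ^ 2) / (((m : ℝ) + 2) * T ^ 2) ≤ 21 / 5 * (103 / 1000) * a := by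
    rw [mul_div_assoc]
    exact (mul_le_mul hUa hq (by positivity) (by positivity)).trans_eq (by ring)
  have hlo' : (1175 / 1000 * a) * pre m T ≤ -shP m c₀ c₁ T :=
    (mul_le_mul_of_nonneg_right
      (hcl.trans (le_add_of_nonneg_right (by positivity))) hpre.le).trans hlo
  have hhi' : -shP m c₀ c₁ T ≤ (817 / 500 * a) * pre m T :=
    hhi.trans (mul_le_mul_of_nonneg_right (by linarith) hpre.le)
  constructor
  · rw [div_le_iff₀ hpre]; linarith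
  · rw [le_div_iff₀ hpre]; linarith

/-- The weight of the square of `G - η`. -/
lemma cPM_ge_tan {z : ℝ} (hz : 10 ≤ z) : 43 / 100 ≤ cPM z := by unfold cPM; linarith

/-- **The side `σ ≤ T` in the tangent zone.** -/
theorem negX_tanM {V Y T σ h ε kap c₀ c₁ G : ℝ} (hm : 126 ≤ m) (hm2 : m ≤ 381) (he1 : 7 / 2 ≤ ε)
    (he2 : ε ≤ 203 / 50) (h₀ : c₀ = 9 / 5 * ε / √((m : ℝ) + 2))
    (h₁ : c₁ = 6 / 5 * ε * √((m : ℝ) + 2)) (hY : 1 ≤ Y) (hYk : Y ^ (m + 1) ≤ 2 * ((m : ℝ) + 2))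
    (hkap : kap = uOf m Y / 2) (hR : RegC Y T σ h) (hσ : σ ≤ T) (hz : 1 / 3 ≤ ε * T ^ 2)
    (h1 : gG m ε kap T - negE m Y c₀ c₁ T ≤ G)
    (h2 : G ≤ gG m ε kap T + stateUp m V Y c₀ c₁ T) :
    ∃ L, L ≤ valQ ε T σ h + (2 * (shP m c₀ c₁ T / pre m T) * (σ - T) + G) * (h - 1) ∧
      loD Y T * (ellFlat m ε kap (rr (m + 1)) T + nuFlat m ε kap T) -
          (gTM m ε kap T + upTM m V Y c₀ c₁ T + ngTM m Y c₀ c₁ T) - etaM m Y T ≤
        pre m T * L + (σ - T) * ellFlat m ε kap (rr (m + 1)) T +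
          (σ - T) ^ 2 * (shP' m c₀ c₁ T + 2 * muX m T * shS m c₀ c₁ T) := by
  have hT : 0 < T := hR.T_pos
  have hε : 0 ≤ ε := by linarith
  obtain ⟨hn, hn2⟩ := n_bounds hm hm2
  obtain ⟨hu0, hu1⟩ := u_bounds (m := m) hY
  obtain ⟨hs, hT0⟩ := tanT_ge hT he2 hz
  have hk0 : 0 ≤ kap := by linarith
  have hk : kap ≤ 1 / 2 := by linarith
  have hpre : 0 < pre m T := by unfold pre; positivity
  have hd0 : 0 ≤ Y ^ 2 - 1 := by linarith [one_le_pow₀ (n := 2) hY]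
  have hd2 : Y ^ 2 - 1 ≤ 2 * T ^ 2 := by
    have := nd_le hm hm2 hY hYk
    linarith [mul_le_mul_of_nonneg_right hn hd0]
  set v := √((m : ℝ) + 2) with hvdef
  have hv0 : 0 < v := by rw [hvdef]; positivity
  set w := 1 / v with hwdef
  have hw1 : 51 / 1000 ≤ w := by
    rw [hwdef, le_div_iff₀ hv0]
    have : v ≤ 196 / 10 := (sqrt_le_left (by norm_num)).2 (by linarith)
    linarith
  have hw2 : w ≤ 884 / 10000 := by
    rw [hwdef, div_le_iff₀ hv0]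
    have : 11313 / 1000 ≤ v := le_sqrt_of_sq_le (by linarith)
    linarith
  obtain ⟨ρ, hρ, hρ0⟩ : ∃ ρ : ℝ, (ρ = 0 ∧ T ≤ 22 / 25 ∨ ρ = 1 ∧ 22 / 25 ≤ T) ∧ 0 ≤ ρ := by
    rcases le_total T (22 / 25) with h | h
    · exact ⟨0, .inl ⟨rfl, h⟩, le_rfl⟩
    · exact ⟨1, .inr ⟨rfl, h⟩, zero_le_one⟩
  set b := (ε * T ^ 2 - 1 / 3) / (T ^ 2 + 1 / 3) with hb
  have hb0 : 0 ≤ b := div_nonneg (by linarith) (by positivity)
  have hb1 : 0 < 1 + b := by linarith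
  have hB : 1 + b = tB ε T := by rw [hb, tB]; field_simp; ring
  obtain ⟨hp1, hp2⟩ := shP_boundsM hm hε h₀ h₁ hT hs
  rw [← hvdef] at hp1 hp2
  set a := ε / v with ha
  set Pl := 1175 / 1000 * a / (1 + b) with hPl
  set Ph := 817 / 500 * a / (1 + b) with hPh
  set M := max (2 * (1 / 3) / T - 2 * Pl) (2 * Ph - 1 / 3 / T) with hMdef
  have hM : M * (1 + b) * T = tX0 ε w T ∨ M * (1 + b) * T = tX1 ε w T := by
    rcases max_choice (2 * (1 / 3) / T - 2 * Pl) (2 * Ph - 1 / 3 / T) with h | h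
    · left
      rw [hMdef, h, tX0, ← hB, hPl, ha, hwdef]
      field_simp
      ring
    · right
      rw [hMdef, h, tX1, ← hB, hPh, ha, hwdef]
      field_simp
      ring
  set R := pre m T * (ρ * T ^ 2) with hRdef
  have hK : ∀ N : ℝ, 9 / 5 ≤ N → pre m T * ((1 + b) * (1 / 3 / T ^ 2 + 8 * M ^ 2 / N)) ≤
      shP' m c₀ c₁ T + 2 * muX m T * shS m c₀ c₁ T + R := fun N hN => by
    have hc := tan_coefM (v := v) hT hε hB hb1 hwdef hv0 hN hM (tanW hT0 hρ he1 he2 hw1 hw2)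
    refine (mul_le_mul_of_nonneg_left hc hpre.le).trans_eq ?_
    rw [shP'_add, h₀, h₁, w_sq, hRdef]
    simp only [muX, pre]
    field_simp
  set lo := √(max (T ^ 2 - (Y ^ 2 - 1)) 0) - T with hlo
  have hloD : loD Y T = lo := by
    rw [hlo, loD, show T ^ 2 + 1 - Y ^ 2 = T ^ 2 - (Y ^ 2 - 1) by ring]
    rcases le_total (T ^ 2 - (Y ^ 2 - 1)) 0 with h | h
    · rw [max_eq_right h, sqrt_eq_zero_of_nonpos h, sqrt_zero]
    · rw [max_eq_left h]
  have hRlo : R * lo ^ 2 ≤ etaM m Y T := by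
    rcases hρ with ⟨rfl, -⟩ | ⟨rfl, hT22⟩
    · rw [hRdef, etaM, zero_mul, mul_zero, zero_mul]; positivity
    · have h3 : lo ^ 2 ≤ ((Y ^ 2 - 1) / T) ^ 2 := by
        have a1 := neg_loD_le hT hY
        have a2 := loD_nonpos hY hT.le
        rw [← hloD]
        refine sq_le_sq' (by linarith) (a2.trans ?_)
        positivity
      have h4 : 1 ≤ (25 / 19 * T ^ 2) ^ 8 := by
        refine one_le_pow₀ ?_
        linarith [pow_le_pow_left₀ (by norm_num) hT22 2]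
      have h5 := mul_le_mul_of_nonneg_left h3 (show 0 ≤ pre m T * (1 * T ^ 2) by positivity)
      rw [show pre m T * (1 * T ^ 2) * ((Y ^ 2 - 1) / T) ^ 2 = pre m T * (Y ^ 2 - 1) ^ 2 by
        field_simp] at h5
      have h6 := mul_le_mul_of_nonneg_left h4 (show 0 ≤ pre m T * (Y ^ 2 - 1) ^ 2 by positivity)
      rw [etaM, hRdef]
      linarith
  obtain ⟨hE1, hE2⟩ := negE_eta_leM hm he1 he2 h₀ h₁ hY hYk hkap hT hz
  rw [← hb] at hE1 hE2
  set η := b * (Y ^ 2 - 1) * (2 + 1 / T ^ 2) with hη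
  have hη0 : 0 ≤ η := mul_nonneg (mul_nonneg hb0 hd0) (by positivity)
  have hzn : 10 ≤ ((m : ℝ) + 2) * T ^ 2 := by
    linarith [mul_le_mul_of_nonneg_right hn (sq_nonneg T)]
  have hcP := cPM_ge_tan hzn
  have hng : 0 ≤ ngTM m Y c₀ c₁ T :=
    le_trans (mul_nonneg (mul_nonneg hpre.le (cPM_pos (by positivity)).le) (sq_nonneg _))
      (ng_leM hm hm2 he1 he2 h₀ h₁ hY hYk hkap hT)
  obtain ⟨gl, N, hgl, hgN, hBgl, hN, hg, hloss⟩ : ∃ gl N : ℝ, 0 ≤ gl ∧ N ≤ 4 - 4 * (1 / 3) - 3 * gl ∧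
      1 / 3 + gl ≤ 1 ∧ 9 / 5 ≤ N ∧ -(gl * (1 + b)) ≤ G - η ∧
      pre m T * (8 / (8 - 1) * (G - η) ^ 2 / N) ≤
        gTM m ε kap T + upTM m V Y c₀ c₁ T := by
    rcases le_or_gt 0 (G - η) with hG | hG
    · refine ⟨0, 8 / 3, le_rfl, by norm_num, by norm_num, by norm_num, by linarith, ?_⟩
      set g := gG m ε kap T
      set S := stateUp m V Y c₀ c₁ T
      have h3 : (G - η) ^ 2 ≤ 3 * g ^ 2 + 3 / 2 * S ^ 2 := by
        have := pow_le_pow_left₀ hG (show G - η ≤ g + S by linarith) 2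
        linarith [sq_nonneg (2 * g - S)]
      have h4 : 8 / (8 - 1) * (G - η) ^ 2 / (8 / 3) ≤
          cPM (((m : ℝ) + 2) * T ^ 2) * (3 * g ^ 2 + 3 / 2 * S ^ 2) := by
        rw [show 8 / (8 - 1) * (G - η) ^ 2 / (8 / 3) = 3 / 7 * (G - η) ^ 2 by ring]
        exact mul_le_mul (by linarith) h3 (sq_nonneg _) (by linarith)
      refine (mul_le_mul_of_nonneg_left h4 hpre.le).trans_eq ?_
      rw [gTM, upTM]
      ring
    · refine ⟨288 / 1000, 9 / 5, by norm_num, by norm_num, by norm_num, le_rfl, ?_, ?_⟩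
      · rw [hB]; linarith
      set g := gG m ε kap T
      have h3 : (G - η) ^ 2 ≤ (142 / 100 * g) ^ 2 :=
        sq_le_sq' (by linarith) (by linarith)
      have h4 : 8 / (8 - 1) * (G - η) ^ 2 / (9 / 5) ≤
          3 * (cPM (((m : ℝ) + 2) * T ^ 2) * g ^ 2) := by
        linarith [mul_le_mul_of_nonneg_right hcP (sq_nonneg g), sq_nonneg g]
      refine (mul_le_mul_of_nonneg_left h4 hpre.le).trans ?_
      have hup : 0 ≤ upTM m V Y c₀ c₁ T := mul_nonneg (by norm_num)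
        (mul_nonneg (mul_nonneg hpre.le (cPM_pos (by positivity)).le) (sq_nonneg _))
      rw [gTM]
      linarith
  obtain ⟨L, hL, hle⟩ := negX_tangentN (θ := 1 / 3) (κ := 8) (Pl := Pl) (Ph := Ph) (gl := gl)
    (M := M) (N := N) (R := R) (p := shP m c₀ c₁ T / pre m T) (G₂ := G)
    (l := ellFlat m ε kap (rr (m + 1)) T) (ν := nuFlat m ε kap T)
    (C := shP' m c₀ c₁ T + 2 * muX m T * shS m c₀ c₁ T)
    hpre.le (by norm_num) (by norm_num) hY hd2 hR hσ hlo hb hb0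
    (by rw [hPl, div_mul_cancel₀ _ hb1.ne']; exact hp1) (by rw [hPl, ha]; positivity)
    (by rw [hPh, div_mul_cancel₀ _ hb1.ne']; exact hp2) hg
    (le_max_left _ _) (le_max_right _ _) (by linarith) hgN hgl hBgl
    (nuFlat_nonneg (by linarith) hk0 hT.le)
    (ellFlat_tanM hm he1 he2 hk0 hk hT hz hb) (by positivity) (hK N hN)
  refine ⟨L, hL, le_trans ?_ hle⟩
  rw [hloD]
  linarith

end Vale.Agent.P237.Cal.MidN
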