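import Vale.Agent.P237.Cal.Mid.NegPlain
import Vale.Agent.P237.Cal.Mid.NegTan
import Vale.Agent.P237.Cal.Mid.PwAll

/-!
# P237: the side `σ ≤ T` for `128 ≤ n < 384`

The plain zone `ε T² ≤ 1/3` and the tangent zone `ε T² ≥ 1/3`, fed with the range of the state part.
-/

open Real

namespace Vale.Agent.P237.Cal.MidN

/-- **The side `σ ≤ T`.** -/
theorem sidePw_neg {m : ℕ} (hm : 126 ≤ m) (hm2 : m ≤ 381) : SidePw m fun T σ => σ ≤ T := by
  intro q Y Q ε kap hq hY hYk _ _ _ _ _ he1 he2 hkap T σ h X hσ hR hB _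
  have hT : 0 < T := hR.T_pos
  have hε0 : 0 ≤ ε := by linarith
  set c₀ := LargeN.c0 m ε with hc₀
  set c₁ := LargeN.c1 m ε with hc₁
  obtain ⟨hU0, -⟩ := UM_bounds (m := m) (c₀ := c₀) (c₁ := c₁) hε0 rfl rfl
  have hkap' : kap = uOf m Y / 2 := by rw [hkap, uOf]
  set V := q * semiMom m 1 with hV
  set G := gG m ε kap T + 2 * shS m c₀ c₁ T * (X - X0 m T) / pre m T with hG
  have hG1 : gG m ε kap T - negE m Y c₀ c₁ T ≤ G := by
    have := stateG_low' (c₀ := c₀) (c₁ := c₁) (by omega : 2 ≤ m) hY hT hU0 hB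
    rw [negE]; linarith
  have hG2 : G ≤ gG m ε kap T + stateUp m V Y c₀ c₁ T := by
    have := stateG_high (c₀ := c₀) (c₁ := c₁) (by omega : 1 ≤ m) hY hT hσ hU0 hB
    rw [stateUp]; linarith
  have hlowT : 0 ≤ lowTM m ε kap T := by
    have hk0 : 0 ≤ kap := by
      have : 0 ≤ uOf m Y := sub_nonneg.2 (inv_le_one_of_one_le₀ (one_le_pow₀ hY))
      linarith
    unfold lowTM lowT
    positivity
  obtain ⟨L, hL, hle⟩ : ∃ L, L ≤ valQ ε T σ h +
      (2 * (shP m c₀ c₁ T / pre m T) * (σ - T) + G) * (h - 1) ∧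
      loD Y T * (ellFlat m ε kap (rr (m + 1)) T + nuFlat m ε kap T) -
          (gTM m ε kap T + upTM m V Y c₀ c₁ T + ngTM m Y c₀ c₁ T) - etaM m Y T ≤
        pre m T * L + (σ - T) * ellFlat m ε kap (rr (m + 1)) T +
          (σ - T) ^ 2 * (shP' m c₀ c₁ T + 2 * muX m T * shS m c₀ c₁ T) := by
    rcases le_total (ε * T ^ 2) (1 / 3) with hz | hz
    · exact negX_plainM hm hm2 he1 he2 rfl rfl hY hYk hkap' hR hσ hz hG1 hG2
    · exact negX_tanM hm hm2 he1 he2 rfl rfl hY hYk hkap' hR hσ hz hG1 hG2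
  refine pw_of_L hT ⟨L, hL, ?_⟩
  simp only [midLB, lossTM, ← hV, ← hc₀, ← hc₁]
  linarith

end Vale.Agent.P237.Cal.MidN
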