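import Vale.Agent.P237.Cal.ShapeX
import Vale.Agent.P237.Cal.StateShift
import Vale.Agent.P237.Cal.LossDef
import Vale.Agent.P237.Cal.ChordTight
import Vale.Agent.P237.Cal.LargeN
import Vale.Agent.P237.Cal.EllFlatBound

/-!
# P237: field, state and linear weight on a cell, `n ≥ 128`

`v = √n`, `z = n T²`.
-/

open Real

namespace Vale.Agent.P237.Cal.PosN

/-- The cubic below the exponential. -/
def ex3 {K : Type*} [Field K] (x : K) : K := 1 + x + x ^ 2 / 2 + x ^ 3 / 6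

lemma ex3_le_exp {x : ℝ} (hx : 0 ≤ x) : ex3 x ≤ exp x := by
  have h := sum_le_exp_of_nonneg hx 4
  simp only [Finset.sum_range_succ, Finset.sum_range_zero, Nat.factorial, Nat.succ_eq_add_one] at h
  norm_num at h
  unfold ex3
  linarith

variable {m : ℕ} {V Y T σ X ε kap : ℝ}

lemma v_ge (hm : 126 ≤ m) : 11313 / 1000 ≤ √((m : ℝ) + 2) := by
  have hm' : (126 : ℝ) ≤ (m : ℝ) := by exact_mod_cast hm
  rw [le_sqrt (by norm_num) (by linarith)]
  norm_num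
  linarith

lemma v_le (hm : m ≤ 381) : √((m : ℝ) + 2) ≤ 19571 / 1000 := by
  have hm' : (m : ℝ) ≤ (381 : ℝ) := by exact_mod_cast hm
  rw [sqrt_le_left (by norm_num)]
  norm_num
  linarith

lemma c1q_bounds (hm : 126 ≤ m) (hε : 0 ≤ ε) :
    118 / 100 * (ε / √((m : ℝ) + 2)) ≤ LargeN.c1 m ε / ((m : ℝ) + 4) ∧
      LargeN.c1 m ε / ((m : ℝ) + 4) ≤ 6 / 5 * (ε / √((m : ℝ) + 2)) := by
  have hm' : (126 : ℝ) ≤ (m : ℝ) := by exact_mod_cast hm
  set v := √((m : ℝ) + 2) with hv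
  have hv0 : 0 < v := by rw [hv]; positivity
  have hv2 : v ^ 2 = (m : ℝ) + 2 := sq_sqrt (by positivity)
  have e : 6 / 5 * ε * v = 6 / 5 * (ε / v) * ((m : ℝ) + 2) := by rw [← hv2]; field_simp
  have hq : 0 ≤ ε / v := div_nonneg hε hv0.le
  simp only [LargeN.c1, ← hv]
  rw [e, le_div_iff₀ (by positivity), div_le_iff₀ (by positivity)]
  constructor
  · rw [mul_comm (118 / 100 : ℝ), mul_assoc, mul_comm (6 / 5 : ℝ), mul_assoc]
    exact mul_le_mul_of_nonneg_left (by linarith) hq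
  · exact mul_le_mul_of_nonneg_left (by linarith) (by positivity)

lemma UM_bounds (hm : 126 ≤ m) (hε : 0 ≤ ε) :
    0 ≤ shUM m (LargeN.c0 m ε) (LargeN.c1 m ε) ∧
      415 / 100 * (ε / √((m : ℝ) + 2)) ≤ shUM m (LargeN.c0 m ε) (LargeN.c1 m ε) ∧
        shUM m (LargeN.c0 m ε) (LargeN.c1 m ε) ≤ 21 / 5 * (ε / √((m : ℝ) + 2)) := by
  obtain ⟨h1, h2⟩ := c1q_bounds hm hε
  have e : shUM m (LargeN.c0 m ε) (LargeN.c1 m ε) =
      9 / 5 * (ε / √((m : ℝ) + 2)) + 2 * (LargeN.c1 m ε / ((m : ℝ) + 4)) := by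
    rw [shUM, LargeN.c0, mul_div_assoc, mul_div_assoc]
  have : 0 ≤ ε / √((m : ℝ) + 2) := by positivity
  rw [e]
  refine ⟨by linarith, by linarith, by linarith⟩

lemma c0_nonneg (hε : 0 ≤ ε) : 0 ≤ LargeN.c0 m ε := by unfold LargeN.c0; positivity

lemma c1_nonneg (hε : 0 ≤ ε) : 0 ≤ LargeN.c1 m ε := by unfold LargeN.c1; positivity

/-- `-P` over the prefactor in closed form. -/
lemma neg_shP_eq {c₀ c₁ : ℝ} (hT : T ≠ 0) :
    -(shP m c₀ c₁ T / pre m T) = shUM m c₀ c₁ *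
        ((1 + T ^ 2) * (1 - 1 / √(1 + T ^ 2) ^ (m + 2)) / (((m : ℝ) + 2) * T ^ 2)) +
      c₁ / ((m : ℝ) + 4) := by
  have hw := w_pos T
  have e : 1 - 1 / √(1 + T ^ 2) ^ 2 = T ^ 2 / √(1 + T ^ 2) ^ 2 := by
    field_simp
    rw [w_sq]; ring
  simp only [shP, pre, show m + 4 = m + 2 + 2 from rfl, pow_add, e]
  rw [w_sq]
  field_simp

/-- The field from above in size: both bounds. -/
lemma field_hi {p e1 z0 vl : ℝ} (hm : 126 ≤ m) (hε : 0 ≤ ε) (he : ε ≤ e1) (hT : 0 < T)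
    (hvl : 0 < vl) (hv : vl ≤ √((m : ℝ) + 2)) (hz : z0 ≤ ((m : ℝ) + 2) * T ^ 2)
    (hp : p = 33 / 10 ∨ (0 < z0 ∧ p = 6 / 5 + 21 / 5 * (1 / z0 + 1 / 128))) :
    -(e1 * p / vl) ≤ shP m (LargeN.c0 m ε) (LargeN.c1 m ε) T / pre m T := by
  have hm' : (126 : ℝ) ≤ (m : ℝ) := by exact_mod_cast hm
  obtain ⟨hU0, -, hU⟩ := UM_bounds hm hε
  obtain ⟨-, hc⟩ := c1q_bounds hm hε
  have hq : 0 ≤ ε / √((m : ℝ) + 2) := by positivity
  have hqe : ε / √((m : ℝ) + 2) ≤ e1 / vl := div_le_div₀ (hε.trans he) he hvl hv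
  set N := (m : ℝ) + 2 with hN
  have hN0 : 0 < N := by linarith
  set W := √(1 + T ^ 2) with hW
  have hW1 := one_le_w T
  have hW2 : W ^ 2 = 1 + T ^ 2 := w_sq T
  have hb1 : 1 / W ≤ 1 := (div_le_one (w_pos T)).2 hW1
  have hf0 : 0 ≤ 1 - 1 / W ^ (m + 2) := by
    rw [sub_nonneg, div_le_one (pow_pos (w_pos T) _)]; exact one_le_pow₀ hW1
  have hf1 : (1 + T ^ 2) * (1 - 1 / W ^ (m + 2)) / (N * T ^ 2) ≤ 1 / 2 := by
    have h := one_sub_pow_le (by positivity : (0 : ℝ) ≤ 1 / W) hb1 m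
    rw [div_pow, one_pow, div_pow, one_pow, hW2, ← hN] at h
    rw [div_le_iff₀ (by positivity)]
    refine (mul_le_mul_of_nonneg_left h (by positivity)).trans (le_of_eq ?_)
    field_simp
    ring
  rw [← neg_neg (shP m (LargeN.c0 m ε) (LargeN.c1 m ε) T / pre m T), neg_le_neg_iff,
    neg_shP_eq hT.ne', ← hW, ← hN]
  have key : ∀ f : ℝ, (1 + T ^ 2) * (1 - 1 / W ^ (m + 2)) / (N * T ^ 2) ≤ f → 0 ≤ f →
      shUM m (LargeN.c0 m ε) (LargeN.c1 m ε) *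
          ((1 + T ^ 2) * (1 - 1 / W ^ (m + 2)) / (N * T ^ 2)) +
        LargeN.c1 m ε / ((m : ℝ) + 4) ≤ e1 * (21 / 5 * f + 6 / 5) / vl := fun f hf hf0' => by
    have h1 := mul_le_mul hU hf (by positivity) (hU0.trans hU)
    have h2 := mul_le_mul_of_nonneg_right hqe (by positivity : 0 ≤ 21 / 5 * f + 6 / 5)
    have e : e1 * (21 / 5 * f + 6 / 5) / vl = e1 / vl * (21 / 5 * f + 6 / 5) := by ring
    rw [e]
    linarith
  rcases hp with rfl | ⟨hz0, rfl⟩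
  · refine (key (1 / 2) hf1 (by norm_num)).trans (le_of_eq ?_)
    norm_num
  · refine (key (1 / z0 + 1 / 128) ?_ (by positivity)).trans (le_of_eq ?_)
    · refine (div_le_div_of_nonneg_right (mul_le_of_le_one_right (by positivity)
        (by linarith [show (0 : ℝ) ≤ 1 / W ^ (m + 2) by positivity])) (by positivity)).trans ?_
      have e : (1 + T ^ 2) / (N * T ^ 2) = 1 / (N * T ^ 2) + 1 / N := by field_simp
      rw [e]
      exact add_le_add (one_div_le_one_div_of_le hz0 hz)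
        (one_div_le_one_div_of_le (by norm_num) (by linarith))
    · ring

/-- `(1 - e^(-t))/t` decreases: at `t ≤ t1` it is at least the value at `t1`. -/
lemma one_sub_exp_chord {t t1 : ℝ} (ht : 0 ≤ t) (ht1 : t ≤ t1) (h1 : 0 < t1) :
    t / t1 * (1 - exp (-t1)) ≤ 1 - exp (-t) := by
  have hθ1 : t / t1 ≤ 1 := (div_le_one h1).2 ht1
  have h := convexOn_exp.2 (Set.mem_univ (0 : ℝ)) (Set.mem_univ (-t1)) (sub_nonneg.2 hθ1)
    (div_nonneg ht h1.le) (by ring)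
  simp only [smul_eq_mul, mul_zero, zero_add, exp_zero, mul_one] at h
  rw [show t / t1 * -t1 = -t by field_simp] at h
  linarith

/-- The unshifted field from below in size. -/
lemma field_lo {e0 vh T1 x : ℝ} (hm : 126 ≤ m) (he0 : 0 ≤ e0) (he : e0 ≤ ε) (hT : 0 < T)
    (hT1 : T ≤ T1) (hv : √((m : ℝ) + 2) ≤ vh)
    (hx : x = vh ^ 2 * T1 ^ 2 / 2 / (1 + T1 ^ 2)) :
    shP m (LargeN.c0 m ε) (LargeN.c1 m ε) T / pre m T ≤
      -(e0 / vh * (118 / 100 + 415 / 100 * (1 - 1 / ex3 x) / (vh ^ 2 * T1 ^ 2))) := by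
  have hε : 0 ≤ ε := he0.trans he
  obtain ⟨-, hU, -⟩ := UM_bounds hm hε
  obtain ⟨hc, -⟩ := c1q_bounds hm hε
  set v := √((m : ℝ) + 2) with hvd
  have hv0 : 0 < v := by rw [hvd]; positivity
  have hv2 : v ^ 2 = (m : ℝ) + 2 := sq_sqrt (by positivity)
  have hvh : 0 < vh := hv0.trans_le hv
  have hT10 : 0 < T1 := hT.trans_le hT1
  set z := ((m : ℝ) + 2) * T ^ 2 with hz
  set z1 := vh ^ 2 * T1 ^ 2 with hz1
  have hz0 : 0 < z := by rw [hz]; positivity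
  have hzz : z ≤ z1 := by
    rw [hz, hz1, ← hv2]
    exact mul_le_mul (pow_le_pow_left₀ hv0.le hv 2) (pow_le_pow_left₀ hT.le hT1 2) (by positivity)
      (by positivity)
  have hs : 1 + T ^ 2 ≤ 1 + T1 ^ 2 := by linarith [pow_le_pow_left₀ hT.le hT1 2]
  set a := 1 / 2 / (1 + T1 ^ 2) with ha
  have ha0 : 0 < a := by rw [ha]; positivity
  have hxa : x = a * z1 := by rw [hx, ha, hz1]; field_simp
  have hx0 : 0 < x := by
    rw [hxa]; exact mul_pos ha0 (hz0.trans_le hzz)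
  have he3 : 0 < ex3 x := by unfold ex3; positivity
  have hw := w_pos T
  have hW : exp (a * z) ≤ √(1 + T ^ 2) ^ (m + 2) := by
    have h1 : exp (T ^ 2 / (1 + T ^ 2) / 2) ≤ √(1 + T ^ 2) := by
      rw [exp_half]
      refine sqrt_le_sqrt ?_
      have h2 := add_one_le_exp (-(T ^ 2 / (1 + T ^ 2)))
      rw [show -(T ^ 2 / (1 + T ^ 2)) + 1 = 1 / (1 + T ^ 2) by field_simp; ring, exp_neg] at h2
      have h3 := mul_le_mul_of_nonneg_left h2 (by positivity : (0 : ℝ) ≤ 1 + T ^ 2)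
      rw [mul_one_div_cancel (by positivity), ← div_eq_mul_inv, one_le_div (exp_pos _)] at h3
      exact h3
    refine le_trans ?_ (pow_le_pow_left₀ (exp_pos _).le h1 (m + 2))
    rw [← exp_nat_mul, exp_le_exp, ha, hz]
    push_cast
    rw [show ((m : ℝ) + 2) * (T ^ 2 / (1 + T ^ 2) / 2) =
      ((m : ℝ) + 2) * T ^ 2 / 2 / (1 + T ^ 2) by field_simp,
      show 1 / 2 / (1 + T1 ^ 2) * (((m : ℝ) + 2) * T ^ 2) =
      ((m : ℝ) + 2) * T ^ 2 / 2 / (1 + T1 ^ 2) by field_simp]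
    exact div_le_div_of_nonneg_left (by positivity) (by positivity) hs
  have hfac : (1 - 1 / ex3 x) / z1 ≤
      (1 + T ^ 2) * (1 - 1 / √(1 + T ^ 2) ^ (m + 2)) / z := by
    have h1 : 1 - exp (-(a * z)) ≤ 1 - 1 / √(1 + T ^ 2) ^ (m + 2) := by
      rw [exp_neg, inv_eq_one_div]
      linarith [one_div_le_one_div_of_le (exp_pos _) hW]
    have h2 := one_sub_exp_chord (mul_nonneg ha0.le hz0.le)
      (mul_le_mul_of_nonneg_left hzz ha0.le) (by rw [← hxa]; exact hx0)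
    rw [← hxa] at h2
    have h3 : exp (-x) ≤ 1 / ex3 x := by
      rw [exp_neg, inv_eq_one_div]
      exact one_div_le_one_div_of_le he3 (ex3_le_exp hx0.le)
    have h4 : a * z / x = z / z1 := by rw [hxa]; field_simp
    rw [h4] at h2
    have h5 : 0 ≤ 1 - 1 / √(1 + T ^ 2) ^ (m + 2) := by
      refine le_trans ?_ h1
      rw [sub_nonneg, exp_le_one_iff]
      linarith [mul_nonneg ha0.le hz0.le]
    rw [le_div_iff₀ hz0, div_mul_eq_mul_div, mul_comm, ← mul_div_assoc']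
    calc z * ((1 - 1 / ex3 x) / z1) = z / z1 * (1 - 1 / ex3 x) := by ring
      _ ≤ z / z1 * (1 - exp (-x)) :=
          mul_le_mul_of_nonneg_left (by linarith) (div_nonneg hz0.le (hz0.le.trans hzz))
      _ ≤ 1 - 1 / √(1 + T ^ 2) ^ (m + 2) := h2.trans h1
      _ ≤ _ := le_mul_of_one_le_left h5 (by linarith [sq_nonneg T])
  have he3' : 0 ≤ (1 - 1 / ex3 x) / z1 := by
    refine div_nonneg (sub_nonneg.2 ((div_le_one he3).2 ?_)) (hz0.le.trans hzz)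
    have : 0 ≤ x ^ 2 / 2 + x ^ 3 / 6 := by positivity
    unfold ex3
    linarith
  have hq : e0 / vh ≤ ε / v := div_le_div₀ hε he hv0 hv
  rw [← neg_neg (shP m (LargeN.c0 m ε) (LargeN.c1 m ε) T / pre m T), neg_le_neg_iff,
    neg_shP_eq hT.ne', ← hz]
  have hU' : 415 / 100 * (e0 / vh) ≤ shUM m (LargeN.c0 m ε) (LargeN.c1 m ε) :=
    (mul_le_mul_of_nonneg_left hq (by norm_num)).trans hU
  have h1 := mul_le_mul hU' hfac he3' (le_trans (by positivity) hU')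
  have e : e0 / vh * (118 / 100 + 415 / 100 * (1 - 1 / ex3 x) / z1) =
      118 / 100 * (e0 / vh) + 415 / 100 * (e0 / vh) * ((1 - 1 / ex3 x) / z1) := by ring
  rw [e]
  linarith [mul_le_mul_of_nonneg_left hq (by norm_num : (0 : ℝ) ≤ 118 / 100)]

/-- The shifted field stays below `-(4/5) ε/√n`. -/
theorem shifted_field_le_mid {δ : ℝ} (hm : 126 ≤ m) (hε : 0 ≤ ε) (hT : 0 < T)
    (hδ : δ ≤ 2 * shUM m (LargeN.c0 m ε) (LargeN.c1 m ε) * √(1 + T ^ 2) /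
      (4 + ((m : ℝ) + 1) * T ^ 2)) :
    shP m (LargeN.c0 m ε) (LargeN.c1 m ε) T / pre m T + δ ≤
      -(4 / 5 * (ε / √((m : ℝ) + 2))) := by
  have hm' : (126 : ℝ) ≤ (m : ℝ) := by exact_mod_cast hm
  have hpre : 0 < pre m T := by unfold pre; positivity
  obtain ⟨hU0, -, hU⟩ := UM_bounds hm hε
  obtain ⟨hc, -⟩ := c1q_bounds hm hε
  have hP := neg_shP_ge (m := m) (c0_nonneg (m := m) hε) (c1_nonneg (m := m) hε) T
  have hP' : shP m (LargeN.c0 m ε) (LargeN.c1 m ε) T / pre m T ≤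
      -(LargeN.c1 m ε / ((m : ℝ) + 4) + shUM m (LargeN.c0 m ε) (LargeN.c1 m ε) * (1 + T ^ 2) /
        (2 + ((m : ℝ) + 2) * T ^ 2)) := by
    rw [div_le_iff₀ hpre]; linarith
  set s := T ^ 2 with hsdef
  have hs0 : 0 ≤ s := sq_nonneg T
  set z := ((m : ℝ) + 2) * s with hz
  have hz0 : 0 ≤ z := by positivity
  have hA : 0 < 4 + ((m : ℝ) + 1) * s := by positivity
  have hB : 0 < 2 + z := by positivity
  have hb : 2 * √(1 + s) / (4 + ((m : ℝ) + 1) * s) - (1 + s) / (2 + z) ≤ 88 / 1000 := by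
    refine le_trans (sub_le_sub_right (div_le_div_of_nonneg_right
      (mul_le_mul_of_nonneg_left (Real.sqrt_le_iff.2 ⟨(by positivity : 0 ≤ 1 + s / 2), ?_⟩)
        zero_le_two) hA.le) _) (?_ : 2 * (1 + s / 2) / (4 + ((m : ℝ) + 1) * s) - (1 + s) / (2 + z) ≤ _)
    · nlinarith
    rw [div_sub_div _ _ hA.ne' hB.ne', div_le_iff₀ (mul_pos hA hB), hz]
    have e1 : s ≤ 1 / 128 * z := by
      rw [hz]; linarith [mul_le_mul_of_nonneg_right (by linarith : (128 : ℝ) ≤ (m : ℝ) + 2) hs0]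
    have e2 := mul_le_mul_of_nonneg_right e1 hz0
    rw [hz] at e1 e2
    nlinarith [sq_nonneg (((m : ℝ) + 2) * s - 283 / 100), mul_le_mul_of_nonneg_left e1 hs0]
  have hb' := mul_le_mul_of_nonneg_left hb hU0
  have e : 2 * shUM m (LargeN.c0 m ε) (LargeN.c1 m ε) * √(1 + s) / (4 + ((m : ℝ) + 1) * s) -
      shUM m (LargeN.c0 m ε) (LargeN.c1 m ε) * (1 + s) / (2 + z) =
      shUM m (LargeN.c0 m ε) (LargeN.c1 m ε) *
        (2 * √(1 + s) / (4 + ((m : ℝ) + 1) * s) - (1 + s) / (2 + z)) := by ring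
  have : 0 ≤ ε / √((m : ℝ) + 2) := by positivity
  linarith

/-- `negE` on a cell. -/
lemma negE_le_cell {e1 T1 vl mn : ℝ} (hm : 126 ≤ m) (hε : 0 ≤ ε) (he : ε ≤ e1) (hT : 0 < T)
    (hT1 : T ≤ T1) (hvl : 0 < vl) (hv : vl ≤ √((m : ℝ) + 2)) (hY : 1 ≤ Y)
    (hmn : min ((Y ^ 2 - 1) / (T * √(1 + ((m : ℝ) + 2) * T ^ 2 / 3))) (2 * T / 3) ≤ mn) :
    negE m Y (LargeN.c0 m ε) (LargeN.c1 m ε) T ≤ 21 / 5 * e1 * (1 + T1 ^ 2) / vl * mn := by
  obtain ⟨hU0, -, hU⟩ := UM_bounds hm hε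
  have hη : 0 ≤ Y ^ 2 - 1 := sub_nonneg.2 (one_le_pow₀ hY)
  have hqe : ε / √((m : ℝ) + 2) ≤ e1 / vl := div_le_div₀ (hε.trans he) he hvl hv
  have h1 : shUM m (LargeN.c0 m ε) (LargeN.c1 m ε) * (1 + T ^ 2) ≤
      21 / 5 * (e1 / vl) * (1 + T1 ^ 2) :=
    mul_le_mul (hU.trans (mul_le_mul_of_nonneg_left hqe (by norm_num)))
      (by linarith [pow_le_pow_left₀ hT.le hT1 2]) (by positivity)
      (mul_nonneg (by norm_num) (div_nonneg (hε.trans he) hvl.le))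
  refine (mul_le_mul h1 hmn (le_min (by positivity) (by positivity))
    ((mul_nonneg hU0 (by positivity)).trans h1)).trans (le_of_eq ?_)
  ring

/-- `gG` on a cell. -/
lemma gG_cell {kl kb e0 e1 T0 T1 vl vh : ℝ} (he0 : 0 ≤ e0) (he : e0 ≤ ε) (he' : ε ≤ e1)
    (hkl : 0 ≤ kl) (hk0 : kl ≤ kap) (hk1 : kap ≤ kb) (hT0 : 0 ≤ T0) (hT : T0 ≤ T) (hT1 : T ≤ T1)
    (hvl : 0 < vl) (hv : vl ≤ √((m : ℝ) + 2)) (hv' : √((m : ℝ) + 2) ≤ vh) :
    kl * (1 + e0) * (3 / 2 / vh ^ 2 + 3 / 4 * T0 ^ 2) ≤ gG m ε kap T ∧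
      gG m ε kap T ≤ kb * (1 + e1) * (3 / 2 + 3 / 4 * (vh ^ 2 * T1 ^ 2)) / vl ^ 2 := by
  have hv2 : √((m : ℝ) + 2) ^ 2 = (m : ℝ) + 2 := sq_sqrt (by positivity)
  have hv0 : 0 < √((m : ℝ) + 2) := by positivity
  have hε : 0 ≤ ε := he0.trans he
  have hN : 0 < (m : ℝ) + 2 := by positivity
  constructor
  · have h1 : 3 / 2 / vh ^ 2 + 3 / 4 * T0 ^ 2 ≤ (3 / 2 + 3 / 4 * (((m : ℝ) + 2) * T ^ 2)) /
        ((m : ℝ) + 2) := by
      rw [add_div, show 3 / 4 * (((m : ℝ) + 2) * T ^ 2) / ((m : ℝ) + 2) = 3 / 4 * T ^ 2 by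
        field_simp]
      refine add_le_add (div_le_div_of_nonneg_left (by norm_num) hN ?_)
        (mul_le_mul_of_nonneg_left (pow_le_pow_left₀ hT0 hT 2) (by norm_num))
      rw [← hv2]; exact pow_le_pow_left₀ hv0.le hv' 2
    rw [gG, mul_div_assoc]
    exact mul_le_mul (mul_le_mul hk0 (by linarith) (by linarith) (hkl.trans hk0)) h1
      (by positivity) (mul_nonneg (hkl.trans hk0) (by linarith))
  · rw [gG]
    refine div_le_div₀ ?_ ?_ (by positivity) ?_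
    · exact mul_nonneg (mul_nonneg ((hkl.trans hk0).trans hk1) (by linarith)) (by positivity)
    · refine mul_le_mul (mul_le_mul hk1 (by linarith) (by linarith) ((hkl.trans hk0).trans hk1))
        ?_ (by positivity) (mul_nonneg ((hkl.trans hk0).trans hk1) (by linarith))
      have : ((m : ℝ) + 2) * T ^ 2 ≤ vh ^ 2 * T1 ^ 2 := by
        refine mul_le_mul ?_ (pow_le_pow_left₀ (hT0.trans hT) hT1 2) (sq_nonneg T) (sq_nonneg vh)
        rw [← hv2]; exact pow_le_pow_left₀ hv0.le hv' 2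
      linarith
    · rw [← hv2]; exact pow_le_pow_left₀ hvl.le hv 2

end Vale.Agent.P237.Cal.PosN
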