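import Vale.Agent.P237.Cal.PosTan

/-!
# P237: one point of `σ ≥ T` behind the multiplier, weighted mean denominator

`(√A + √B)² ≥ min((1+2r)A + B, A + (1+2/r)B)` for every `r > 0`. Either the whole coefficient is
absorbed in `C D²`, or its part `G` is paid with `G²/ω`.
-/

open Real

namespace Vale.Agent.P237.Cal.PosN

/-- The vertex expression in the field `P` and the share `lam` of `η`. -/
def midF {K : Type*} [CommRing K] (C0 c N0 n x k d P lam : K) : K :=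
  (C0 - c * lam) * (N0 - 2 * P * d - n * lam) - (x - 2 * P - k * lam) ^ 2

/-- The four-vertex lemma with slack for the parameter of `η`. -/
lemma midF_slack {C0 c N0 n x k d P P0 P1 lam : ℝ} (hP0 : P0 ≤ P) (hP1 : P ≤ P1)
    (hl0 : 0 ≤ lam) (hl1 : lam ≤ 1)
    (h : ∀ Q l, (Q = P0 ∨ Q = P1) → (l = 0 ∨ l = 1) →
      max 0 (c * n - k ^ 2) / 4 ≤ midF C0 c N0 n x k d Q l) :
    0 ≤ midF C0 c N0 n x k d P lam := by
  set sl := max 0 (c * n - k ^ 2) with hsl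
  have key : ∀ Q, (Q = P0 ∨ Q = P1) → 0 ≤ midF C0 c N0 n x k d Q lam := fun Q hQ => by
    have e : midF C0 c N0 n x k d Q lam = (1 - lam) * midF C0 c N0 n x k d Q 0 +
        lam * midF C0 c N0 n x k d Q 1 - (c * n - k ^ 2) * (lam * (1 - lam)) := by
      simp only [midF]; ring
    have hll : 0 ≤ lam * (1 - lam) := mul_nonneg hl0 (sub_nonneg.2 hl1)
    have hq : lam * (1 - lam) ≤ 1 / 4 := by linarith [sq_nonneg (lam - 1 / 2)]
    have h0 := mul_le_mul_of_nonneg_left (h Q 0 hQ (.inl rfl)) (sub_nonneg.2 hl1)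
    have h1 := mul_le_mul_of_nonneg_left (h Q 1 hQ (.inr rfl)) hl0
    have h2 : (c * n - k ^ 2) * (lam * (1 - lam)) ≤ sl * (1 / 4) :=
      (mul_le_mul_of_nonneg_right (le_max_right _ _) hll).trans
        (mul_le_mul_of_nonneg_left hq (le_max_left _ _))
    rw [e]
    linarith
  rcases eq_or_lt_of_le (hP0.trans hP1) with e | hlt
  · rw [le_antisymm (hP1.trans e.ge) hP0]; exact key P0 (.inl rfl)
  · have e : (P1 - P0) * midF C0 c N0 n x k d P lam = (P1 - P) * midF C0 c N0 n x k d P0 lam +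
        (P - P0) * midF C0 c N0 n x k d P1 lam + 4 * ((P1 - P0) * ((P1 - P) * (P - P0))) := by
      simp only [midF]; ring
    refine nonneg_of_mul_nonneg_right ?_ (sub_pos.2 hlt)
    rw [e]
    have := mul_nonneg (sub_nonneg.2 hP1) (key P0 (.inl rfl))
    have := mul_nonneg (sub_nonneg.2 hP0) (key P1 (.inr rfl))
    have := mul_nonneg (sub_pos.2 hlt).le (mul_nonneg (sub_nonneg.2 hP1) (sub_nonneg.2 hP0))
    linarith

/-- The weight of `η` in `ca A + cb B`, on a cell. -/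
def etaN {K : Type*} [Field K] [LinearOrder K] (ca cb T0 T1 : K) : K :=
  if cb ≤ ca then max 0 (cb + (cb - ca) * T0 ^ 2) else cb + (cb - ca) * T1 ^ 2

lemma etaN_ge {ca cb T0 T1 T : ℝ} (h0 : 0 ≤ T0) (hT0 : T0 ≤ T) (hT1 : T ≤ T1) :
    cb + (cb - ca) * T ^ 2 ≤ etaN ca cb T0 T1 := by
  unfold etaN
  split_ifs with h
  · refine le_max_of_le_right (add_le_add_right ?_ _)
    exact mul_le_mul_of_nonpos_left (pow_le_pow_left₀ h0 hT0 2) (by linarith)
  · exact add_le_add_right (mul_le_mul_of_nonneg_left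
      (pow_le_pow_left₀ (h0.trans hT0) hT1 2) (by linarith)) _

lemma etaN_nonneg {ca cb T0 T1 : ℝ} (hcb : 0 ≤ cb) : 0 ≤ etaN ca cb T0 T1 := by
  unfold etaN
  split_ifs with h
  · exact le_max_left _ _
  · have := mul_nonneg (by linarith : 0 ≤ cb - ca) (sq_nonneg T1)
    linarith

/-- `√A + √B` squared against the two weighted sums. -/
lemma sq_sum_sqrt_ge {A B r : ℝ} (hA : 0 ≤ A) (hB : 0 ≤ B) (hr : 0 < r) :
    min ((1 + 2 * r) * A + B) (A + (1 + 2 / r) * B) ≤ (√A + √B) ^ 2 := by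
  have e : (√A + √B) ^ 2 = A + B + 2 * √(A * B) := by
    rw [sqrt_mul hA, add_sq, sq_sqrt hA, sq_sqrt hB]; ring
  have h2 : min (r * A) (B / r) ≤ √(A * B) := by
    have ha : 0 ≤ r * A := mul_nonneg hr.le hA
    have hb : 0 ≤ B / r := div_nonneg hB hr.le
    refine le_sqrt_of_sq_le ?_
    rw [show A * B = r * A * (B / r) by field_simp, sq]
    exact mul_le_mul (min_le_left _ _) (min_le_right _ _) (le_min ha hb) ha
  rw [e]
  rcases le_total (r * A) (B / r) with h | h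
  · rw [min_eq_left h] at h2
    exact (min_le_left _ _).trans (by linarith)
  · rw [min_eq_right h] at h2
    refine (min_le_right _ _).trans ?_
    rw [show (1 + 2 / r) * B = B + 2 * (B / r) by ring]
    linarith

/-- **Slope-free bound behind the multiplier**, any denominator below both weighted sums. -/
theorem valQ_ge_tanN {Y T σ h ε b G r N : ℝ} (hb : 0 ≤ b) (hr : 0 < r) (hR : RegC Y T σ h)
    (hA : 0 ≤ tanA ε b (Y ^ 2 - 1) σ) (hB : 0 ≤ tanB ε b (Y ^ 2 - 1) T G) (hN : 0 < N)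
    (h1 : N ≤ (1 + 2 * r) * tanA ε b (Y ^ 2 - 1) σ + tanB ε b (Y ^ 2 - 1) T G)
    (h2 : N ≤ tanA ε b (Y ^ 2 - 1) σ + (1 + 2 / r) * tanB ε b (Y ^ 2 - 1) T G) :
    -((ε - b) * (σ - T) ^ 2) - 2 * b * (σ - T) / T - b * (Y ^ 2 - 1) / T ^ 2 -
        (tanB ε b (Y ^ 2 - 1) T G - tanA ε b (Y ^ 2 - 1) σ) ^ 2 / N ≤
      valQ ε T σ h + G * (h - 1) := by
  have hh := hR.h_pos
  have hT := hR.T_pos
  have h1b : 0 < 1 + b := by linarith
  have hq := valQ_tangentC (ε := ε) hb hR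
  generalize hA' : tanA ε b (Y ^ 2 - 1) σ = A at hA h1 h2 ⊢
  generalize hB' : tanB ε b (Y ^ 2 - 1) T G = B at hB h1 h2 ⊢
  have e : (1 + b) * valQ ((ε - b) / (1 + b)) T σ h - 2 * b * (σ - T) / T -
      b * (Y ^ 2 - 1) * ((1 + T ^ 2) * h - T ^ 2 / h) / T ^ 2 + G * (h - 1) =
      A / h + B * h - (A + B) - (ε - b) * (σ - T) ^ 2 - 2 * b * (σ - T) / T -
        b * (Y ^ 2 - 1) / T ^ 2 := by
    simp only [← hA', ← hB', tanA, tanB, valQ]
    field_simp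
    ring
  have h3 : 2 * √(A * B) ≤ A / h + B * h := two_sqrt_mul_le hA hB hh
  have h4 : -((B - A) ^ 2 / N) ≤ 2 * √(A * B) - (A + B) := by
    have hS := (le_min h1 h2).trans (sq_sum_sqrt_ge hA hB hr)
    have e1 : A + B - 2 * √(A * B) = (√A - √B) ^ 2 := by
      rw [sqrt_mul hA, sub_sq, sq_sqrt hA, sq_sqrt hB]; ring
    have e2 : (B - A) ^ 2 = (√A - √B) ^ 2 * (√A + √B) ^ 2 := by
      rw [← mul_pow, ← neg_sq (B - A),
        show (√A - √B) * (√A + √B) = √A ^ 2 - √B ^ 2 by ring, sq_sqrt hA, sq_sqrt hB, neg_sub]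
    rw [neg_le, le_div_iff₀ hN, e2, show -(2 * √(A * B) - (A + B)) = (√A - √B) ^ 2 by rw [← e1]; ring]
    exact mul_le_mul_of_nonneg_left hS (sq_nonneg _)
  linarith

/-- The square of `a + G/D` against a weight affine in `G`. -/
lemma end_sq {a al ah G gl gu D D0 C M cb : ℝ} (ha0 : al ≤ a) (ha1 : a ≤ ah) (hgl : 0 ≤ gl)
    (hgu : 0 ≤ gu) (hD0 : 0 < D0) (hD : D0 ≤ D) (hC : 0 ≤ C) (hcb : 0 ≤ cb) (hG0 : -gl ≤ G)
    (hG1 : G ≤ gu) (h1 : ah ^ 2 ≤ C * M) (h2 : (al - gl / D0) ^ 2 ≤ C * M)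
    (h3 : (ah + gu / D0) ^ 2 ≤ C * (M + cb * (gl + gu))) :
    (a + G / D) ^ 2 ≤ C * (M + cb * (G + gl)) := by
  have hDp : 0 < D := hD0.trans_le hD
  have hmono : C * M ≤ C * (M + cb * (G + gl)) :=
    mul_le_mul_of_nonneg_left (le_add_of_nonneg_right (mul_nonneg hcb (by linarith))) hC
  have hlow : al - gl / D0 ≤ a + G / D := by
    have h : -(gl / D0) ≤ G / D := by
      rw [le_div_iff₀ hDp, neg_mul, div_mul_eq_mul_div]
      have : gl * D0 ≤ gl * D := mul_le_mul_of_nonneg_left hD hgl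
      have : gl ≤ gl * D / D0 := by rw [le_div_iff₀ hD0]; exact this
      linarith
    linarith
  rcases le_total (a + G / D) 0 with hx | hx
  · have := pow_le_pow_left₀ (neg_nonneg.2 hx) (neg_le_neg hlow) 2
    rw [neg_sq, neg_sq] at this
    exact (this.trans h2).trans hmono
  rcases le_total G 0 with hG | hG
  · have : G / D ≤ 0 := div_nonpos_of_nonpos_of_nonneg hG hDp.le
    exact ((pow_le_pow_left₀ hx (by linarith : a + G / D ≤ ah) 2).trans h1).trans hmono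
  obtain ⟨t, ht0, ht1, rfl⟩ : ∃ t, 0 ≤ t ∧ t ≤ 1 ∧ G = t * gu := by
    rcases eq_or_lt_of_le hgu with e | e
    · exact ⟨0, le_rfl, zero_le_one, by rw [zero_mul]; linarith⟩
    · exact ⟨G / gu, div_nonneg hG hgu, (div_le_one e).2 hG1, by field_simp⟩
  have hup : a + t * gu / D ≤ ah + t * (gu / D0) := by
    have : t * gu / D ≤ t * gu / D0 := div_le_div_of_nonneg_left hG hD0 hD
    rw [mul_div_assoc t gu D0] at this
    linarith
  refine (pow_le_pow_left₀ hx hup 2).trans ?_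
  have e : (1 - t) * ah ^ 2 + t * (ah + gu / D0) ^ 2 - (ah + t * (gu / D0)) ^ 2 =
      t * (1 - t) * (gu / D0) ^ 2 := by ring
  have h4 := mul_le_mul_of_nonneg_left h1 (sub_nonneg.2 ht1)
  have h5 := mul_le_mul_of_nonneg_left h3 ht0
  have h6 : 0 ≤ t * (1 - t) * (gu / D0) ^ 2 :=
    mul_nonneg (mul_nonneg ht0 (sub_nonneg.2 ht1)) (sq_nonneg _)
  have h7 : 0 ≤ C * (cb * ((1 - t) * gl)) :=
    mul_nonneg hC (mul_nonneg hcb (mul_nonneg (sub_nonneg.2 ht1) hgl))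
  linarith

/-- **The whole coefficient absorbed in `C D²`.** -/
theorem core_G {π' l Cw Sl Y T σ h ε b p G C r : ℝ} (hπ : 0 ≤ π') (hb : 0 ≤ b) (hr : 0 < r)
    (hR : RegC Y T σ h) (hD : 0 < σ - T)
    (hA : 0 < tanA ε b (Y ^ 2 - 1) σ) (hB : 0 ≤ tanB ε b (Y ^ 2 - 1) T (2 * p * (σ - T) + G))
    (h1 : ((ε - b) * (σ + T) + 2 * p - b * (Y ^ 2 - 1) * (2 + 1 / T ^ 2) / (σ - T) +
        G / (σ - T)) ^ 2 ≤ C * ((1 + 2 * r) * tanA ε b (Y ^ 2 - 1) σ +
          tanB ε b (Y ^ 2 - 1) T (2 * p * (σ - T) + G)))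
    (h2 : ((ε - b) * (σ + T) + 2 * p - b * (Y ^ 2 - 1) * (2 + 1 / T ^ 2) / (σ - T) +
        G / (σ - T)) ^ 2 ≤ C * (tanA ε b (Y ^ 2 - 1) σ +
          (1 + 2 / r) * tanB ε b (Y ^ 2 - 1) T (2 * p * (σ - T) + G)))
    (hend : π' * (((ε - b) + C) * (σ - T) ^ 2 + 2 * b * (σ - T) / T +
      b * (Y ^ 2 - 1) / T ^ 2) ≤ (σ - T) * l + (σ - T) ^ 2 * Cw + Sl) :
    ∃ L, L ≤ valQ ε T σ h + (2 * p * (σ - T) + G) * (h - 1) ∧
      0 ≤ π' * L + (σ - T) * l + (σ - T) ^ 2 * Cw + Sl := by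
  have hT := hR.T_pos
  have h2r : 0 ≤ 2 / r := by positivity
  set A := tanA ε b (Y ^ 2 - 1) σ with hAdef
  set B := tanB ε b (Y ^ 2 - 1) T (2 * p * (σ - T) + G) with hBdef
  set a := (ε - b) * (σ + T) + 2 * p - b * (Y ^ 2 - 1) * (2 + 1 / T ^ 2) / (σ - T) + G / (σ - T)
    with hadef
  have hN1 : 0 < (1 + 2 * r) * A + B := by
    have := mul_pos (by linarith : 0 < 1 + 2 * r) hA
    linarith
  have hN2 : 0 < A + (1 + 2 / r) * B := by
    have := mul_nonneg (by linarith : 0 ≤ 1 + 2 / r) hB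
    linarith
  refine ⟨_, valQ_ge_tanN (G := 2 * p * (σ - T) + G) hb hr hR hA.le hB (lt_min hN1 hN2)
    (min_le_left _ _) (min_le_right _ _), ?_⟩
  have e : B - A = a * (σ - T) := by
    rw [hadef, hBdef, hAdef]; simp only [tanA, tanB]
    field_simp
    ring
  have hq : (B - A) ^ 2 / min ((1 + 2 * r) * A + B) (A + (1 + 2 / r) * B) ≤ C * (σ - T) ^ 2 := by
    rw [div_le_iff₀ (lt_min hN1 hN2), e, mul_pow, mul_right_comm]
    refine mul_le_mul_of_nonneg_right ?_ (sq_nonneg _)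
    rcases le_total ((1 + 2 * r) * A + B) (A + (1 + 2 / r) * B) with h | h
    · rw [min_eq_left h]; exact h1
    · rw [min_eq_right h]; exact h2
  have key := mul_le_mul_of_nonneg_left hq hπ
  linarith

/-- **The part `G` paid with `G²/ω`**, the price of `η` with `op`. -/
theorem core_E {π' l Cw Sl Y T σ h ε b p G C r ω op w N : ℝ} (hπ : 0 ≤ π') (hb : 0 ≤ b)
    (hr : 0 < r) (hR : RegC Y T σ h) (hω : 0 < ω) (hop : 0 ≤ op) (hw : 0 ≤ w) (hC : 0 ≤ C)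
    (hA : 0 ≤ tanA ε b (Y ^ 2 - 1) σ)
    (hB : 0 ≤ tanB ε b (Y ^ 2 - 1) T (2 * p * (σ - T) + G))
    (hN1 : N ≤ (1 + 2 * r) * tanA ε b (Y ^ 2 - 1) σ +
      tanB ε b (Y ^ 2 - 1) T (2 * p * (σ - T) + G))
    (hN2 : N ≤ tanA ε b (Y ^ 2 - 1) σ +
      (1 + 2 / r) * tanB ε b (Y ^ 2 - 1) T (2 * p * (σ - T) + G))
    (hN : ω + op ≤ N) (hsq : ((ε - b) * (σ + T) + 2 * p) ^ 2 ≤ C * (N - ω - op))
    (hη : (b * (Y ^ 2 - 1) * (2 + 1 / T ^ 2)) ^ 2 ≤ op * w)
    (hend : π' * (((ε - b) + C) * (σ - T) ^ 2 + 2 * b * (σ - T) / T +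
      (b * (Y ^ 2 - 1) / T ^ 2 + w)) ≤ (σ - T) * l + (σ - T) ^ 2 * Cw + Sl) :
    ∃ L, L ≤ valQ ε T σ h + (2 * p * (σ - T) + G) * (h - 1) ∧
      -(π' * (G ^ 2 / ω)) ≤ π' * L + (σ - T) * l + (σ - T) ^ 2 * Cw + Sl := by
  have hT := hR.T_pos
  refine ⟨_, valQ_ge_tanN (G := 2 * p * (σ - T) + G) hb hr hR hA hB (by linarith) hN1 hN2, ?_⟩
  set z := b * (Y ^ 2 - 1) * (2 + 1 / T ^ 2) with hz
  have e : tanB ε b (Y ^ 2 - 1) T (2 * p * (σ - T) + G) - tanA ε b (Y ^ 2 - 1) σ =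
      ((ε - b) * (σ + T) + 2 * p) * (σ - T) + (G - z) := by
    rw [hz]; simp only [tanA, tanB]
    field_simp
    ring
  have k1 := engel_split (D := σ - T) (G := G - z) hC (by linarith : 0 < ω + op) hN
    (by rwa [← sub_sub])
  have k2 : (G - z) ^ 2 / (ω + op) ≤ G ^ 2 / ω + w := by
    rcases eq_or_lt_of_le hop with ho | ho
    · rw [← ho] at hη ⊢
      rw [zero_mul] at hη
      have : z = 0 := pow_eq_zero_iff two_ne_zero |>.1 (le_antisymm hη (sq_nonneg z))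
      rw [this, sub_zero, add_zero]
      linarith
    · have h1 : (G - z) ^ 2 / (ω + op) ≤ G ^ 2 / ω + z ^ 2 / op := by
        rw [div_add_div _ _ hω.ne' ho.ne', div_le_div_iff₀ (by linarith) (mul_pos hω ho)]
        linarith [sq_nonneg (G * op + z * ω)]
      have h2 : z ^ 2 / op ≤ w := by rw [div_le_iff₀ ho]; linarith
      linarith
  rw [e]
  have key := mul_le_mul_of_nonneg_left (k1.trans (add_le_add_right k2 _)) hπ
  linarith

end Vale.Agent.P237.Cal.PosN
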