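import Vale.Agent.P237.Cal.EllFlatBound

/-!
# P237: the linear weight on a cell, `n ≥ 128`
-/

open Real

namespace Vale.Agent.P237.Cal.PosN

variable {m : ℕ}

/-- The constant of the weight at `W ≤ w`, `kap ≤ kb`. -/
def tcM {K : Type*} [Field K] (w kb : K) : K :=
  (2 * w + 1004 / 1000) / ((w + 1004 / 1000) ^ 2 * (1004 / 1000) ^ 3) - 761 / 1000 * kb

/-- `n flatB ≥ tcM(w, kb) (z - 101/100)²`. -/
lemma flat_mid {N W r s kap kb w : ℝ} (hN : 128 ≤ N) (hs : W ^ 2 = 1 + s) (hW : 1 ≤ W) (hw : W ≤ w)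
    (hz : 5 / 2 ≤ N * s) (hr1 : 1 ≤ r) (hr2 : r ≤ 1004 / 1000)
    (hr3 : |N * (r ^ 2 - 1) - 1| ≤ 1 / N) (hk0 : 0 ≤ kap) (hk : kap ≤ kb) :
    tcM w kb * (N * s - 101 / 100) ^ 2 ≤
      N * ((N + 2) * ((W - r) ^ 2 * (2 * W + r) / r ^ 3) +
        kap / N * (-(3 / 4) * (N * s - 1) ^ 2 + s * (3 / 2 * (N * s) - 15 / 4))) := by
  have hN0 : 0 < N := by linarith
  have hr0 : 0 < r := by linarith
  have hb : N * (r ^ 2 - 1) ≤ 101 / 100 := by
    have h6 : 1 / N ≤ 1 / 128 := one_div_le_one_div_of_le (by norm_num) hN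
    linarith [(abs_le.1 hr3).2]
  have hs0 : 0 ≤ s := by nlinarith
  set z := N * s with hzdef
  set R : ℝ := 1004 / 1000 with hR
  set c := (2 * w + R) / ((w + R) ^ 2 * R ^ 3) with hcdef
  have hw0 : 0 < w := by linarith
  have hR0 : 0 < R := by rw [hR]; norm_num
  have hc : c ≤ (2 * W + r) / ((W + r) ^ 2 * r ^ 3) := by
    have h1 : (2 * w + R) / (w + R) ^ 2 ≤ (2 * W + r) / (W + r) ^ 2 := by
      rw [div_le_div_iff₀ (by positivity) (by positivity)]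
      nlinarith [mul_nonneg (mul_nonneg (sub_nonneg.2 hw) (by linarith : (0 : ℝ) ≤ W)) hw0.le,
        mul_nonneg (mul_nonneg (sub_nonneg.2 hr2) (by linarith : (0 : ℝ) ≤ W)) hw0.le,
        mul_nonneg (mul_nonneg (sub_nonneg.2 hw) hr0.le) hR0.le,
        mul_nonneg (mul_nonneg (sub_nonneg.2 hr2) hr0.le) hR0.le,
        mul_nonneg (mul_nonneg (sub_nonneg.2 hw) (by linarith : (0 : ℝ) ≤ W)) hR0.le,
        mul_nonneg (mul_nonneg (sub_nonneg.2 hr2) hr0.le) hw0.le,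
        mul_nonneg (mul_nonneg (sub_nonneg.2 hw) hr0.le) hw0.le,
        mul_nonneg (mul_nonneg (sub_nonneg.2 hr2) (by linarith : (0 : ℝ) ≤ W)) hR0.le]
    have h2 : r ^ 3 ≤ R ^ 3 := pow_le_pow_left₀ hr0.le hr2 3
    rw [hcdef, ← div_div, ← div_div]
    exact div_le_div₀ (div_nonneg (by linarith) (sq_nonneg _)) h1 (by positivity) h2
  have hc0 : 0 ≤ c := by rw [hcdef]; positivity
  have h1 : c * (z - 101 / 100) ^ 2 ≤
      N * ((N + 2) * ((W - r) ^ 2 * (2 * W + r) / r ^ 3)) := by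
    have h3 : (z - 101 / 100) ^ 2 ≤ (N * (W ^ 2 - r ^ 2)) ^ 2 := by
      refine pow_le_pow_left₀ (by linarith) ?_ 2
      have e : N * (W ^ 2 - r ^ 2) = z - N * (r ^ 2 - 1) := by rw [hs, hzdef]; ring
      linarith
    have e : N * ((N + 2) * ((W - r) ^ 2 * (2 * W + r) / r ^ 3)) =
        (1 + 2 / N) * ((N * (W ^ 2 - r ^ 2)) ^ 2 * ((2 * W + r) / ((W + r) ^ 2 * r ^ 3))) := by
      field_simp
      ring
    rw [e]
    refine le_trans ?_ (le_mul_of_one_le_left (by positivity) (by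
      have : 0 ≤ 2 / N := by positivity
      linarith))
    rw [mul_comm c]
    exact mul_le_mul h3 hc hc0 (sq_nonneg _)
  have h4 : -(761 / 1000 * kb * (z - 101 / 100) ^ 2) ≤
      kap * (-(3 / 4) * (z - 1) ^ 2 + s * (3 / 2 * z - 15 / 4)) := by
    have hz0 : 0 ≤ kap * (s * (3 / 2 * z - 15 / 4)) :=
      mul_nonneg hk0 (mul_nonneg hs0 (by linarith))
    have h6 : 3 / 4 * (z - 1) ^ 2 ≤ 761 / 1000 * (z - 101 / 100) ^ 2 := by
      nlinarith [sq_nonneg (z - 5 / 2)]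
    have h5 := mul_le_mul hk h6 (by positivity) (hk0.trans hk)
    linarith
  have e : N * (kap / N * (-(3 / 4) * (z - 1) ^ 2 + s * (3 / 2 * z - 15 / 4))) =
      kap * (-(3 / 4) * (z - 1) ^ 2 + s * (3 / 2 * z - 15 / 4)) := by field_simp
  rw [mul_add N, e, tcM, ← hR, ← hcdef]
  linarith

/-- **The weight on a cell**, for `z ≥ z0 ≥ 5/2`. -/
theorem ellFlat_mid {ε e0 kap kb T T0 T1 z0 : ℝ} (hm : 126 ≤ m) (he0 : 0 ≤ e0) (he : e0 ≤ ε)
    (hk0 : 0 ≤ kap) (hk : kap ≤ kb) (hT : 0 < T) (hT00 : 0 ≤ T0) (hT0 : T0 ≤ T) (hT1 : T ≤ T1)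
    (hz0 : 5 / 2 ≤ z0) (hz : z0 ≤ ((m : ℝ) + 2) * T ^ 2)
    (htc : 0 ≤ tcM (1 + T1 ^ 2 / 2) kb) :
    pre m T * ((1 + e0) * tcM (1 + T1 ^ 2 / 2) kb * T0 * (z0 - 101 / 100) ^ 2 /
      (z0 * (1 + T1 ^ 2))) ≤ ellFlat m ε kap (rr (m + 1)) T := by
  have hm' : (126 : ℝ) ≤ (m : ℝ) := by exact_mod_cast hm
  have hr1 := (one_lt_rr (k := m + 1) (by omega)).le
  have hr0 : 0 < rr (m + 1) := one_pos.trans_le hr1
  have hr2 : rr (m + 1) ≤ 1004 / 1000 := by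
    have h := rr_le (k := m + 1) (by omega)
    push_cast at h
    have := one_div_le_one_div_of_le (by norm_num : (0 : ℝ) < 255)
      (by linarith : (255 : ℝ) ≤ 2 * ((m : ℝ) + 1) + 1)
    linarith
  have hT2 : T ^ 2 ≤ T1 ^ 2 := pow_le_pow_left₀ hT.le hT1 2
  have hw : √(1 + T ^ 2) ≤ 1 + T1 ^ 2 / 2 := by
    rw [sqrt_le_left (by positivity)]
    linarith [sq_nonneg (T1 ^ 2 / 2)]
  have h := flat_mid (N := (m : ℝ) + 2) (kap := kap) (kb := kb) (by linarith) (w_sq T) (one_le_w T)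
    hw (hz0.trans hz) hr1 hr2 (rr_sq_near (by omega)) hk0 hk
  rw [show (m : ℝ) + 2 + 2 = (m : ℝ) + 4 by ring] at h
  set tc := tcM (1 + T1 ^ 2 / 2) kb
  set z := ((m : ℝ) + 2) * T ^ 2 with hzdef
  have hmono : T0 * (z0 - 101 / 100) ^ 2 / (z0 * (1 + T1 ^ 2)) ≤
      T * (z - 101 / 100) ^ 2 / (z * (1 + T ^ 2)) := by
    have h2 : (z0 - 101 / 100) ^ 2 / z0 ≤ (z - 101 / 100) ^ 2 / z := by
      rw [div_le_div_iff₀ (by linarith) (by linarith)]
      have h3 : 0 ≤ z * z0 - (101 / 100) ^ 2 := by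
        have := mul_le_mul (by linarith : (101 : ℝ) / 100 ≤ z) (by linarith : (101 : ℝ) / 100 ≤ z0)
          (by norm_num) (by linarith)
        linarith
      have := mul_nonneg (sub_nonneg.2 hz) h3
      linarith
    have h4 : T0 / (1 + T1 ^ 2) ≤ T / (1 + T ^ 2) :=
      div_le_div₀ hT.le hT0 (by positivity) (by linarith)
    have h5 := mul_le_mul h4 h2 (div_nonneg (sq_nonneg _) (by linarith))
      (div_nonneg hT.le (by positivity))
    calc T0 * (z0 - 101 / 100) ^ 2 / (z0 * (1 + T1 ^ 2))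
        = T0 / (1 + T1 ^ 2) * ((z0 - 101 / 100) ^ 2 / z0) := by
          rw [div_mul_div_comm, mul_comm (1 + T1 ^ 2)]
      _ ≤ T / (1 + T ^ 2) * ((z - 101 / 100) ^ 2 / z) := h5
      _ = _ := by rw [div_mul_div_comm, mul_comm (1 + T ^ 2)]
  rw [ellFlat_eq hr0.ne' T]
  have h1 := mul_le_mul_of_nonneg_left h (by linarith : (0 : ℝ) ≤ 1 + ε)
  have h2 := mul_le_mul_of_nonneg_left h1
    (by positivity : 0 ≤ ((m : ℝ) + 1) * T / (((m : ℝ) + 2) * √(1 + T ^ 2) ^ (m + 6)))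
  have h3 := mul_le_mul (mul_le_mul_of_nonneg_right (by linarith : 1 + e0 ≤ 1 + ε) htc) hmono
    (div_nonneg (mul_nonneg hT00 (sq_nonneg _)) (mul_nonneg (by linarith) (by positivity)))
    (mul_nonneg (by linarith) htc)
  have h4 := mul_le_mul_of_nonneg_left h3 (pre_nonneg m T)
  refine le_trans (le_of_eq ?_) ((h4.trans (le_of_eq ?_)).trans (h2.trans (le_of_eq ?_)))
  · ring
  · simp only [pre, hzdef]
    rw [show √(1 + T ^ 2) ^ (m + 6) = √(1 + T ^ 2) ^ (m + 4) * √(1 + T ^ 2) ^ 2 from pow_add _ _ 2,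
      w_sq]
    field_simp
  · simp only [flatB, hzdef]
    field_simp

end Vale.Agent.P237.Cal.PosN
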