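import Vale.Agent.P237.Cal.Mid.PosBounds
import Vale.Agent.P237.Cal.Mid.PosCore
import Vale.Agent.P237.Cal.Mid.PosWt

/-!
# P237: the checker of the cover of `σ ≥ T`, `T ≤ 47/100`, `128 ≤ n ≤ 383`

A cell of the plane `T, σ` carries rows over consecutive ranges of `v = √n`. Mode `0`: no point;
mode `1`: the whole coefficient is absorbed; mode `2`: the shifted field, `G` paid by `cPM`.
-/

namespace Vale.Agent.P237.Cal.PosN

/-- A case: `Q ≤ Qb`, `yl ≤ y ≤ yh`, `y ≤ al log n + be` for `y = k log Y`, `ε ∈ [e0, e1]`. -/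
structure MidCase where
  /-- `Q ≤ Qb` -/
  Qb : ℚ
  /-- `y ≥ yl` -/
  yl : ℚ
  /-- `y ≤ yh` -/
  yh : ℚ
  /-- coefficient of `log n` -/
  al : ℚ
  /-- constant -/
  be : ℚ
  /-- `ε ≥ e0` -/
  e0 : ℚ
  /-- `ε ≤ e1` -/
  e1 : ℚ

/-- A cell. -/
structure MidCell where
  /-- `T ≥ T0` -/
  T0 : ℚ
  /-- `T ≤ T1` -/
  T1 : ℚ
  /-- `σ ≥ u0` -/
  u0 : ℚ
  /-- `σ ≤ u1` -/
  u1 : ℚ

/-- A row on `[vlo, vhi]`; `vlo` comes from the chain. -/
structure MidRow where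
  /-- the mode -/
  mode : ℕ
  /-- the multiplier -/
  b : ℚ
  /-- the weight of the mean -/
  r : ℚ
  /-- `v ≤ vhi` -/
  vhi : ℚ
  /-- `an^8 ≤ 2^j` -/
  j : ℕ
  /-- the anchor of the logarithm -/
  an : ℚ
  /-- `y ≤ yb` -/
  yb : ℚ
  /-- `kap ≤ kb` -/
  kb : ℚ
  /-- `sq² ≤ 1 + z/3` -/
  sq : ℚ

/-- `expM5` over a field. -/
def em5M {K : Type*} [Field K] (x : K) : K :=
  x * (1 + x / 2 * (1 + x / 3 * (1 + x / 4 * (1 + x / 5))))

namespace MidRow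

variable (w : MidRow) (c : MidCase) (B : MidCell) (vl : ℚ)

/-- `z` from below. -/
def z0 : ℚ := vl ^ 2 * B.T0 ^ 2

/-- `z` from above. -/
def z1 : ℚ := w.vhi ^ 2 * B.T1 ^ 2

/-- `2 log Y` from above. -/
def rl : ℚ := 2 * w.yb / (vl ^ 2 - 1)

/-- `η = Y² - 1` from above. -/
def eta : ℚ := w.rl vl / (1 - w.rl vl)

/-- `η/T²` from above. -/
def es : ℚ := w.eta vl / B.T0 ^ 2

/-- The weight of `D` over the prefactor, from below. -/
def L : ℚ :=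
  if z0 B vl < 5 / 2 then 0
  else (1 + c.e0) * tcM (1 + B.T1 ^ 2 / 2) w.kb * B.T0 * (z0 B vl - 101 / 100) ^ 2 /
    (z0 B vl * (1 + B.T1 ^ 2))

/-- The weight of `D²` over the prefactor, from below. -/
def A : ℚ :=
  c.e0 * (9 / 5 / (w.vhi * B.T1) + 6 / 5 * vl * B.T0 / (1 + B.T1 ^ 2)) -
    (if z0 B vl < 5 / 2 then c.e1 / 5 else 0)

/-- The field from above in size, times `v/ε`. -/
def pP : ℚ :=
  if 0 < z0 B vl then min (33 / 10) (6 / 5 + 21 / 5 * (1 / z0 B vl + 1 / 128)) else 33 / 10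

/-- The field from above in size. -/
def P1 : ℚ := c.e1 * pP B vl / vl

/-- The minimum in `negE`. -/
def mn : ℚ := if 0 < B.T0 then min (w.eta vl / (B.T0 * w.sq)) (2 * B.T1 / 3) else 2 * B.T1 / 3

/-- `kap` from below. -/
def kl : ℚ := (1 - 1 / ex3 c.yl) / 2

/-- `-G` from above. -/
def gl : ℚ :=
  max 0 (21 / 5 * c.e1 * (1 + B.T1 ^ 2) / vl * w.mn B vl -
    kl c * (1 + c.e0) * (3 / 2 / w.vhi ^ 2 + 3 / 4 * B.T0 ^ 2))

/-- What is left of the weight of `D`. -/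
def lin : ℚ := w.L c B vl - 2 * w.b / B.T0

/-- `ε - b` from above. -/
def E : ℚ := c.e1 - w.b

/-- The largest `D`. -/
def D1 : ℚ := B.u1 - B.T0

/-- The bound of `y`. -/
def ybOK : Bool :=
  decide (c.yh ≤ w.yb) || (decide (0 < w.an) && decide (w.an ^ 8 ≤ 2 ^ w.j) && decide (0 ≤ c.al) &&
    decide (c.al * ((w.j : ℚ) / 8 * (693148 / 1000000) + w.vhi ^ 2 / w.an - 1) + c.be ≤ w.yb))

/-- The bound of `kap`. -/
def kbOK : Bool :=
  decide (0 ≤ w.yb) && decide (w.yb ≤ 32) && decide (1 - 2 * w.kb ≤ (1 - w.yb / 32) ^ 32)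

/-- The side conditions of both modes. -/
def commonOK : Bool :=
  w.ybOK c && w.kbOK && decide (1 < vl ^ 2) && decide (w.rl vl < 1) &&
  decide (z0 B vl < 5 / 2 → w.b = 0) &&
  decide (5 / 2 ≤ z0 B vl → 0 ≤ tcM (1 + B.T1 ^ 2 / 2) w.kb) &&
  decide (w.b = 0 ∨ w.eta vl ≤ 2 * B.T0 ^ 2) && decide (0 ≤ w.b) && decide (w.b ≤ c.e0) &&
  decide (0 ≤ c.yl) && decide (0 < w.r) && decide (w.E c * B.u1 ^ 2 < 1 + w.b) &&
  decide (0 < D1 B) && decide (0 ≤ B.T0) &&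
  decide (0 < B.T0 → 0 < w.sq ∧ w.sq ^ 2 ≤ 1 + z0 B vl / 3)

/-- `gG + state` from above. -/
def gu : ℚ :=
  let t := B.T1 / 3 + 4 * (B.u1 - B.T0) / (4 + (vl ^ 2 - 1) * B.T0 ^ 2)
  let t2 := if 0 < B.T0 then
      min t (2 * (12534 / 10000 / vl * max 0 (c.Qb - (1 - 2 * w.kb))) /
        ((vl ^ 2 - 1) * B.T0 ^ 2))
    else t
  w.kb * (1 + c.e1) * (3 / 2 + 3 / 4 * w.z1 B) / vl ^ 2 +
    21 / 5 * c.e1 * (1 + B.T1 ^ 2) / vl * t2

/-- The smallest `D`. -/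
def D0 : ℚ := B.u0 - B.T1

/-- The field from below in size. -/
def P0 : ℚ :=
  c.e0 / w.vhi * (118 / 100 +
    415 / 100 * (1 - 1 / ex3 (w.z1 B / 2 / (1 + B.T1 ^ 2))) / w.z1 B)

/-- The linear part over `D`. -/
def lbd : ℚ := min (w.lin c B vl / D1 B) (w.lin c B vl / D0 B)

/-- The part of `η` over `D²`. -/
def pe : ℚ := max 0 ((w.b - w.L c B vl * B.T0 / 2) * w.es B vl / D0 B ^ 2)

/-- `C` at no `η`. -/
def C0 : ℚ := w.A c B vl - w.E c + w.lbd c B vl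

/-- The weighted sum at no `η` and no field. -/
def N0 (ca cb : ℚ) : ℚ :=
  (ca + cb) * (1 + w.b) - w.E c * (ca * B.u1 ^ 2 + cb * B.T1 ^ 2) - cb * w.gl c B vl

/-- `b η/T²` from above. -/
def bes : ℚ := w.b * w.es B vl

/-- Slope in the share of `η`, from below. -/
def k0 : ℚ := w.bes B vl * (2 * B.T0 ^ 2 + 1) / D1 B

/-- Slope in the share of `η`, from above. -/
def k1 : ℚ := w.bes B vl * (2 * B.T1 ^ 2 + 1) / D0 B

/-- The four vertices of one line. -/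
def lineOK (M n d x k : ℚ) : Bool :=
  let C := w.C0 c B vl
  let p := w.pe c B vl
  let sl := max 0 (p * n - k ^ 2) / 4
  let P := w.P0 c B
  let P' := P1 c B vl
  decide (sl ≤ midF C p M n x k d P 0) && decide (sl ≤ midF C p M n x k d P' 0) &&
  decide (sl ≤ midF C p M n x k d P 1) && decide (sl ≤ midF C p M n x k d P' 1)

/-- The three lines of one weighted sum, mode `1`. -/
def pairG (ca cb : ℚ) : Bool :=
  let M := w.N0 c B vl ca cb
  let n := w.bes B vl * etaN ca cb B.T0 B.T1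
  let d := cb * D1 B
  let g := w.gl c B vl
  let u := w.gu c B vl
  decide (0 ≤ M - 2 * P1 c B vl * d - n) &&
  w.lineOK c B vl M n d (w.E c * (B.u1 + B.T1)) (w.k0 B vl) &&
  w.lineOK c B vl M n d ((c.e0 - w.b) * (B.u0 + B.T0) - g / D0 B) (w.k1 B vl) &&
  w.lineOK c B vl (M + cb * (g + u)) n d (w.E c * (B.u1 + B.T1) + u / D0 B) (w.k0 B vl)

/-- Mode `1`. -/
def okG : Bool :=
  w.commonOK c B vl && decide (0 < D0 B) && decide (w.pe c B vl ≤ w.C0 c B vl) &&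
  decide (0 ≤ (1 + w.b) - w.E c * B.T1 ^ 2 - 2 * P1 c B vl * D1 B - w.gl c B vl -
    w.bes B vl * (1 + B.T1 ^ 2)) &&
  w.pairG c B vl (1 + 2 * w.r) 1 && w.pairG c B vl 1 (1 + 2 / w.r)

/-- `C` of mode `2`. -/
def CE : ℚ := w.A c B vl - w.E c + w.lin c B vl / D1 B

/-- What is left of the slack. -/
def rem : ℚ := w.L c B vl / (2 * B.T1) - w.b / B.T0 ^ 2

/-- The share of `η` in mode `2`. -/
def op : ℚ := w.eta vl * w.b ^ 2 * (2 + 1 / B.T0 ^ 2) ^ 2 / w.rem c B vl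

/-- `1/cPM` at the least `z`. -/
def om : ℚ := 1 / (38 / 100 + z0 B vl / 200)

/-- The two lines of one weighted sum, mode `2`. -/
def pairE (ca cb : ℚ) : Bool :=
  let M := w.N0 c B vl ca cb - w.bes B vl * etaN ca cb B.T0 B.T1 - om B vl - w.op c B vl
  let d := cb * D1 B
  let C := w.CE c B vl
  let P := c.e0 * (4 / 5) / w.vhi
  let P' := P1 c B vl
  let x := w.E c * (B.u1 + B.T1)
  let x' := (c.e0 - w.b) * (B.u0 + B.T0)
  decide (0 ≤ M - 2 * P' * d) &&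
  decide (0 ≤ midF C 0 M 0 x 0 d P 0) && decide (0 ≤ midF C 0 M 0 x 0 d P' 0) &&
  decide (0 ≤ midF C 0 M 0 x' 0 d P 0) && decide (0 ≤ midF C 0 M 0 x' 0 d P' 0)

/-- Mode `2`. -/
def okE : Bool :=
  w.commonOK c B vl && decide (0 ≤ w.lin c B vl) && decide (w.b = 0 ∨ 0 < w.rem c B vl) &&
  decide (0 ≤ w.CE c B vl) &&
  decide (0 ≤ (1 + w.b) - w.E c * B.T1 ^ 2 - 2 * P1 c B vl * D1 B - w.gl c B vl -
    w.bes B vl * (1 + B.T1 ^ 2)) &&
  w.pairE c B vl (1 + 2 * w.r) 1 && w.pairE c B vl 1 (1 + 2 / w.r)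

/-- Mode `0`: the mass bound or the bound of `y` excludes the row. -/
def okX : Bool :=
  let Qc := c.Qb * (12534 / 10000)
  (decide (0 < B.T0) && decide (B.T0 ≤ 2) &&
    decide (w.vhi * B.T1 ^ 2 *
      (Qc * (1 + 1 / em5M (vl ^ 2 * B.T0 ^ 2 / 2 / (1 + B.T1 ^ 2 / 2))) /
        (1 + B.T0 ^ 2 / 2 - B.T0 ^ 4 / 8 + 1)) < B.u0)) ||
  decide (Qc * (1 + B.T1 ^ 2 / 2) * (w.z1 B / 2 + 1 / (1 + w.z1 B / 4 + w.z1 B ^ 2 / 24)) <
    vl * B.u0) ||
  (w.ybOK c && decide (w.yb < c.yl))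

/-- The check of a row. -/
def ok : Bool :=
  match w.mode with
  | 0 => w.okX c B vl
  | 1 => w.okG c B vl
  | _ => w.okE c B vl

end MidRow

/-- A cover of a cell. -/
inductive MidTree where
  | leaf (rows : List MidRow)
  | top
  | low
  | splitT (x : ℚ) (l r : MidTree)
  | splitU (x : ℚ) (l r : MidTree)

/-- The rows cover `[lo, 19571/1000]`. -/
def rowsOK (c : MidCase) (B : MidCell) : List MidRow → ℚ → Bool
  | [], lo => decide (19571 / 1000 ≤ lo)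
  | w :: rest, lo => w.ok c B lo && rowsOK c B rest w.vhi

/-- The check of a cover. -/
def MidTree.ok (c : MidCase) : MidTree → MidCell → Bool
  | .leaf rows, B => rowsOK c B rows (11313 / 1000)
  | .top, B => decide (0 ≤ B.u0) && decide (1 + B.T1 ^ 2 < B.u0 ^ 2)
  | .low, B => decide (B.u1 < B.T0)
  | .splitT x l r, B => l.ok c { B with T1 := x } && r.ok c { B with T0 := x }
  | .splitU x l r, B => l.ok c { B with u1 := x } && r.ok c { B with u0 := x }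

lemma splitT_ok {c : MidCase} {T0 T1 u0 u1 x : ℚ} {l r : MidTree}
    (hl : l.ok c ⟨T0, x, u0, u1⟩ = true) (hr : r.ok c ⟨x, T1, u0, u1⟩ = true) :
    (MidTree.splitT x l r).ok c ⟨T0, T1, u0, u1⟩ = true := by
  simp [MidTree.ok, hl, hr]

lemma splitU_ok {c : MidCase} {T0 T1 u0 u1 x : ℚ} {l r : MidTree}
    (hl : l.ok c ⟨T0, T1, u0, x⟩ = true) (hr : r.ok c ⟨T0, T1, x, u1⟩ = true) :
    (MidTree.splitU x l r).ok c ⟨T0, T1, u0, u1⟩ = true := by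
  simp [MidTree.ok, hl, hr]

end Vale.Agent.P237.Cal.PosN
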