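import Vale.Agent.P237.Cal.Mid.PosCheck
import Vale.Agent.P237.Cal.Mid.Pay
import Vale.Agent.P237.Cal.Mid.PwAll
import Vale.Agent.P237.Cal.PwAll

/-!
# P237: the numbers of a row against a point of `σ ≥ T`, `128 ≤ n ≤ 383`
-/

open Real

namespace Vale.Agent.P237.Cal.PosN

/-- `log Y` times `k`. -/
noncomputable def yk (m : ℕ) (Y : ℝ) : ℝ := ((m : ℝ) + 1) * log Y

/-- The data of a point in a case. -/
structure MidPt (c : MidCase) (m : ℕ) (q Y ε kap T σ h X : ℝ) : Prop where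
  hm : 126 ≤ m
  hm2 : m ≤ 381
  hY : 1 ≤ Y
  hq : 1 ≤ q
  hYk : Y ^ (m + 1) ≤ 2 * ((m : ℝ) + 2)
  hQ : q / Y ^ (m + 1) ≤ (c.Qb : ℝ)
  yl : (c.yl : ℝ) ≤ yk m Y
  yh : yk m Y ≤ (c.yh : ℝ)
  hlog : yk m Y ≤ (c.al : ℝ) * log ((m : ℝ) + 2) + c.be
  he0 : (c.e0 : ℝ) ≤ ε
  he1 : ε ≤ (c.e1 : ℝ)
  hε1 : 7 / 2 ≤ ε
  hε2 : ε ≤ 203 / 50
  hkap : kap = (1 - (Y ^ (m + 1))⁻¹) / 2
  hR : RegC Y T σ h
  hB : XBox m (q * semiMom m 1) Y T σ X
  hE : Exc m (q * semiMom m 1) Y T σ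
  hσ : T ≤ σ
  hT47 : T ≤ 47 / 100

/-- The point lies in the cell and `v` in the range of the row. -/
structure RowPt (B : MidCell) (vl vh : ℚ) (m : ℕ) (T σ : ℝ) : Prop where
  T0 : (B.T0 : ℝ) ≤ T
  T1 : T ≤ (B.T1 : ℝ)
  u0 : (B.u0 : ℝ) ≤ σ
  u1 : σ ≤ (B.u1 : ℝ)
  lo : (vl : ℝ) ≤ √((m : ℝ) + 2)
  hi : √((m : ℝ) + 2) ≤ (vh : ℝ)

variable {c : MidCase} {B : MidCell} {w : MidRow} {vl : ℚ} {m : ℕ} {q Y ε kap T σ h X : ℝ}

namespace MidPt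

variable (P : MidPt c m q Y ε kap T σ h X)
include P

lemma ε0 : 0 ≤ ε := by linarith [P.hε1]

lemma Y0 : 0 < Y := lt_of_lt_of_le one_pos P.hY

lemma V0 : 0 ≤ semiMom m 1 := by rw [semiMom_one]; exact mom_nonneg ..

lemma Vge : semiMom m 1 ≤ q * semiMom m 1 := le_mul_of_one_le_left P.V0 P.hq

lemma exp_yk : exp (yk m Y) = Y ^ (m + 1) := by
  rw [yk, show (m : ℝ) + 1 = ((m + 1 : ℕ) : ℝ) by push_cast; ring, exp_nat_mul, exp_log P.Y0]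

lemma inv_eq : (Y ^ (m + 1))⁻¹ = exp (-yk m Y) := by rw [exp_neg, P.exp_yk]

lemma yk0 : 0 ≤ yk m Y := mul_nonneg (by positivity) (log_nonneg P.hY)

lemma kap0 : 0 ≤ kap := by
  rw [P.hkap]
  have := inv_le_one_of_one_le₀ (one_le_pow₀ (n := m + 1) P.hY)
  linarith

lemma kap_half : kap ≤ 1 / 2 := by
  rw [P.hkap]
  have : 0 ≤ (Y ^ (m + 1))⁻¹ := inv_nonneg.2 (pow_nonneg P.Y0.le _)
  linarith

lemma kap_uOf : kap = uOf m Y / 2 := by rw [P.hkap, uOf]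

lemma kl_le (hyl : (0 : ℝ) ≤ c.yl) : ((MidRow.kl c : ℚ) : ℝ) ≤ kap := by
  have h1 : (0 : ℝ) < ex3 (c.yl : ℝ) := by unfold ex3; positivity
  have h2 : ex3 (c.yl : ℝ) ≤ Y ^ (m + 1) := by
    rw [← P.exp_yk]; exact (ex3_le_exp hyl).trans (exp_le_exp.2 P.yl)
  rw [P.hkap, MidRow.kl]
  simp only [ex3] at h1 h2 ⊢
  push_cast
  have h3 := inv_anti₀ h1 h2
  rw [one_div]
  linarith

/-- The loss terms are nonnegative. -/
lemma loss_nonneg : 0 ≤ gTM m ε kap T +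
    upTM m (q * semiMom m 1) Y (LargeN.c0 m ε) (LargeN.c1 m ε) T +
    ngTM m Y (LargeN.c0 m ε) (LargeN.c1 m ε) T := by
  have hT := P.hR.T_pos
  have hpre : 0 < pre m T := by unfold pre; positivity
  have hng := MidN.negE_nonnegM (m := m) (Y := Y) P.ε0 rfl rfl P.hY hT.le
    (c₀ := LargeN.c0 m ε) (c₁ := LargeN.c1 m ε)
  have hup : 0 ≤ stateUp m (q * semiMom m 1) Y (LargeN.c0 m ε) (LargeN.c1 m ε) T := by
    have := (UM_bounds (m := m) P.hm P.ε0).1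
    have : 0 ≤ (q * semiMom m 1 - semiMom m 1) / Y ^ (m + 1) :=
      div_nonneg (sub_nonneg.2 P.Vge) (pow_nonneg P.Y0.le _)
    unfold stateUp
    positivity
  refine le_trans ?_ (MidN.sq_payM P.hm P.hm2 P.hε1 P.hε2 rfl rfl P.hY P.hYk P.kap_uOf hT
    (G := gG m ε kap T) (by linarith) (by linarith))
  exact mul_nonneg hpre.le (mul_nonneg (cPM_pos (by positivity)).le (sq_nonneg _))

/-- The slack. -/
lemma slack : 0 ≤ (ellFlat m ε kap (rr (m + 1)) T + nuFlat m ε kap T) * -loD Y T :=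
  (MidN.slack_nonneg (by linarith [P.hm] : 98 ≤ m) P.ε0 P.kap0 P.kap_half P.hY P.hR.T_pos).2

/-- The bound `y ≤ yb`. -/
lemma yb_le (hy : w.ybOK c = true) (hv : √((m : ℝ) + 2) ≤ (w.vhi : ℝ)) : yk m Y ≤ (w.yb : ℝ) := by
  simp only [MidRow.ybOK, Bool.or_eq_true, Bool.and_eq_true, decide_eq_true_eq] at hy
  rcases hy with hy | ⟨⟨⟨a1, a2⟩, a3⟩, a4⟩
  · exact P.yh.trans (by exact_mod_cast hy)
  have b1 : (0 : ℝ) < w.an := by exact_mod_cast a1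
  have b2 : ((w.an ^ 8 : ℚ) : ℝ) ≤ ((2 ^ w.j : ℚ) : ℝ) := Rat.cast_le.2 a2
  have b4 : ((c.al * ((w.j : ℚ) / 8 * (693148 / 1000000) + w.vhi ^ 2 / w.an - 1) + c.be : ℚ) : ℝ) ≤
      ((w.yb : ℚ) : ℝ) := Rat.cast_le.2 a4
  have b3 : (0 : ℝ) ≤ c.al := by exact_mod_cast a3
  push_cast at b2 b4
  set N := (m : ℝ) + 2 with hN
  have hN0 : 0 < N := by positivity
  have hla : log (w.an : ℝ) ≤ (w.j : ℝ) / 8 * (693148 / 1000000) := by
    have h1 := log_le_log (pow_pos b1 8) b2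
    rw [log_pow, log_pow] at h1
    push_cast at h1
    have h2 := mul_le_mul_of_nonneg_left
      (log_two_lt_d9.le.trans (by norm_num : (0.6931471808 : ℝ) ≤ 693148 / 1000000))
      (Nat.cast_nonneg (α := ℝ) w.j)
    linarith
  have h3 := log_le_sub_one_of_pos (div_pos hN0 b1)
  rw [log_div hN0.ne' b1.ne'] at h3
  have h4 : N / (w.an : ℝ) ≤ (w.vhi : ℝ) ^ 2 / w.an := by
    refine div_le_div_of_nonneg_right ?_ b1.le
    have := pow_le_pow_left₀ (sqrt_nonneg _) hv 2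
    rwa [sq_sqrt hN0.le] at this
  have h5 := mul_le_mul_of_nonneg_left
    (show log N ≤ (w.j : ℝ) / 8 * (693148 / 1000000) + (w.vhi : ℝ) ^ 2 / w.an - 1 by linarith) b3
  have := P.hlog
  rw [← hN] at this
  linarith

/-- The bound `1 - 2 kb ≤ Y^(-k)`. -/
lemma inv_ge (hy : w.ybOK c = true) (hk : w.kbOK = true)
    (hv : √((m : ℝ) + 2) ≤ (w.vhi : ℝ)) : 1 - 2 * (w.kb : ℝ) ≤ (Y ^ (m + 1))⁻¹ := by
  simp only [MidRow.kbOK, Bool.and_eq_true, decide_eq_true_eq] at hk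
  obtain ⟨⟨a1, a2⟩, a3⟩ := hk
  have b2 : (w.yb : ℝ) ≤ 32 := by exact_mod_cast a2
  have b3 : ((1 - 2 * w.kb : ℚ) : ℝ) ≤ (((1 - w.yb / 32) ^ 32 : ℚ) : ℝ) := Rat.cast_le.2 a3
  push_cast at b3
  refine b3.trans ?_
  rw [P.inv_eq]
  refine le_trans (le_trans (pow_le_pow_left₀ (by linarith) (add_one_le_exp (-((w.yb : ℝ) / 32)) |>.trans'
    (le_of_eq (by ring))) 32) (le_of_eq ?_)) (exp_le_exp.2 (neg_le_neg (P.yb_le hy hv)))
  rw [← exp_nat_mul]; push_cast; ring_nf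

/-- `η ≤ eta`. -/
lemma eta_le (hy : w.ybOK c = true) (hr : w.rl vl < 1) (hv1 : 1 < vl ^ 2) (hvl0 : (0 : ℝ) ≤ vl)
    (hlo : (vl : ℝ) ≤ √((m : ℝ) + 2)) (hv : √((m : ℝ) + 2) ≤ (w.vhi : ℝ)) :
    Y ^ 2 - 1 ≤ ((w.eta vl : ℚ) : ℝ) := by
  have hyb := P.yb_le hy hv
  have hv1' : (1 : ℝ) < (vl : ℝ) ^ 2 := by exact_mod_cast hv1
  have hr' : ((w.rl vl : ℚ) : ℝ) < 1 := by exact_mod_cast hr
  have hn : (vl : ℝ) ^ 2 - 1 ≤ (m : ℝ) + 1 := by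
    have := pow_le_pow_left₀ hvl0 hlo 2
    rw [sq_sqrt (by positivity)] at this
    linarith
  have h2 : 2 * log Y ≤ ((w.rl vl : ℚ) : ℝ) := by
    simp only [MidRow.rl]
    push_cast
    rw [le_div_iff₀ (by linarith)]
    have := mul_le_mul_of_nonneg_left hn (log_nonneg P.hY)
    simp only [yk] at hyb
    linarith
  set r := ((w.rl vl : ℚ) : ℝ) with hrdef
  have h7 : Y ^ 2 ≤ exp r := by
    rw [show Y ^ 2 = exp (2 * log Y) by
      rw [show (2 : ℝ) * log Y = log Y + log Y by ring, exp_add, exp_log P.Y0, sq]]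
    exact exp_le_exp.2 h2
  have h8 : exp r ≤ 1 / (1 - r) := by
    rw [le_div_iff₀ (by linarith)]
    calc exp r * (1 - r) ≤ exp r * exp (-r) :=
          mul_le_mul_of_nonneg_left (by linarith [add_one_le_exp (-r)]) (exp_pos r).le
      _ = 1 := by rw [← exp_add, add_neg_cancel, exp_zero]
  simp only [MidRow.eta]
  push_cast
  rw [← hrdef]
  have e : r / (1 - r) = 1 / (1 - r) - 1 := by
    field_simp [(by linarith : (1 - r) ≠ 0)]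
    ring
  linarith

end MidPt

end Vale.Agent.P237.Cal.PosN
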