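import Vale.Agent.P237.Cal.Mid.PosSound

/-!
# P237: rows of mode `0` and `1` are sound
-/

open Real

namespace Vale.Agent.P237.Cal.PosN

variable {c : MidCase} {B : MidCell} {w : MidRow} {vl : ℚ} {m : ℕ} {q Y ε kap T σ h X : ℝ}

/-- The mass bound with any constant. -/
lemma mass_phi (P : MidPt c m q Y ε kap T σ h X) :
    √((m : ℝ) + 2) * σ ≤ (c.Qb : ℝ) * (12534 / 10000) *
        (((m : ℝ) + 2) * T ^ 2 / (√(1 + T ^ 2) + 1) *
          (1 + 1 / expM5 (((m : ℝ) + 2) * T ^ 2 / 2 / (1 + T ^ 2 / 2)))) ∧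
      √((m : ℝ) + 2) * σ ≤ (c.Qb : ℝ) * (12534 / 10000) *
        ((1 + T ^ 2 / 2) * phiR (((m : ℝ) + 2) * T ^ 2)) := by
  have hY := P.hY
  have hs : 0 < T ^ 2 := sq_pos_of_pos P.hR.T_pos
  have hz : 0 < ((m : ℝ) + 2) * T ^ 2 := by positivity
  have hYp : 0 < Y ^ (m + 1) := pow_pos P.Y0 _
  have hQ0 : 0 ≤ q / Y ^ (m + 1) := div_nonneg (by linarith [P.hq]) hYp.le
  have h0 := sigma_le_rat hY P.hR P.hE (Q := q / Y ^ (m + 1)) (by ring) hQ0
  set s := T ^ 2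
  set z := ((m : ℝ) + 2) * s
  set x := z / 2 / (1 + s / 2) with hx
  have hx0 : 0 < x := by positivity
  have hp : 0 ≤ z / (√(1 + s) + 1) * (1 + 1 / expM5 x) := by
    have := expM5_pos hx0; positivity
  have h1 : √((m : ℝ) + 2) * σ ≤
      (c.Qb : ℝ) * (12534 / 10000) * (z / (√(1 + s) + 1) * (1 + 1 / expM5 x)) :=
    h0.trans (mul_le_mul_of_nonneg_right (mul_le_mul_of_nonneg_right P.hQ (by norm_num)) hp)
  refine ⟨h1, h1.trans (mul_le_mul_of_nonneg_left ?_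
    (mul_nonneg (hQ0.trans P.hQ) (by norm_num)))⟩
  have hd : 0 < 1 + x / 2 + x ^ 2 / 6 := by positivity
  have g1 : x * (1 + x / 2 + x ^ 2 / 6) ≤ expM5 x := by
    have : expM5 x = x * (1 + x / 2 + x ^ 2 / 6) + (x ^ 4 / 24 + x ^ 5 / 120) := by
      simp only [expM5]; ring
    have : 0 ≤ x ^ 4 / 24 + x ^ 5 / 120 := by positivity
    linarith
  have g2 : x * (1 + 1 / expM5 x) ≤ x + 1 / (1 + x / 2 + x ^ 2 / 6) := by
    have g3 := mul_le_mul_of_nonneg_left (one_div_le_one_div_of_le (mul_pos hx0 hd) g1) hx0.le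
    have e : x * (1 / (x * (1 + x / 2 + x ^ 2 / 6))) = 1 / (1 + x / 2 + x ^ 2 / 6) := by field_simp
    linarith
  have hw : 2 ≤ √(1 + s) + 1 := by linarith [one_le_sqrt.2 (by linarith : (1 : ℝ) ≤ 1 + s)]
  refine (mul_le_mul_of_nonneg_right (div_le_div_of_nonneg_left hz.le (by norm_num) hw)
    (by have := expM5_pos hx0; positivity)).trans ?_
  rw [show z / 2 * (1 + 1 / expM5 x) = (1 + s / 2) * (x * (1 + 1 / expM5 x)) by rw [hx]; field_simp]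
  refine mul_le_mul_of_nonneg_left (g2.trans ((phiRat_mono hx0.le (?_ : x ≤ z / 2)).trans
    (le_of_eq ?_))) (by positivity)
  · exact div_le_self (by positivity) (by linarith)
  · simp only [phiR]; ring

/-- A row of mode `0` has no point. -/
theorem row_X (hq : w.okX c B vl = true) (hvl : (0 : ℝ) < vl)
    (P : MidPt c m q Y ε kap T σ h X) (R : RowPt B vl w.vhi m T σ) : False := by
  obtain ⟨hm1, hm2⟩ := mass_phi P
  have hQ0 : 0 ≤ (c.Qb : ℝ) * (12534 / 10000) :=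
    mul_nonneg (le_trans (div_nonneg (by linarith [P.hq]) (pow_nonneg P.Y0.le _)) P.hQ) (by norm_num)
  set v := √((m : ℝ) + 2) with hvd
  have hv0 : 0 < v := by rw [hvd]; positivity
  have hv2 : v ^ 2 = (m : ℝ) + 2 := sq_sqrt (by positivity)
  rw [← hv2] at hm1 hm2
  have hT := P.hR.T_pos
  simp only [MidRow.okX, Bool.or_eq_true, Bool.and_eq_true, decide_eq_true_eq] at hq
  rcases hq with (⟨⟨a1, a0⟩, a2⟩ | a2) | ⟨a1, a2⟩
  · have b1 : (0 : ℝ) < B.T0 := by exact_mod_cast a1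
    have b0 : (B.T0 : ℝ) ≤ 2 := by exact_mod_cast a0
    have b2 : ((w.vhi * B.T1 ^ 2 * (c.Qb * (12534 / 10000) *
        (1 + 1 / em5M (vl ^ 2 * B.T0 ^ 2 / 2 / (1 + B.T1 ^ 2 / 2))) /
        (1 + B.T0 ^ 2 / 2 - B.T0 ^ 4 / 8 + 1)) : ℚ) : ℝ) < ((B.u0 : ℚ) : ℝ) := Rat.cast_lt.2 a2
    simp only [em5M] at b2
    push_cast at b2
    set xl : ℝ := (vl : ℝ) ^ 2 * (B.T0 : ℝ) ^ 2 / 2 / (1 + (B.T1 : ℝ) ^ 2 / 2) with hxl
    set x : ℝ := v ^ 2 * T ^ 2 / 2 / (1 + T ^ 2 / 2) with hx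
    have hT12 : T ^ 2 ≤ (B.T1 : ℝ) ^ 2 := pow_le_pow_left₀ hT.le R.T1 2
    have hT02 : (B.T0 : ℝ) ^ 2 ≤ 4 := by
      calc (B.T0 : ℝ) ^ 2 ≤ 2 ^ 2 := pow_le_pow_left₀ b1.le b0 2
        _ = 4 := by norm_num
    set w0 : ℝ := 1 + (B.T0 : ℝ) ^ 2 / 2 - (B.T0 : ℝ) ^ 4 / 8 with hw0
    have hw00 : 1 ≤ w0 := by
      have := mul_le_mul_of_nonneg_left hT02 (sq_nonneg (B.T0 : ℝ))
      rw [hw0]; linarith
    have hw : w0 ≤ √(1 + T ^ 2) := by
      refine le_trans (le_sqrt_of_sq_le ?_) (sqrt_le_sqrt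
        (by linarith [pow_le_pow_left₀ b1.le R.T0 2] : 1 + (B.T0 : ℝ) ^ 2 ≤ 1 + T ^ 2))
      have h6 : 0 ≤ (B.T0 : ℝ) ^ 6 * (8 - (B.T0 : ℝ) ^ 2) :=
        mul_nonneg (by positivity) (by linarith)
      rw [hw0]
      linarith
    have hxl0 : 0 < xl := by rw [hxl]; positivity
    have hxx : xl ≤ x := by
      refine div_le_div₀ (by positivity) (div_le_div_of_nonneg_right (mul_le_mul
        (pow_le_pow_left₀ hvl.le R.lo 2) (pow_le_pow_left₀ b1.le R.T0 2) (by positivity)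
        (by positivity)) zero_le_two) (by positivity) ?_
      linarith
    have hp := expM5_pos hxl0
    have h1 : 1 + 1 / expM5 x ≤ 1 + 1 / expM5 xl :=
      add_le_add_right (one_div_le_one_div_of_le hp (expM5_mono hxl0.le hxx)) 1
    set K : ℝ := (c.Qb : ℝ) * (12534 / 10000) * (1 + 1 / expM5 xl) / (w0 + 1) with hK
    have hK0 : 0 ≤ K := div_nonneg (mul_nonneg hQ0 (by positivity)) (by linarith)
    have h2 : v * σ ≤ v * (v * (B.T1 : ℝ) ^ 2 * K) := by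
      refine hm1.trans ?_
      have h3 : v ^ 2 * T ^ 2 / (√(1 + T ^ 2) + 1) ≤ v ^ 2 * (B.T1 : ℝ) ^ 2 / (w0 + 1) :=
        div_le_div₀ (by positivity) (mul_le_mul_of_nonneg_left hT12 (sq_nonneg v)) (by linarith)
          (by linarith)
      refine (mul_le_mul_of_nonneg_left (mul_le_mul h3 h1
        (by have := expM5_pos (hxl0.trans_le hxx); positivity)
        (div_nonneg (by positivity) (by linarith))) hQ0).trans (le_of_eq ?_)
      rw [hK]; ring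
    have h4 : (B.u0 : ℝ) ≤ v * (B.T1 : ℝ) ^ 2 * K := R.u0.trans (le_of_mul_le_mul_left h2 hv0)
    have h5 : v * (B.T1 : ℝ) ^ 2 * K ≤ (w.vhi : ℝ) * (B.T1 : ℝ) ^ 2 * K :=
      mul_le_mul_of_nonneg_right (mul_le_mul_of_nonneg_right R.hi (sq_nonneg _)) hK0
    simp only [hK, expM5] at h4 h5
    linarith
  · have b2 : ((c.Qb * (12534 / 10000) * (1 + B.T1 ^ 2 / 2) *
        (w.z1 B / 2 + 1 / (1 + w.z1 B / 4 + w.z1 B ^ 2 / 24)) : ℚ) : ℝ) <
        ((vl * B.u0 : ℚ) : ℝ) := Rat.cast_lt.2 a2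
    simp only [MidRow.z1] at b2
    push_cast at b2
    have hz : v ^ 2 * T ^ 2 ≤ (w.vhi : ℝ) ^ 2 * (B.T1 : ℝ) ^ 2 :=
      mul_le_mul (pow_le_pow_left₀ hv0.le R.hi 2) (pow_le_pow_left₀ hT.le R.T1 2) (sq_nonneg _)
        (sq_nonneg _)
    have hphi := phiR_mono (by positivity) hz
    have h3 := mul_le_mul_of_nonneg_left (mul_le_mul
      (by linarith [pow_le_pow_left₀ hT.le R.T1 2] : 1 + T ^ 2 / 2 ≤ 1 + (B.T1 : ℝ) ^ 2 / 2) hphi
      (by unfold phiR; positivity) (by positivity)) hQ0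
    have h4 : (vl : ℝ) * B.u0 ≤ v * σ :=
      (mul_le_mul_of_nonneg_left R.u0 hvl.le).trans
        (mul_le_mul_of_nonneg_right R.lo P.hR.σ_pos.le)
    simp only [phiR] at h3 hm2
    linarith
  · have h1 := P.yb_le a1 R.hi
    have h2 : (w.yb : ℝ) < c.yl := by exact_mod_cast a2
    linarith [P.yl]

/-- `η` in units of its bound. -/
lemma lam_exists {s es b : ℝ} (hb : 0 ≤ b) (hs : 0 ≤ s) (h : b = 0 ∨ s ≤ es) :
    ∃ lam, 0 ≤ lam ∧ lam ≤ 1 ∧ b * s = lam * (b * es) ∧ (b = 0 → lam = 0) ∧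
      (b ≠ 0 → s = lam * es) := by
  rcases eq_or_lt_of_le hb with e | e
  · exact ⟨0, le_rfl, zero_le_one, by rw [← e]; ring, fun _ => rfl, fun h => absurd e.symm h⟩
  have hse : s ≤ es := h.resolve_left e.ne'
  rcases eq_or_lt_of_le (hs.trans hse) with f | f
  · have : s = 0 := le_antisymm (f ▸ hse) hs
    exact ⟨0, le_rfl, zero_le_one, by rw [this]; ring, fun _ => rfl, fun _ => by rw [this]; ring⟩
  · refine ⟨s / es, div_nonneg hs f.le, (div_le_one f).2 hse, by field_simp, fun h => absurd h e.ne',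
      fun _ => by field_simp⟩

/-- The bound of `gG + state` from above. -/
lemma state_le_gu (hq : w.commonOK c B vl = true) (hvl : (0 : ℝ) < vl)
    (P : MidPt c m q Y ε kap T σ h X) (R : RowPt B vl w.vhi m T σ) (he0 : (0 : ℝ) ≤ c.e0)
    (hkb : kap ≤ (w.kb : ℝ)) (hinv : 1 - 2 * (w.kb : ℝ) ≤ (Y ^ (m + 1))⁻¹) :
    gG m ε kap T + 2 * shS m (LargeN.c0 m ε) (LargeN.c1 m ε) T * (X - X0 m T) / pre m T ≤
      ((w.gu c B vl : ℚ) : ℝ) ∧ (0 : ℝ) ≤ ((w.gu c B vl : ℚ) : ℝ) := by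
  simp only [MidRow.commonOK, Bool.and_eq_true, decide_eq_true_eq, and_assoc] at hq
  obtain ⟨-, -, h1, -, -, -, -, -, -, -, -, -, hD1, h12, -⟩ := hq
  have hm := P.hm
  have hT := P.hR.T_pos
  set v := √((m : ℝ) + 2) with hvd
  have hv0 : 0 < v := by rw [hvd]; positivity
  have hv2 : v ^ 2 = (m : ℝ) + 2 := sq_sqrt (by positivity)
  have hT00 : (0 : ℝ) ≤ B.T0 := by exact_mod_cast h12
  have hv1 : (1 : ℝ) < (vl : ℝ) ^ 2 := by exact_mod_cast h1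
  have hD1' : (0 : ℝ) < (B.u1 : ℝ) - B.T0 := by
    have h : ((0 : ℚ) : ℝ) < ((MidRow.D1 B : ℚ) : ℝ) := Rat.cast_lt.2 hD1
    simp only [MidRow.D1] at h
    push_cast at h
    exact h
  have hk : (vl : ℝ) ^ 2 - 1 ≤ (m : ℝ) + 1 := by
    have := pow_le_pow_left₀ hvl.le R.lo 2
    rw [hv2] at this
    linarith
  obtain ⟨hU0, -, hU⟩ := UM_bounds (m := m) hm P.ε0
  have hg := (gG_cell (m := m) (kl := 0) (kb := (w.kb : ℝ)) he0 P.he0 P.he1 le_rfl P.kap0 hkb hT00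
    R.T0 R.T1 hvl R.lo R.hi).2
  set a := 2 * (X - X0 m T) / (((m : ℝ) + 1) * T ^ 2) with ha
  set t := (B.T1 : ℝ) / 3 +
    4 * ((B.u1 : ℝ) - B.T0) / (4 + ((vl : ℝ) ^ 2 - 1) * (B.T0 : ℝ) ^ 2) with htdef
  have hT02 : (B.T0 : ℝ) ^ 2 ≤ T ^ 2 := pow_le_pow_left₀ hT00 R.T0 2
  have hT1 : 0 < (B.T1 : ℝ) := hT.trans_le R.T1
  have hden : 0 < 4 + ((vl : ℝ) ^ 2 - 1) * (B.T0 : ℝ) ^ 2 :=
    add_pos_of_pos_of_nonneg (by norm_num) (mul_nonneg (by linarith) (sq_nonneg _))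
  have ht0 : 0 ≤ t := by
    rw [htdef]
    have : 0 ≤ 4 * ((B.u1 : ℝ) - B.T0) := by linarith
    positivity
  have hat : a ≤ t := by
    refine (Xc_le_shift (by omega) hT P.hσ P.hB).trans ?_
    rw [htdef, add_comm ((B.T1 : ℝ) / 3)]
    refine add_le_add ?_ (by linarith [R.T1])
    calc (σ - T) / (√(1 + T ^ 2) * (1 + ((m : ℝ) + 1) * T ^ 2 / 4))
        ≤ ((B.u1 : ℝ) - B.T0) / (1 * (1 + ((vl : ℝ) ^ 2 - 1) * (B.T0 : ℝ) ^ 2 / 4)) := by
          refine div_le_div₀ hD1'.le (by linarith [R.u1, R.T0]) (by positivity) ?_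
          refine mul_le_mul (one_le_w T) ?_ (by positivity) (sqrt_nonneg _)
          have := mul_le_mul hk hT02 (sq_nonneg _) (by positivity)
          linarith
      _ = _ := by field_simp
  have hcoef : 0 ≤ 21 / 5 * (c.e1 : ℝ) * (1 + (B.T1 : ℝ) ^ 2) / vl := by
    have : (0 : ℝ) ≤ c.e1 := P.ε0.trans P.he1
    positivity
  have key : ∀ t2 : ℝ, a ≤ t2 → 0 ≤ t2 →
      2 * shS m (LargeN.c0 m ε) (LargeN.c1 m ε) T * (X - X0 m T) / pre m T ≤
        21 / 5 * (c.e1 : ℝ) * (1 + (B.T1 : ℝ) ^ 2) / vl * t2 := fun t2 hta ht2 => by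
    have e : 2 * shS m (LargeN.c0 m ε) (LargeN.c1 m ε) T * (X - X0 m T) / pre m T =
        shUM m (LargeN.c0 m ε) (LargeN.c1 m ε) * (1 + T ^ 2) * a := by
      rw [show 2 * shS m (LargeN.c0 m ε) (LargeN.c1 m ε) T * (X - X0 m T) / pre m T =
        2 * (shS m (LargeN.c0 m ε) (LargeN.c1 m ε) T / pre m T) * (X - X0 m T) by ring,
        shS_div_pre hT.ne', ha]
      field_simp
    rw [e]
    have h3 : shUM m (LargeN.c0 m ε) (LargeN.c1 m ε) * (1 + T ^ 2) ≤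
        21 / 5 * (c.e1 : ℝ) * (1 + (B.T1 : ℝ) ^ 2) / vl := by
      refine (mul_le_mul (hU.trans (mul_le_mul_of_nonneg_left
        (div_le_div₀ (P.ε0.trans P.he1) P.he1 hvl R.lo) (by norm_num)))
        (by linarith [pow_le_pow_left₀ hT.le R.T1 2] : 1 + T ^ 2 ≤ 1 + (B.T1 : ℝ) ^ 2)
        (by positivity) (mul_nonneg (by norm_num) (div_nonneg (P.ε0.trans P.he1) hvl.le))).trans
        (le_of_eq ?_)
      ring
    exact (mul_le_mul_of_nonneg_left hta (mul_nonneg hU0 (by positivity))).trans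
      (mul_le_mul_of_nonneg_right h3 ht2)
  have hg0 : 0 ≤ (w.kb : ℝ) * (1 + c.e1) * (3 / 2 + 3 / 4 * ((w.vhi : ℝ) ^ 2 * (B.T1 : ℝ) ^ 2)) /
      (vl : ℝ) ^ 2 :=
    le_trans (gG_nonneg (by linarith [P.ε0]) P.kap0) hg
  simp only [MidRow.gu, MidRow.z1]
  split_ifs with h
  · have h0 : (0 : ℝ) < B.T0 := by exact_mod_cast h
    push_cast
    rw [← htdef]
    have hkT : 0 < ((vl : ℝ) ^ 2 - 1) * (B.T0 : ℝ) ^ 2 :=
      mul_pos (by linarith) (pow_pos h0 2)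
    set t2 := 2 * ((12534 : ℝ) / 10000 / (vl : ℝ) * max 0 ((c.Qb : ℝ) - (1 - 2 * (w.kb : ℝ)))) /
      (((vl : ℝ) ^ 2 - 1) * (B.T0 : ℝ) ^ 2)
    have ht20 : 0 ≤ t2 := by
      have : 0 ≤ max 0 ((c.Qb : ℝ) - (1 - 2 * (w.kb : ℝ))) := le_max_left _ _
      positivity
    have hat2 : a ≤ t2 := by
      have hX : X - X0 m T ≤
          12534 / 10000 / (vl : ℝ) * max 0 ((c.Qb : ℝ) - (1 - 2 * (w.kb : ℝ))) := by
        refine (Xc_le_high P.hY hT.le P.hB).trans ?_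
        have e : (q * semiMom m 1 - semiMom m 1) / Y ^ (m + 1) =
            semiMom m 1 * (q / Y ^ (m + 1) - (Y ^ (m + 1))⁻¹) := by ring
        rw [e]
        have hV : semiMom m 1 ≤ 12534 / 10000 / (vl : ℝ) := by
          rw [le_div_iff₀ hvl]
          have := mul_le_mul_of_nonneg_left R.lo P.V0
          linarith [sqrt_mul_semiMom_le m]
        refine (mul_le_mul_of_nonneg_left (?_ : _ ≤ max 0 ((c.Qb : ℝ) - (1 - 2 * (w.kb : ℝ)))) P.V0).trans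
          (mul_le_mul_of_nonneg_right hV (le_max_left _ _))
        exact le_max_of_le_right (by linarith [P.hQ])
      refine div_le_div₀ (mul_nonneg zero_le_two (mul_nonneg (by positivity) (le_max_left _ _)))
        (mul_le_mul_of_nonneg_left hX zero_le_two) hkT ?_
      exact mul_le_mul hk hT02 (sq_nonneg _) (by positivity)
    exact ⟨add_le_add hg (key _ (le_min hat hat2) (le_min ht0 ht20)),
      add_nonneg hg0 (mul_nonneg hcoef (le_min ht0 ht20))⟩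
  · push_cast
    rw [← htdef]
    exact ⟨add_le_add hg (key t hat ht0), add_nonneg hg0 (mul_nonneg hcoef ht0)⟩

/-- A line of mode `1` at the point. -/
lemma line_sound {M n d x k : ℚ} {P' lam : ℝ} (h : w.lineOK c B vl M n d x k = true)
    (hP0 : ((w.P0 c B : ℚ) : ℝ) ≤ P') (hP1 : P' ≤ ((MidRow.P1 c B vl : ℚ) : ℝ))
    (hl0 : 0 ≤ lam) (hl1 : lam ≤ 1) :
    ((x : ℝ) - 2 * P' - k * lam) ^ 2 ≤
      (((w.C0 c B vl : ℚ) : ℝ) - ((w.pe c B vl : ℚ) : ℝ) * lam) * (M - 2 * P' * d - n * lam) := by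
  simp only [MidRow.lineOK, Bool.and_eq_true, decide_eq_true_eq] at h
  obtain ⟨⟨⟨a1, a2⟩, a3⟩, a4⟩ := h
  have key : ∀ (Q l : ℚ) (Q' l' : ℝ), (Q : ℝ) = Q' → (l : ℝ) = l' →
      max 0 (w.pe c B vl * n - k ^ 2) / 4 ≤ midF (w.C0 c B vl) (w.pe c B vl) M n x k d Q l →
      max 0 (((w.pe c B vl : ℚ) : ℝ) * n - (k : ℝ) ^ 2) / 4 ≤
        midF ((w.C0 c B vl : ℚ) : ℝ) ((w.pe c B vl : ℚ) : ℝ) (M : ℝ) n x k d Q' l' := by
    intro Q l Q' l' hQ hl hle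
    subst hQ hl
    have h' : ((max 0 (w.pe c B vl * n - k ^ 2) / 4 : ℚ) : ℝ) ≤
      ((midF (w.C0 c B vl) (w.pe c B vl) M n x k d Q l : ℚ) : ℝ) := Rat.cast_le.2 hle
    simp only [midF] at h' ⊢
    push_cast at h'
    exact h'
  have := midF_slack (C0 := ((w.C0 c B vl : ℚ) : ℝ)) (c := ((w.pe c B vl : ℚ) : ℝ)) (N0 := (M : ℝ))
    (n := (n : ℝ)) (x := (x : ℝ)) (k := (k : ℝ)) (d := (d : ℝ)) hP0 hP1 hl0 hl1 (by
      intro Q l hQ hl
      rcases hQ with rfl | rfl <;> rcases hl with rfl | rfl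
      · exact key _ 0 _ _ rfl Rat.cast_zero a1
      · exact key _ 1 _ _ rfl Rat.cast_one a3
      · exact key _ 0 _ _ rfl Rat.cast_zero a2
      · exact key _ 1 _ _ rfl Rat.cast_one a4)
  simp only [midF] at this
  linarith

/-- **A row of mode `1`.** -/
theorem row_G (hq : w.okG c B vl = true) (he0 : (0 : ℝ) ≤ c.e0) (hvl : (0 : ℝ) < vl)
    (P : MidPt c m q Y ε kap T σ h X) (R : RowPt B vl w.vhi m T σ) :
    PosGoal m q Y ε kap T σ h X := by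
  simp only [MidRow.okG, Bool.and_eq_true, decide_eq_true_eq] at hq
  obtain ⟨⟨⟨⟨⟨hc, hD0⟩, hpe⟩, hBq⟩, hp1⟩, hp2⟩ := hq
  have N := rowNum hc he0 hvl P R
  obtain ⟨hgu, hgu0⟩ := state_le_gu hc hvl P R he0 N.hkb N.inv
  obtain ⟨l, Cw, Sl, hA, hL, hSl0, hSl, hfin⟩ := N.fin
  have hm := P.hm
  have hT := P.hR.T_pos
  have hpre : 0 < pre m T := by unfold pre; positivity
  have hη : 0 ≤ Y ^ 2 - 1 := sub_nonneg.2 (one_le_pow₀ P.hY)
  refine goal_of_fin P hfin ?_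
  set p := shP m (LargeN.c0 m ε) (LargeN.c1 m ε) T / pre m T with hpdef
  set G := gG m ε kap T + 2 * shS m (LargeN.c0 m ε) (LargeN.c1 m ε) T * (X - X0 m T) / pre m T
    with hGdef
  set gl := ((w.gl c B vl : ℚ) : ℝ) with hgldef
  have hG0 : -gl ≤ G := by
    refine N.gl.trans ?_
    rw [hGdef, negE]
    linarith [stateG_low' (V := q * semiMom m 1) (by omega : 2 ≤ m) P.hY hT
      (UM_bounds (m := m) hm P.ε0).1 P.hB]
  have hD0' : (0 : ℝ) < (B.u0 : ℝ) - B.T1 := by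
    have h : ((0 : ℚ) : ℝ) < ((MidRow.D0 B : ℚ) : ℝ) := Rat.cast_lt.2 hD0
    simp only [MidRow.D0] at h
    push_cast at h
    exact h
  set D0 := (B.u0 : ℝ) - B.T1 with hD0d
  have eD0 : ((MidRow.D0 B : ℚ) : ℝ) = D0 := by simp only [MidRow.D0]; push_cast; rw [hD0d]
  have eD1 : ((MidRow.D1 B : ℚ) : ℝ) = (B.u1 : ℝ) - B.T0 := by simp only [MidRow.D1]; push_cast; ring
  set D1 := (B.u1 : ℝ) - B.T0 with hD1d
  set D := σ - T with hDd
  have hDl : D0 ≤ D := by linarith [R.u0, R.T1]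
  have hDh : D ≤ D1 := by linarith [R.u1, R.T0]
  have hD : 0 < D := hD0'.trans_le hDl
  set P' := -p with hP'd
  have hP1 : P' ≤ ((MidRow.P1 c B vl : ℚ) : ℝ) := by linarith [N.P0]
  have hP0 : ((w.P0 c B : ℚ) : ℝ) ≤ P' := by
    have h := field_lo (m := m) hm he0 P.he0 hT R.T1 R.hi rfl
    simp only [MidRow.P0, MidRow.z1, ex3]
    simp only [ex3] at h
    push_cast
    linarith
  have hz1 : 0 < (w.vhi : ℝ) ^ 2 * (B.T1 : ℝ) ^ 2 := by
    have : 0 < (w.vhi : ℝ) := lt_of_lt_of_le (by positivity) R.hi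
    have : 0 < (B.T1 : ℝ) := hT.trans_le R.T1
    positivity
  have hP' : 0 ≤ P' := by
    refine le_trans ?_ hP0
    have hx : 0 ≤ (w.vhi : ℝ) ^ 2 * (B.T1 : ℝ) ^ 2 / 2 / (1 + (B.T1 : ℝ) ^ 2) := by positivity
    simp only [MidRow.P0, MidRow.z1, ex3]
    push_cast
    set x := (w.vhi : ℝ) ^ 2 * (B.T1 : ℝ) ^ 2 / 2 / (1 + (B.T1 : ℝ) ^ 2)
    have h1 : 1 / (1 + x + x ^ 2 / 2 + x ^ 3 / 6) ≤ 1 := by
      rw [div_le_one (by positivity)]
      linarith [pow_nonneg hx 3, sq_nonneg x]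
    have : 0 ≤ (c.e0 : ℝ) / (w.vhi : ℝ) := div_nonneg he0 ((sqrt_nonneg _).trans R.hi)
    have : 0 ≤ 415 / 100 * (1 - 1 / (1 + x + x ^ 2 / 2 + x ^ 3 / 6)) /
        ((w.vhi : ℝ) ^ 2 * (B.T1 : ℝ) ^ 2) :=
      div_nonneg (mul_nonneg (by norm_num) (by linarith)) hz1.le
    positivity
  obtain ⟨lam, hl0, hl1, hlam, hlam0, hlam1⟩ := lam_exists (s := (Y ^ 2 - 1) / T ^ 2)
    (es := ((w.es B vl : ℚ) : ℝ)) N.b0 (div_nonneg hη (sq_nonneg T)) (by
      rcases N.bT with e | ⟨e, -⟩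
      · exact .inl e
      · refine .inr ?_
        simp only [MidRow.es]
        push_cast
        exact div_le_div₀ N.eta0 N.eta (pow_pos e 2) (pow_le_pow_left₀ e.le R.T0 2))
  set bs := (w.b : ℝ) * ((Y ^ 2 - 1) / T ^ 2) with hbs
  have ebes : ((w.bes B vl : ℚ) : ℝ) = (w.b : ℝ) * ((w.es B vl : ℚ) : ℝ) := by simp [MidRow.bes]
  rw [← ebes] at hlam
  set be := ((w.bes B vl : ℚ) : ℝ) with hbed
  have hbe0 : 0 ≤ be := by
    rw [ebes]
    refine mul_nonneg N.b0 ?_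
    simp only [MidRow.es]
    push_cast
    exact div_nonneg N.eta0 (sq_nonneg _)
  have hbs0 : 0 ≤ bs := mul_nonneg N.b0 (div_nonneg hη (sq_nonneg T))
  set E := ((w.E c : ℚ) : ℝ) with hEd
  have hE0 : 0 ≤ ε - w.b := by linarith [N.bε]
  have hσ0 := P.hR.σ_pos
  have hσ2 : σ ^ 2 ≤ (B.u1 : ℝ) ^ 2 := pow_le_pow_left₀ hσ0.le R.u1 2
  have hT2 : T ^ 2 ≤ (B.T1 : ℝ) ^ 2 := pow_le_pow_left₀ hT.le R.T1 2
  have hEσ := mul_le_mul N.E hσ2 (sq_nonneg σ) (hE0.trans N.E)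
  have hET := mul_le_mul N.E hT2 (sq_nonneg T) (hE0.trans N.E)
  have hPD : -(P' * D1) ≤ p * D := by
    have := mul_le_mul_of_nonneg_left hDh hP'
    rw [show p * D = -(P' * D) by rw [hP'd]; ring]
    linarith
  have hbη : 0 ≤ (w.b : ℝ) * (Y ^ 2 - 1) := mul_nonneg N.b0 hη
  have eη : ∀ k : ℝ, (w.b : ℝ) * (Y ^ 2 - 1) * (k + 1 / T ^ 2) = bs * (k * T ^ 2 + 1) := fun k => by
    rw [hbs]; field_simp
  set C := ((w.C0 c B vl : ℚ) : ℝ) - ((w.pe c B vl : ℚ) : ℝ) * lam with hCd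
  have hpe' : ((w.pe c B vl : ℚ) : ℝ) ≤ ((w.C0 c B vl : ℚ) : ℝ) := Rat.cast_le.2 hpe
  have hpe0 : (0 : ℝ) ≤ ((w.pe c B vl : ℚ) : ℝ) := by
    simp only [MidRow.pe, Rat.cast_max]; push_cast; exact le_max_left _ _
  have hC : 0 ≤ C := by
    have := mul_le_mul_of_nonneg_left hl1 hpe0
    rw [hCd]; linarith
  have hA0 : 0 < tanA ε (w.b : ℝ) (Y ^ 2 - 1) σ := by
    unfold tanA; linarith [N.A1]
  have hBq' : ((0 : ℚ) : ℝ) ≤ (((1 + w.b) - w.E c * B.T1 ^ 2 - 2 * MidRow.P1 c B vl * MidRow.D1 B -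
      w.gl c B vl - w.bes B vl * (1 + B.T1 ^ 2) : ℚ) : ℝ) := Rat.cast_le.2 hBq
  push_cast at hBq'
  rw [eD1, ← hgldef, ← hbed] at hBq'
  have hbsT : bs * (T ^ 2 + 1) ≤ be * (1 + (B.T1 : ℝ) ^ 2) := by
    refine mul_le_mul ?_ (by linarith) (by positivity) hbe0
    rw [hlam]; exact mul_le_of_le_one_left hbe0 hl1
  have hP1D := mul_le_mul_of_nonneg_right hP1 (hD.le.trans hDh)
  have hB0 : 0 ≤ tanB ε (w.b : ℝ) (Y ^ 2 - 1) T (2 * p * D + G) := by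
    unfold tanB; rw [eη, one_mul]; linarith
  set a := (ε - w.b) * (σ + T) + 2 * p - (w.b : ℝ) * (Y ^ 2 - 1) * (2 + 1 / T ^ 2) / D with had
  have hlo : ((c.e0 : ℝ) - w.b) * ((B.u0 : ℝ) + B.T0) - 2 * P' - ((w.k1 B vl : ℚ) : ℝ) * lam ≤ a ∧
      a ≤ E * ((B.u1 : ℝ) + B.T1) - 2 * P' - ((w.k0 B vl : ℚ) : ℝ) * lam := by
    have h0 := mul_le_mul (by linarith [P.he0] : (c.e0 : ℝ) - w.b ≤ ε - w.b)
      (by linarith [R.u0, R.T0] : (B.u0 : ℝ) + B.T0 ≤ σ + T) (by linarith [N.T0, hT.trans_le R.T1])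
      hE0
    have h1 := mul_le_mul N.E (by linarith [R.u1, R.T1] : σ + T ≤ (B.u1 : ℝ) + B.T1) (by linarith)
      (hE0.trans N.E)
    have ek0 : ((w.k0 B vl : ℚ) : ℝ) = be * (2 * (B.T0 : ℝ) ^ 2 + 1) / D1 := by
      simp only [MidRow.k0]; push_cast; rw [eD1, ← hbed]
    have ek1 : ((w.k1 B vl : ℚ) : ℝ) = be * (2 * (B.T1 : ℝ) ^ 2 + 1) / D0 := by
      simp only [MidRow.k1]; push_cast; rw [eD0, ← hbed]
    have hk0 : ((w.k0 B vl : ℚ) : ℝ) * lam ≤ bs * (2 * T ^ 2 + 1) / D := by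
      rw [ek0, hlam, div_mul_eq_mul_div, show be * (2 * (B.T0 : ℝ) ^ 2 + 1) * lam =
        lam * be * (2 * (B.T0 : ℝ) ^ 2 + 1) by ring]
      exact div_le_div₀ (by positivity) (mul_le_mul_of_nonneg_left
        (by linarith [pow_le_pow_left₀ N.T0 R.T0 2]) (by positivity)) hD hDh
    have hk1 : bs * (2 * T ^ 2 + 1) / D ≤ ((w.k1 B vl : ℚ) : ℝ) * lam := by
      rw [ek1, hlam, div_mul_eq_mul_div, show be * (2 * (B.T1 : ℝ) ^ 2 + 1) * lam =
        lam * be * (2 * (B.T1 : ℝ) ^ 2 + 1) by ring]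
      exact div_le_div₀ (by positivity) (mul_le_mul_of_nonneg_left (by linarith) (by positivity))
        hD0' hDl
    rw [had, eη, show 2 * p = -(2 * P') by rw [hP'd]; ring]
    constructor <;> linarith
  have hpair : ∀ ca cb : ℚ, w.pairG c B vl ca cb = true → (0 : ℝ) ≤ ca → (0 : ℝ) ≤ cb →
      (a + G / D) ^ 2 ≤ C * ((ca : ℝ) * tanA ε (w.b : ℝ) (Y ^ 2 - 1) σ +
        (cb : ℝ) * tanB ε (w.b : ℝ) (Y ^ 2 - 1) T (2 * p * D + G)) := by
    intro ca cb hp hca hcb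
    simp only [MidRow.pairG, Bool.and_eq_true, decide_eq_true_eq] at hp
    obtain ⟨⟨⟨-, g1⟩, g2⟩, g3⟩ := hp
    have l1 := line_sound g1 hP0 hP1 hl0 hl1
    have l2 := line_sound g2 hP0 hP1 hl0 hl1
    have l3 := line_sound g3 hP0 hP1 hl0 hl1
    push_cast at l1 l2 l3
    rw [eD1] at l1 l2 l3
    rw [eD0] at l2 l3
    rw [← hbed] at l1 l2 l3
    rw [← hgldef] at l2 l3
    rw [← hEd] at l1 l3
    rw [← hCd] at l1 l2 l3
    set nn := ((etaN ca cb B.T0 B.T1 : ℚ) : ℝ) with hnn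
    set M := ((w.N0 c B vl ca cb : ℚ) : ℝ) with hMd
    have eM : M = ((ca : ℝ) + cb) * (1 + w.b) -
        E * (ca * (B.u1 : ℝ) ^ 2 + cb * (B.T1 : ℝ) ^ 2) - cb * gl := by
      rw [hMd, MidRow.N0]; push_cast; rw [← hgldef, ← hEd]
    have hN : M - 2 * P' * (cb * D1) - be * nn * lam + cb * (G + gl) ≤
        (ca : ℝ) * tanA ε (w.b : ℝ) (Y ^ 2 - 1) σ +
          (cb : ℝ) * tanB ε (w.b : ℝ) (Y ^ 2 - 1) T (2 * p * D + G) := by
      have e : (ca : ℝ) * tanA ε (w.b : ℝ) (Y ^ 2 - 1) σ +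
          (cb : ℝ) * tanB ε (w.b : ℝ) (Y ^ 2 - 1) T (2 * p * D + G) =
          ((ca : ℝ) + cb) * (1 + w.b) - ca * ((ε - w.b) * σ ^ 2) - cb * ((ε - w.b) * T ^ 2) +
            cb * (2 * (p * D) + G) - bs * ((cb : ℝ) + ((cb : ℝ) - ca) * T ^ 2) := by
        rw [hbs]; unfold tanA tanB; field_simp; ring
      have hn : (cb : ℝ) + ((cb : ℝ) - ca) * T ^ 2 ≤ nn := by
        refine le_of_le_of_eq (etaN_ge (ca := (ca : ℝ)) (cb := (cb : ℝ)) N.T0 R.T0 R.T1) ?_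
        rw [hnn]
        unfold etaN
        by_cases hh : cb ≤ ca
        · rw [if_pos hh, if_pos (Rat.cast_le.2 hh)]; push_cast; ring
        · rw [if_neg hh, if_neg (fun h => hh (Rat.cast_le.1 h))]; push_cast; ring
      have h1 := mul_le_mul_of_nonneg_left hn hbs0
      have h2 := mul_le_mul_of_nonneg_left hEσ hca
      have h3 := mul_le_mul_of_nonneg_left hET hcb
      have h4 := mul_le_mul_of_nonneg_left hPD hcb
      have h5 : bs * nn = be * nn * lam := by rw [hlam]; ring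
      rw [e, eM]
      linarith
    refine le_trans (end_sq (al := ((c.e0 : ℝ) - w.b) * ((B.u0 : ℝ) + B.T0) - 2 * P' -
      ((w.k1 B vl : ℚ) : ℝ) * lam) (ah := E * ((B.u1 : ℝ) + B.T1) - 2 * P' -
      ((w.k0 B vl : ℚ) : ℝ) * lam) (gl := gl) (gu := ((w.gu c B vl : ℚ) : ℝ)) hlo.1 hlo.2
      N.gl0 hgu0 hD0' hDl hC hcb hG0 hgu ?_ ?_ ?_) (mul_le_mul_of_nonneg_left hN hC)
    · linarith
    · exact le_trans (le_of_eq (by ring)) l2
    · refine le_trans (le_of_eq ?_) (l3.trans (le_of_eq ?_)) <;> ring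
  have e1 : ((1 + 2 * w.r : ℚ) : ℝ) = 1 + 2 * (w.r : ℝ) := by push_cast; ring
  have e2 : ((1 + 2 / w.r : ℚ) : ℝ) = 1 + 2 / (w.r : ℝ) := by push_cast; ring
  have hr0 : (0 : ℝ) ≤ 2 / (w.r : ℝ) := div_nonneg zero_le_two N.r.le
  have q1 := hpair _ _ hp1 (by rw [e1]; linarith [N.r]) (by norm_num)
  have q2 := hpair _ _ hp2 (by norm_num) (by rw [e2]; linarith)
  rw [e1, Rat.cast_one, one_mul] at q1
  rw [e2, Rat.cast_one, one_mul] at q2
  obtain ⟨L, hL', hle⟩ := core_G (π' := pre m T) (l := l) (Cw := Cw) (Sl := Sl) (p := p) (G := G)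
    (C := C) hpre.le N.b0 N.r P.hR hD hA0 hB0 q1 q2 (by
    have hlin : ((w.lbd c B vl : ℚ) : ℝ) * D ≤
        ((w.L c B vl : ℚ) : ℝ) - 2 * (w.b : ℝ) / T := by
      have elin : ((w.lin c B vl : ℚ) : ℝ) =
          ((w.L c B vl : ℚ) : ℝ) - 2 * (w.b : ℝ) / (B.T0 : ℝ) := by
        simp [MidRow.lin]
      have hbT : 2 * (w.b : ℝ) / T ≤ 2 * (w.b : ℝ) / (B.T0 : ℝ) := by
        rcases N.bT with e | ⟨e, -⟩
        · simp [e]
        · exact div_le_div_of_nonneg_left (by linarith [N.b0]) e R.T0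
      have hl : ((w.lbd c B vl : ℚ) : ℝ) =
          min (((w.lin c B vl : ℚ) : ℝ) / D1) (((w.lin c B vl : ℚ) : ℝ) / D0) := by
        simp only [MidRow.lbd, Rat.cast_min]; push_cast; rw [eD1, eD0]
      rw [hl]
      rcases le_total 0 ((w.lin c B vl : ℚ) : ℝ) with h0 | h0
      · refine (mul_le_mul_of_nonneg_right (min_le_left _ _) hD.le).trans ?_
        have := mul_le_mul_of_nonneg_left hDh (div_nonneg h0 (hD.le.trans hDh))
        rw [div_mul_cancel₀ _ (by linarith : D1 ≠ 0)] at this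
        linarith
      · refine (mul_le_mul_of_nonneg_right (min_le_right _ _) hD.le).trans ?_
        have := mul_le_mul_of_nonpos_left hDl (div_nonpos_of_nonpos_of_nonneg h0 hD0'.le)
        rw [div_mul_cancel₀ _ hD0'.ne'] at this
        linarith
    have hpen : pre m T * bs ≤ pre m T * (((w.pe c B vl : ℚ) : ℝ) * lam * D ^ 2) + Sl := by
      rcases eq_or_ne (w.b : ℝ) 0 with hb | hb
      · have : bs = 0 := by rw [hbs, hb, zero_mul]
        rw [this, mul_zero]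
        positivity
      have hs := hlam1 hb
      have hsl := hSl hb
      have epe : ((w.pe c B vl : ℚ) : ℝ) =
          max 0 (((w.b : ℝ) - ((w.L c B vl : ℚ) : ℝ) * B.T0 / 2) * ((w.es B vl : ℚ) : ℝ) /
            D0 ^ 2) := by
        simp only [MidRow.pe, Rat.cast_max]; push_cast; rw [eD0]
      have h1 : ((w.b : ℝ) - ((w.L c B vl : ℚ) : ℝ) * B.T0 / 2) * ((w.es B vl : ℚ) : ℝ) ≤
          ((w.pe c B vl : ℚ) : ℝ) * D0 ^ 2 := by
        rw [← div_le_iff₀ (pow_pos hD0' 2), epe]; exact le_max_right _ _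
      have h2 := mul_le_mul_of_nonneg_right h1 hl0
      have h3 : ((w.pe c B vl : ℚ) : ℝ) * D0 ^ 2 * lam ≤ ((w.pe c B vl : ℚ) : ℝ) * D ^ 2 * lam :=
        mul_le_mul_of_nonneg_right
          (mul_le_mul_of_nonneg_left (pow_le_pow_left₀ hD0'.le hDl 2) hpe0) hl0
      have h4 : ((w.L c B vl : ℚ) : ℝ) * B.T0 / 2 * ((Y ^ 2 - 1) / T ^ 2) ≤
          ((w.L c B vl : ℚ) : ℝ) * ((Y ^ 2 - 1) / (2 * T)) := by
        rw [show ((w.L c B vl : ℚ) : ℝ) * ((Y ^ 2 - 1) / (2 * T)) =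
          ((w.L c B vl : ℚ) : ℝ) * T / 2 * ((Y ^ 2 - 1) / T ^ 2) by field_simp]
        exact mul_le_mul_of_nonneg_right (div_le_div_of_nonneg_right
          (mul_le_mul_of_nonneg_left R.T0 N.L0) zero_le_two) (div_nonneg hη (sq_nonneg T))
      have h5 : bs ≤ ((w.pe c B vl : ℚ) : ℝ) * lam * D ^ 2 +
          ((w.L c B vl : ℚ) : ℝ) * ((Y ^ 2 - 1) / (2 * T)) := by
        rw [hs] at h4
        rw [hbs, hs]
        linarith
      have h6 := mul_le_mul_of_nonneg_left h5 hpre.le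
      linarith
    have hEC : ε - w.b + C ≤
        ((w.A c B vl : ℚ) : ℝ) + ((w.lbd c B vl : ℚ) : ℝ) - ((w.pe c B vl : ℚ) : ℝ) * lam := by
      rw [hCd]
      simp only [MidRow.C0]
      push_cast
      linarith [N.E]
    have h5 := mul_le_mul_of_nonneg_left (mul_le_mul_of_nonneg_right hEC (sq_nonneg D)) hpre.le
    have h6 := mul_le_mul_of_nonneg_left (mul_le_mul_of_nonneg_right hlin hD.le) hpre.le
    have h7 := mul_le_mul_of_nonneg_right hA (sq_nonneg D)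
    have h8 := mul_le_mul_of_nonneg_right hL hD.le
    rw [show (w.b : ℝ) * (Y ^ 2 - 1) / T ^ 2 = bs by rw [hbs]; ring,
      show 2 * (w.b : ℝ) * (σ - T) / T = 2 * (w.b : ℝ) / T * D by rw [hDd]; ring, ← hDd]
    linarith)
  exact ⟨L, hL', le_trans (by linarith [P.loss_nonneg]) hle⟩

end Vale.Agent.P237.Cal.PosN
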