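import Vale.Agent.P237.Cal.Mid.PosFacts

/-!
# P237: soundness of the rows of `σ ≥ T`, `128 ≤ n ≤ 383`
-/

open Real

namespace Vale.Agent.P237.Cal.PosN

variable {c : MidCase} {B : MidCell} {w : MidRow} {vl : ℚ} {m : ℕ} {q Y ε kap T σ h X : ℝ}

/-- The witness form of the pointwise inequality. -/
def PosGoal (m : ℕ) (q Y ε kap T σ h X : ℝ) : Prop :=
  ∃ L, L ≤ valQ ε T σ h +
      (2 * (shP m (LargeN.c0 m ε) (LargeN.c1 m ε) T / pre m T) * (σ - T) +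
        (gG m ε kap T + 2 * shS m (LargeN.c0 m ε) (LargeN.c1 m ε) T * (X - X0 m T) / pre m T)) *
        (h - 1) ∧
    midLB m q Y ε kap T ≤ pre m T * L + (σ - T) * ellFlat m ε kap (rr (m + 1)) T +
      (σ - T) ^ 2 * (shP' m (LargeN.c0 m ε) (LargeN.c1 m ε) T +
        2 * muX m T * shS m (LargeN.c0 m ε) (LargeN.c1 m ε) T)

/-- The numbers of a row of mode `1` or `2`, against the point. -/
structure RowNum (w : MidRow) (c : MidCase) (B : MidCell) (vl : ℚ) (m : ℕ)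
    (q Y ε kap T σ X : ℝ) : Prop where
  T0 : (0 : ℝ) ≤ B.T0
  b0 : (0 : ℝ) ≤ w.b
  bε : (w.b : ℝ) ≤ ε
  E : ε - w.b ≤ ((w.E c : ℚ) : ℝ)
  bE : (w.b : ℝ) ≤ c.e0
  A1 : ((w.E c : ℚ) : ℝ) * (B.u1 : ℝ) ^ 2 < 1 + w.b
  D1 : (0 : ℝ) < ((MidRow.D1 B : ℚ) : ℝ)
  r : (0 : ℝ) < w.r
  inv : 1 - 2 * (w.kb : ℝ) ≤ (Y ^ (m + 1))⁻¹
  eta : Y ^ 2 - 1 ≤ ((w.eta vl : ℚ) : ℝ)
  eta0 : (0 : ℝ) ≤ ((w.eta vl : ℚ) : ℝ)
  hkb : kap ≤ (w.kb : ℝ)
  P0 : shP m (LargeN.c0 m ε) (LargeN.c1 m ε) T / pre m T ≥ -((MidRow.P1 c B vl : ℚ) : ℝ)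
  gl0 : (0 : ℝ) ≤ ((w.gl c B vl : ℚ) : ℝ)
  gl : -((w.gl c B vl : ℚ) : ℝ) ≤
    gG m ε kap T - negE m Y (LargeN.c0 m ε) (LargeN.c1 m ε) T
  L0 : (0 : ℝ) ≤ ((w.L c B vl : ℚ) : ℝ)
  bT : (w.b : ℝ) = 0 ∨ (0 < (B.T0 : ℝ) ∧ Y ^ 2 - 1 ≤ 2 * T ^ 2)
  fin : ∃ l Cw Sl : ℝ, pre m T * ((w.A c B vl : ℚ) : ℝ) ≤ Cw ∧
    pre m T * ((w.L c B vl : ℚ) : ℝ) ≤ l ∧ 0 ≤ Sl ∧
    ((w.b : ℝ) ≠ 0 → pre m T * ((w.L c B vl : ℚ) : ℝ) * ((Y ^ 2 - 1) / (2 * T)) ≤ Sl) ∧
    (σ - T) * l + (σ - T) ^ 2 * Cw + Sl ≤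
      (σ - T) * ellFlat m ε kap (rr (m + 1)) T +
        (σ - T) ^ 2 * (shP' m (LargeN.c0 m ε) (LargeN.c1 m ε) T +
          2 * muX m T * shS m (LargeN.c0 m ε) (LargeN.c1 m ε) T) +
        (ellFlat m ε kap (rr (m + 1)) T + nuFlat m ε kap T) * -loD Y T + lowTM m ε kap T

/-- The side conditions give the numbers. -/
lemma rowNum (hq : w.commonOK c B vl = true) (he0 : (0 : ℝ) ≤ c.e0) (hvl : (0 : ℝ) < vl)
    (P : MidPt c m q Y ε kap T σ h X) (R : RowPt B vl w.vhi m T σ) :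
    RowNum w c B vl m q Y ε kap T σ X := by
  simp only [MidRow.commonOK, Bool.and_eq_true, decide_eq_true_eq, and_assoc] at hq
  obtain ⟨hy, hk, h1, h2, h3, h4, h5, h6, h7, h8, h9, h10, h11, h12, h13⟩ := hq
  have hm := P.hm
  have hT := P.hR.T_pos
  have hpre : 0 < pre m T := by unfold pre; positivity
  set v := √((m : ℝ) + 2) with hvd
  have hv0 : 0 < v := by rw [hvd]; positivity
  have hv2 : v ^ 2 = (m : ℝ) + 2 := sq_sqrt (by positivity)
  have hT00 : (0 : ℝ) ≤ B.T0 := by exact_mod_cast h12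
  have hb0 : (0 : ℝ) ≤ w.b := by exact_mod_cast h6
  have hbe : (w.b : ℝ) ≤ c.e0 := by exact_mod_cast h7
  have hyl : (0 : ℝ) ≤ c.yl := by exact_mod_cast h8
  have hvh : 0 < (w.vhi : ℝ) := hv0.trans_le R.hi
  have hT1 : 0 < (B.T1 : ℝ) := hT.trans_le R.T1
  have heta := P.eta_le hy h2 h1 hvl.le R.lo R.hi
  have hη : 0 ≤ Y ^ 2 - 1 := sub_nonneg.2 (one_le_pow₀ P.hY)
  have hinv := P.inv_ge hy hk R.hi
  have hkb : kap ≤ (w.kb : ℝ) := by rw [P.hkap]; linarith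
  have hz : (vl : ℝ) ^ 2 * (B.T0 : ℝ) ^ 2 ≤ ((m : ℝ) + 2) * T ^ 2 := by
    rw [← hv2]
    exact mul_le_mul (pow_le_pow_left₀ hvl.le R.lo 2) (pow_le_pow_left₀ hT00 R.T0 2) (sq_nonneg _)
      (sq_nonneg v)
  have hs : 1 + T ^ 2 ≤ 1 + (B.T1 : ℝ) ^ 2 := by linarith [pow_le_pow_left₀ hT.le R.T1 2]
  have hE : ε - w.b ≤ ((w.E c : ℚ) : ℝ) := by
    simp only [MidRow.E]; push_cast; linarith [P.he1]
  have hgl : -((w.gl c B vl : ℚ) : ℝ) ≤
      gG m ε kap T - negE m Y (LargeN.c0 m ε) (LargeN.c1 m ε) T := by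
    have hmn : min ((Y ^ 2 - 1) / (T * √(1 + ((m : ℝ) + 2) * T ^ 2 / 3))) (2 * T / 3) ≤
        ((w.mn B vl : ℚ) : ℝ) := by
      simp only [MidRow.mn]
      split_ifs with h
      · obtain ⟨s1, s2⟩ := h13 h
        have s1' : (0 : ℝ) < w.sq := by exact_mod_cast s1
        have h' : (0 : ℝ) < B.T0 := by exact_mod_cast h
        have s2' : ((w.sq ^ 2 : ℚ) : ℝ) ≤ ((1 + MidRow.z0 B vl / 3 : ℚ) : ℝ) := Rat.cast_le.2 s2
        simp only [MidRow.z0] at s2'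
        push_cast at s2' ⊢
        refine min_le_min (div_le_div₀ (hη.trans heta) heta (mul_pos h' s1')
          (mul_le_mul R.T0 (le_sqrt_of_sq_le ?_) s1'.le hT.le)) (by linarith [R.T1])
        linarith
      · refine (min_le_right _ _).trans ?_
        push_cast
        linarith [R.T1]
    have hneg := negE_le_cell hm P.ε0 P.he1 hT R.T1 hvl R.lo P.hY hmn
    have hkl := P.kl_le hyl
    have hg := (gG_cell (m := m) (kl := ((MidRow.kl c : ℚ) : ℝ)) (kb := (w.kb : ℝ)) he0 P.he0 P.he1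
      (by
        simp only [MidRow.kl, ex3]; push_cast
        have h1 : (1 : ℝ) ≤ 1 + (c.yl : ℝ) + (c.yl : ℝ) ^ 2 / 2 + (c.yl : ℝ) ^ 3 / 6 := by
          linarith [sq_nonneg (c.yl : ℝ), pow_nonneg hyl 3]
        have h2 : 1 / (1 + (c.yl : ℝ) + (c.yl : ℝ) ^ 2 / 2 + (c.yl : ℝ) ^ 3 / 6) ≤ 1 :=
          (div_le_one (by linarith)).2 h1
        linarith) hkl hkb hT00 R.T0 R.T1 hvl R.lo R.hi).1
    simp only [MidRow.gl, Rat.cast_max]
    push_cast
    refine le_trans (neg_le_neg (le_max_right _ _)) ?_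
    linarith
  have hA0 : pre m T * ((c.e0 : ℝ) * (9 / 5 / ((w.vhi : ℝ) * B.T1) +
      6 / 5 * (vl : ℝ) * B.T0 / (1 + (B.T1 : ℝ) ^ 2))) ≤
      shP' m (LargeN.c0 m ε) (LargeN.c1 m ε) T +
        2 * muX m T * shS m (LargeN.c0 m ε) (LargeN.c1 m ε) T := by
    rw [show LargeN.c0 m ε = 9 / 5 * ε / v from rfl, show LargeN.c1 m ε = 6 / 5 * ε * v from rfl,
      shapes_A (ε := ε) hv0 hT rfl rfl]
    refine mul_le_mul_of_nonneg_left (mul_le_mul P.he0 (add_le_add ?_ ?_) (by positivity) P.ε0) hpre.le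
    · exact div_le_div_of_nonneg_left (by norm_num) (by positivity)
        (mul_le_mul R.hi R.T1 hT.le hvh.le)
    · refine div_le_div₀ (by positivity) ?_ (by positivity) hs
      exact mul_le_mul (mul_le_mul_of_nonneg_left R.lo (by norm_num)) R.T0 hT00 (by positivity)
  have hlow := lowT_nonneg (m := m) (kap := kap) (T := T) P.ε0
  have hbT : (w.b : ℝ) = 0 ∨ (0 < (B.T0 : ℝ) ∧ Y ^ 2 - 1 ≤ 2 * T ^ 2) := by
    rcases eq_or_ne w.b 0 with hb | hb
    · exact .inl (by exact_mod_cast hb)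
    refine .inr ⟨?_, ?_⟩
    · rcases eq_or_lt_of_le h12 with e | e
      · exact absurd (h3 (by simp [MidRow.z0, ← e])) hb
      · exact_mod_cast e
    · have h' : ((w.eta vl : ℚ) : ℝ) ≤ ((2 * B.T0 ^ 2 : ℚ) : ℝ) :=
        Rat.cast_le.2 (h5.resolve_left hb)
      push_cast at h'
      linarith [pow_le_pow_left₀ hT00 R.T0 2]
  have hfin : (0 : ℝ) ≤ ((w.L c B vl : ℚ) : ℝ) ∧ ∃ l Cw Sl : ℝ,
      pre m T * ((w.A c B vl : ℚ) : ℝ) ≤ Cw ∧ pre m T * ((w.L c B vl : ℚ) : ℝ) ≤ l ∧ 0 ≤ Sl ∧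
      ((w.b : ℝ) ≠ 0 → pre m T * ((w.L c B vl : ℚ) : ℝ) * ((Y ^ 2 - 1) / (2 * T)) ≤ Sl) ∧
      (σ - T) * l + (σ - T) ^ 2 * Cw + Sl ≤
        (σ - T) * ellFlat m ε kap (rr (m + 1)) T +
          (σ - T) ^ 2 * (shP' m (LargeN.c0 m ε) (LargeN.c1 m ε) T +
            2 * muX m T * shS m (LargeN.c0 m ε) (LargeN.c1 m ε) T) +
          (ellFlat m ε kap (rr (m + 1)) T + nuFlat m ε kap T) * -loD Y T + lowTM m ε kap T := by
    rcases lt_or_ge (MidRow.z0 B vl) (5 / 2) with hzl | hzl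
    · have hb : (w.b : ℝ) = 0 := by exact_mod_cast h3 hzl
      have hL : ((w.L c B vl : ℚ) : ℝ) = 0 := by simp [MidRow.L, hzl]
      refine ⟨hL.ge, 0, shP' m (LargeN.c0 m ε) (LargeN.c1 m ε) T +
        2 * muX m T * shS m (LargeN.c0 m ε) (LargeN.c1 m ε) T - pre m T * ((c.e1 : ℝ) / 5), 0, ?_,
        by rw [hL, mul_zero], le_rfl, fun h => absurd hb h, ?_⟩
      · simp only [MidRow.A, if_pos hzl]
        push_cast
        linarith
      have hD := sub_nonneg.2 P.hσ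
      have hSl := P.slack
      rcases le_or_gt (((m : ℝ) + 2) * T ^ 2) (28 / 5) with hz6 | hz6
      · have hl := neg_lowE_le (m := m) (by omega) P.ε0 P.kap0 P.kap_half hT
        have hsq := lowE_sq_le (m := m) (kap := kap) (show 0 < ε by linarith [P.hε1]) hT hz6
        have hε0 : 0 < ε := by linarith [P.hε1]
        have key : lowE m ε kap T * (σ - T) ≤
            ε / 5 * (σ - T) ^ 2 + 5 * lowE m ε kap T ^ 2 / (4 * ε) := by
          rw [← sub_le_iff_le_add', le_div_iff₀ (by positivity)]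
          linarith [sq_nonneg (2 * ε * (σ - T) - 5 * lowE m ε kap T)]
        have h1 := mul_le_mul_of_nonneg_left key hpre.le
        have h2 := mul_le_mul_of_nonneg_right hl hD
        have h3 := mul_le_mul_of_nonneg_left (mul_le_mul_of_nonneg_right P.he1
          (sq_nonneg (σ - T))) hpre.le
        simp only [lowTM]
        have e : pre m T * (5 * lowE m ε kap T ^ 2 / (4 * ε)) =
            pre m T * (25 * lowE m ε kap T ^ 2 / (4 * ε)) / 5 := by ring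
        rw [mul_add, e] at h1
        linarith
      · have hl : 0 ≤ ellFlat m ε kap (rr (m + 1)) T :=
          le_trans (by have := P.ε0; positivity) (ellFlat_quad (m := m) (by omega) (by linarith [P.hε1])
            (by linarith [P.hε2]) P.kap0 P.kap_half hT (by linarith)
            (by linarith [pow_le_pow_left₀ hT.le P.hT47 2]))
        have := mul_nonneg hD hl
        have : 0 ≤ pre m T * ((c.e1 : ℝ) / 5) * (σ - T) ^ 2 :=
          mul_nonneg (mul_nonneg hpre.le (by linarith [P.he1, P.hε1])) (sq_nonneg _)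
        simp only [lowTM]
        linarith
    · have hzl' : ¬MidRow.z0 B vl < 5 / 2 := not_lt.2 hzl
      have hzr : ((5 / 2 : ℚ) : ℝ) ≤ ((MidRow.z0 B vl : ℚ) : ℝ) := Rat.cast_le.2 hzl
      have htc : ((0 : ℚ) : ℝ) ≤ ((tcM (1 + B.T1 ^ 2 / 2) w.kb : ℚ) : ℝ) := Rat.cast_le.2 (h4 hzl)
      simp only [tcM] at htc
      simp only [MidRow.z0] at hzr
      push_cast at hzr htc
      have hl := ellFlat_mid hm he0 P.he0 P.kap0 hkb hT hT00 R.T0 R.T1 hzr hz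
        (by simpa only [tcM] using htc)
      have eL : ((w.L c B vl : ℚ) : ℝ) = (1 + (c.e0 : ℝ)) * tcM (1 + (B.T1 : ℝ) ^ 2 / 2) (w.kb : ℝ) *
          B.T0 * ((vl : ℝ) ^ 2 * (B.T0 : ℝ) ^ 2 - 101 / 100) ^ 2 /
          ((vl : ℝ) ^ 2 * (B.T0 : ℝ) ^ 2 * (1 + (B.T1 : ℝ) ^ 2)) := by
        simp only [MidRow.L, if_neg hzl']
        simp only [tcM, MidRow.z0]
        push_cast
        ring
      have hL0 : (0 : ℝ) ≤ ((w.L c B vl : ℚ) : ℝ) := by
        rw [eL]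
        exact div_nonneg (mul_nonneg (mul_nonneg (mul_nonneg (by linarith)
          (by simpa only [tcM] using htc)) hT00) (sq_nonneg _)) (by positivity)
      rw [← eL] at hl
      refine ⟨hL0, ellFlat m ε kap (rr (m + 1)) T, shP' m (LargeN.c0 m ε) (LargeN.c1 m ε) T +
        2 * muX m T * shS m (LargeN.c0 m ε) (LargeN.c1 m ε) T,
        (ellFlat m ε kap (rr (m + 1)) T + nuFlat m ε kap T) * -loD Y T, ?_, hl, P.slack, ?_, ?_⟩
      · simp only [MidRow.A, if_neg hzl']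
        push_cast
        rw [sub_zero]
        exact hA0
      · intro hb
        refine le_trans (mul_le_mul_of_nonneg_right hl (by positivity)) ?_
        exact slack_ge P.hY hT (nuFlat_nonneg (by linarith [P.ε0]) P.kap0 hT.le)
          (MidN.slack_nonneg (by omega) P.ε0 P.kap0 P.kap_half P.hY hT).1 (hbT.resolve_left hb).2
      · simp only [lowTM]
        linarith
  refine ⟨hT00, hb0, hbe.trans P.he0, hE, hbe, ?_, by exact_mod_cast h11, by exact_mod_cast h9,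
    hinv, heta, hη.trans heta, hkb, ?_, ?_, hgl, hfin.1, hbT, hfin.2⟩
  · have : ((w.E c * B.u1 ^ 2 : ℚ) : ℝ) < ((1 + w.b : ℚ) : ℝ) := Rat.cast_lt.2 h10
    push_cast at this
    exact this
  · have hp : ((MidRow.P1 c B vl : ℚ) : ℝ) =
        (c.e1 : ℝ) * ((MidRow.pP B vl : ℚ) : ℝ) / vl := by simp [MidRow.P1]
    rw [ge_iff_le, hp]
    refine field_hi (z0 := (vl : ℝ) ^ 2 * (B.T0 : ℝ) ^ 2) hm P.ε0 P.he1 hT hvl R.lo hz ?_
    simp only [MidRow.pP]
    split_ifs with h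
    · rcases min_choice (33 / 10 : ℚ) (6 / 5 + 21 / 5 * (1 / MidRow.z0 B vl + 1 / 128)) with e | e
      · left; rw [e]; push_cast; norm_num
      · right
        have h' : ((0 : ℚ) : ℝ) < ((MidRow.z0 B vl : ℚ) : ℝ) := Rat.cast_lt.2 h
        simp only [MidRow.z0] at h' e
        push_cast at h'
        refine ⟨h', ?_⟩
        simp only [MidRow.z0]
        rw [e]; push_cast; ring
    · left; push_cast; norm_num
  · simp only [MidRow.gl, Rat.cast_max]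
    push_cast
    exact le_max_left _ _

/-- A witness with the loss of the terms gives the goal. -/
lemma goal_of_fin (P : MidPt c m q Y ε kap T σ h X) {l Cw Sl : ℝ}
    (hfin : (σ - T) * l + (σ - T) ^ 2 * Cw + Sl ≤
      (σ - T) * ellFlat m ε kap (rr (m + 1)) T +
        (σ - T) ^ 2 * (shP' m (LargeN.c0 m ε) (LargeN.c1 m ε) T +
          2 * muX m T * shS m (LargeN.c0 m ε) (LargeN.c1 m ε) T) +
        (ellFlat m ε kap (rr (m + 1)) T + nuFlat m ε kap T) * -loD Y T + lowTM m ε kap T)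
    (hmain : ∃ L, L ≤ valQ ε T σ h +
        (2 * (shP m (LargeN.c0 m ε) (LargeN.c1 m ε) T / pre m T) * (σ - T) +
          (gG m ε kap T + 2 * shS m (LargeN.c0 m ε) (LargeN.c1 m ε) T * (X - X0 m T) / pre m T)) *
          (h - 1) ∧
      -(gTM m ε kap T + upTM m (q * semiMom m 1) Y (LargeN.c0 m ε) (LargeN.c1 m ε) T +
          ngTM m Y (LargeN.c0 m ε) (LargeN.c1 m ε) T) ≤
        pre m T * L + (σ - T) * l + (σ - T) ^ 2 * Cw + Sl) :
    PosGoal m q Y ε kap T σ h X := by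
  obtain ⟨L, hL, hle⟩ := hmain
  refine ⟨L, hL, ?_⟩
  have heta : 0 ≤ etaM m Y T := by
    unfold etaM
    have := pre_nonneg m T
    positivity
  simp only [midLB, lossTM]
  linarith

end Vale.Agent.P237.Cal.PosN
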